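import Mathlib.Computability.TuringMachine.Computable
import Mathlib.Combinatorics.SimpleGraph.LapMatrix
import Mathlib.Data.Real.Basic

namespace Vale.Agent.N049D

/-- The word `out a` is computed from the word `code a` by a deterministic multi-stack Turing
machine with finite alphabets, in time polynomial in the length of `code a`. -/
def PolyTime {α : Type} (code out : α → List Bool) : Prop :=
  ∃ M : Turing.TM2ComputableInPolyTime code (fun w : List Bool => w) out, ∀ k, Finite (M.tm.Γ k)

/-- The adjacency matrix of a graph on `Fin n`, row by row. -/
def adjWord {n : ℕ} (G : SimpleGraph (Fin n)) [DecidableRel G.Adj] : List Bool :=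
  (List.finRange n).flatMap fun i => (List.finRange n).map fun j => decide (G.Adj i j)

/-- A list of numbers in unary: each entry `k` is written as `k` letters `true` and one `false`. -/
def unaryList (D : List ℕ) : List Bool := D.flatMap fun k => List.replicate k true ++ [false]

/-- The mean branching number `∑ dᵢ (dᵢ - 1) / ∑ dᵢ` of a degree sequence. -/
noncomputable def branching (D : List ℕ) : ℝ :=
  ((D.map fun k => k * (k - 1)).sum : ℕ) / (D.sum : ℕ)

/-- The Bethe Hessian `(r ^ 2 - 1) I - r A + D` (`A` adjacency matrix, `D` degree matrix). -/
noncomputable def betheHessian {V : Type} [Fintype V] [DecidableEq V] (G : SimpleGraph V)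
    [DecidableRel G.Adj] (r : ℝ) : Matrix V V ℝ :=
  (r ^ 2 - 1) • (1 : Matrix V V ℝ) - r • G.adjMatrix ℝ + G.degMatrix ℝ

end Vale.Agent.N049D
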