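import Vale.Agent.N049D.Gen
import Vale.Agent.N049D.Defs

/-!
# The parameters: branching bound `q = a / b`, weight `κ` on the first `h` vertices
-/

namespace Vale.Agent.N049D

open Finset Vale.Agent.P049 Vale.Agent.Lib.PolyTime Vale.Agent.P315.H155

/-- A rational approximation of `(1 - η) / √(a / b)`. -/
def parR (a b M e : ℕ) : ℚ := (Nat.sqrt (M ^ 2 * (M - e) ^ 2 * b / a) : ℚ) / (M : ℚ) ^ 2

theorem parR_bounds {a b M e : ℕ} {q : ℝ} (hq : q * b = a) (hb : 0 < b) (hq1 : 1 ≤ q) (hqM : q ≤ M)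
    (he1 : 1 ≤ e) (he : 2 * e ≤ M) :
    (1 - 2 * ((e : ℝ) / M)) ^ 2 ≤ q * (parR a b M e : ℝ) ^ 2 ∧
      q * (parR a b M e : ℝ) ^ 2 ≤ (1 - (e : ℝ) / M) ^ 2 := by
  have hM' : (0 : ℝ) < M := by linarith
  have hb' : (0 : ℝ) < b := by exact_mod_cast hb
  have ha : 0 < a := by
    have : (0 : ℝ) < a := by rw [← hq]; positivity
    exact_mod_cast this
  set X := M ^ 2 * (M - e) ^ 2 * b with hX
  set r := Nat.sqrt (X / a) with hr
  have hXc : (X : ℝ) = (M : ℝ) ^ 2 * ((M : ℝ) - e) ^ 2 * b := by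
    rw [hX]
    push_cast [Nat.cast_sub (by omega : e ≤ M)]
    ring
  have h1 : X < a * (r + 1) ^ 2 :=
    (Nat.lt_mul_div_succ X ha).trans_le (Nat.mul_le_mul_left a (Nat.lt_succ_sqrt' _))
  have h1' : a * r ^ 2 ≤ X :=
    (Nat.mul_le_mul_left a (Nat.sqrt_le' _)).trans (Nat.mul_div_le X a)
  have h2 : (M : ℝ) ^ 2 * ((M : ℝ) - e) ^ 2 < q * ((r : ℝ) + 1) ^ 2 := by
    have : (X : ℝ) < (a : ℝ) * ((r : ℝ) + 1) ^ 2 := by exact_mod_cast h1
    rw [hXc, ← hq] at this
    exact lt_of_mul_lt_mul_right (by linarith) hb'.le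
  have h2' : q * (r : ℝ) ^ 2 ≤ (M : ℝ) ^ 2 * ((M : ℝ) - e) ^ 2 := by
    have : (a : ℝ) * (r : ℝ) ^ 2 ≤ (X : ℝ) := by exact_mod_cast h1'
    rw [hXc, ← hq] at this
    exact le_of_mul_le_mul_right (by linarith) hb'
  have he1' : (1 : ℝ) ≤ e := by exact_mod_cast he1
  have he' : 2 * (e : ℝ) ≤ M := by exact_mod_cast he
  have hr0 : (0 : ℝ) ≤ r := Nat.cast_nonneg r
  set v := √q with hv
  have hv0 : 0 < v := Real.sqrt_pos.2 (by linarith)
  have hv2 : v ^ 2 = q := Real.sq_sqrt (by linarith)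
  have hvM : v ≤ M := by nlinarith
  have h3 : (M : ℝ) * (M - e) < v * (r + 1) := by
    refine lt_of_pow_lt_pow_left₀ 2 (by positivity) ?_
    rw [mul_pow, mul_pow, hv2]
    exact h2
  have h4 : (M : ℝ) * (M - 2 * e) ≤ v * r := by nlinarith
  have h5 : ((M : ℝ) * (M - 2 * e)) ^ 2 ≤ (v * r) ^ 2 :=
    pow_le_pow_left₀ (mul_nonneg hM'.le (by linarith)) h4 2
  have e1 : (parR a b M e : ℝ) = r / (M : ℝ) ^ 2 := by
    unfold parR
    rw [← hX, ← hr]
    push_cast
    rfl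
  rw [e1]
  constructor
  · have e2 : q * ((r : ℝ) / (M : ℝ) ^ 2) ^ 2 = (v * r) ^ 2 / ((M : ℝ) ^ 2) ^ 2 := by
      rw [← hv2]; ring
    rw [e2, le_div_iff₀ (by positivity)]
    refine le_trans (le_of_eq ?_) h5
    field_simp
  · rw [div_pow, ← mul_div_assoc, div_le_iff₀ (by positivity)]
    refine h2'.trans (le_of_eq ?_)
    field_simp

/-- The parameter `m`. -/
def parm (a b N : ℕ) : ℚ := parR a b N (2 * parY N ^ 668668)

/-- The parameter `p`. -/
def parp (a b N : ℕ) : ℚ := parm a b N + 16 * (2 * (parY N : ℚ) ^ 668668 / N) ^ 2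

/-- The vertex weights. -/
def wt (a b N h κ u : ℕ) : ℚ := if u < h then κ else parp a b N

/-- The partner function. -/
def rhoC (w v : List ℕ) (d a b h κ : ℕ) : ℕ → ℕ :=
  rhoG w v v.length d (parm a b v.length) (wt a b v.length h κ)

section PT

variable {α : Type*} [Enc α]

theorem PT_parR {a b M e : α → ℕ} (ha : PT ∅ a) (hb : PT ∅ b) (hM : PT ∅ M) (he : PT ∅ e) :
    PT ∅ fun x => parR (a x) (b x) (M x) (e x) := by
  unfold parR
  exact PT_ratDiv (PT_natCast (PT.natSqrt ((((hM.powConst 2).mul ((hM.sub he).powConst 2)).mul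
    hb).div ha))) (PT_ratPowConst (PT_natCast hM) 2)

theorem PT_parm {a b N : α → ℕ} (ha : PT ∅ a) (hb : PT ∅ b) (hN : PT ∅ N) (hNb : PBd N) :
    PT ∅ fun x => parm (a x) (b x) (N x) :=
  PT_parR ha hb hN ((PT.const 2).mul ((PT_parY hN hNb).powConst 668668))

theorem PT_parp {a b N : α → ℕ} (ha : PT ∅ a) (hb : PT ∅ b) (hN : PT ∅ N) (hNb : PBd N) :
    PT ∅ fun x => parp (a x) (b x) (N x) :=
  PT_ratAdd (PT_parm ha hb hN hNb) (PT_ratMul (PT.const 16) (PT_ratPowConst (PT_ratDiv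
    (PT_ratMul (PT.const 2) (PT_ratPowConst (PT_natCast (PT_parY hN hNb)) 668668))
    (PT_natCast hN)) 2))

theorem PT_wt {a b N h κ u : α → ℕ} (ha : PT ∅ a) (hb : PT ∅ b) (hN : PT ∅ N) (hNb : PBd N)
    (hh : PT ∅ h) (hκ : PT ∅ κ) (hu : PT ∅ u) :
    PT ∅ fun x => wt (a x) (b x) (N x) (h x) (κ x) (u x) := by
  have h1 := PT_parp ha hb hN hNb
  unfold wt
  generalize parp = f at h1
  exact PT.ite (PT.lt hu hh) (PT_natCast hκ) h1

theorem PT_rhoC {w v : α → List ℕ} {d a b h κ : α → ℕ} (hw : PT ∅ w)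
    (hv : PT ∅ v) (hd : PT ∅ d) (ha : PT ∅ a) (hb : PT ∅ b) (hh : PT ∅ h) (hκ : PT ∅ κ) :
    PT ∅ fun p : α × ℕ => rhoC (w p.1) (v p.1) (d p.1) (a p.1) (b p.1) (h p.1) (κ p.1) p.2 := by
  have hN := hv.length
  have hNb := PBd_length hv
  have hP : PT ∅ fun p : α × ℕ => wt (a p.1) (b p.1) (v p.1).length (h p.1) (κ p.1) p.2 :=
    PT_wt (ha.comp PT.fst') (hb.comp PT.fst') (hN.comp PT.fst') (hNb.comp (A := ∅) PT.fst')
      (hh.comp PT.fst') (hκ.comp PT.fst') PT.snd'
  have hm := PT_parm ha hb hN hNb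
  have key := PT_rhoG (P := fun x => wt (a x) (b x) (v x).length (h x) (κ x)) hw hv hN hNb hd hm hP
  exact key

end PT

theorem rsum_eq (V : ℕ → ℕ) (P : ℕ → ℝ) (N a : ℕ) :
    rsum V P N a = P (V a) * ((range N).filter fun c => V c = V a).card := by
  unfold rsum blk
  rw [← sum_filter, sum_const, nsmul_eq_mul, mul_comm]
  simp only [eq_comm]

theorem eta_small {y N : ℝ} (hy : 200 ≤ y) (h1 : y ^ 1000000 ≤ N) (h2 : N ≤ 2 * y ^ 1000000) :
    3 * (2 * y ^ 668668 / N) ≤ N ^ (-(33 / 100 : ℝ)) := by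
  have hy0 : 0 < y := by linarith
  have hy1 : 1 ≤ y := by linarith
  have hN0 : 0 < N := lt_of_lt_of_le (by positivity) h1
  have h3 : N ^ (33 / 100 : ℝ) ≤ y ^ 330001 := by
    have a1 : N ≤ y ^ 1000001 := h2.trans (mul_pow_le_pow hy1 (by linarith) le_rfl)
    refine (Real.rpow_le_rpow hN0.le a1 (by norm_num)).trans ?_
    rw [← Real.rpow_natCast, ← Real.rpow_natCast, ← Real.rpow_mul hy0.le]
    exact Real.rpow_le_rpow_of_exponent_le hy1 (by norm_num)
  rw [Real.rpow_neg hN0.le]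
  refine le_trans ?_ (inv_anti₀ (by positivity) h3)
  rw [← one_div, le_div_iff₀ (by positivity), ← mul_div_assoc, div_mul_eq_mul_div,
    div_le_one hN0, mul_assoc, mul_assoc, ← pow_add, ← mul_assoc]
  exact (mul_pow_le_pow hy1 (by linarith) (by norm_num)).trans h1

theorem core {w v : List ℕ} {d n a b h κ : ℕ} {q : ℝ} (hd : 3 ≤ d) (hN : d ^ 10 ^ 8 ≤ v.length)
    (hW : Fib (look 0 w) v.length d) (hV : Fib (look 0 v) v.length d)
    (hn : ∀ c < v.length, look 0 v c < n) (hq : q * b = a) (hb : 0 < b) (hq2 : 2 ≤ q) (hqd : q ≤ d)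
    (hρ : ∑ c ∈ range v.length, ((((range v.length).filter fun e =>
      look 0 v e = look 0 v c).card : ℝ) - 1) ≤ q * v.length) (hκ1 : 1 ≤ κ) (hκd : κ ≤ d)
    (hh : ((range v.length).filter fun c => look 0 v c < h).card ≤ d) :
    ∃ (g : ℕ) (m η : ℝ), 2 ≤ g ∧ Nat.log (d + 1) v.length / 10 ^ 6 ≤ g ∧ 0 < m ∧ 0 < η ∧
      η ≤ 1 / 100 ∧ 3 * η ≤ (v.length : ℝ) ^ (-(33 / 100 : ℝ)) ∧ (1 - 2 * η) ^ 2 ≤ q * m ^ 2 ∧
      q * m ^ 2 ≤ (1 - η) ^ 2 ∧
      Pairing (look 0 w) v.length g m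
        (iniV 1 m (look 0 v) (fun u => if u < h then (κ : ℝ) else m + 16 * η ^ 2) v.length)
        (iniV (-1) m (look 0 v) (fun u => if u < h then (κ : ℝ) else m + 16 * η ^ 2) v.length)
        (rhoC w v d a b h κ) := by
  unfold rhoC
  generalize v.length = N at *
  obtain ⟨hy1, hy2, hN1, hb2, hN2⟩ := parY_facts hd hN
  obtain ⟨y, hy⟩ : ∃ y : ℝ, y = parY N := ⟨_, rfl⟩
  have hd' : (3 : ℝ) ≤ d := by exact_mod_cast hd
  have hy1' : (d : ℝ) ^ 100 ≤ y := by rw [hy]; exact_mod_cast hy1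
  have hy2' : (10 : ℝ) ^ 30 ≤ y := by rw [hy]; exact_mod_cast hy2
  have hN1' : y ^ 1000000 ≤ N := by rw [hy]; exact_mod_cast hN1
  have hy3 : 1000 ≤ y := le_trans (by norm_num) hy2'
  have hy0 : 0 < y := by linarith
  have hyo : 1 ≤ y := by linarith
  have hN0 : (0 : ℝ) < N := lt_of_lt_of_le (pow_pos hy0 _) hN1'
  have hyN : y ≤ N := (le_self_pow₀ hyo (by norm_num)).trans hN1'
  have hdy : ∀ j : ℕ, j ≤ 100 → (d : ℝ) ^ j ≤ y := fun j hj =>
    (pow_le_pow_right₀ (by linarith) hj).trans hy1'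
  have he1 : 1 ≤ 2 * parY N ^ 668668 := by
    have := Nat.one_le_pow 668668 (parY N) (by omega)
    omega
  have he4 : 2 * (2 * parY N ^ 668668) ≤ N := by
    have h1 : parY N ^ 668668 * parY N ≤ parY N ^ 1000000 := by
      rw [← pow_succ]
      exact Nat.pow_le_pow_right (by omega) (by norm_num)
    have h2 : parY N ^ 668668 * 8 ≤ parY N ^ 668668 * parY N := Nat.mul_le_mul_left _ (by omega)
    omega
  obtain ⟨m2, m1⟩ := parR_bounds hq hb (by linarith)
    (hqd.trans (((pow_one _).symm.trans_le (hdy 1 (by norm_num))).trans hyN)) he1 he4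
  obtain ⟨η, hη⟩ : ∃ η : ℝ, η = 2 * y ^ 668668 / N := ⟨_, rfl⟩
  have hηe : ((2 * parY N ^ 668668 : ℕ) : ℝ) / N = η := by
    rw [hη, hy, Nat.cast_mul, Nat.cast_pow, Nat.cast_ofNat]
  change _ ≤ q * (parm a b N : ℝ) ^ 2 at m2
  change q * (parm a b N : ℝ) ^ 2 ≤ _ at m1
  rw [hηe] at m1 m2
  have hP : (fun u => (wt a b N h κ u : ℝ)) =
      fun u => if u < h then (κ : ℝ) else parm a b N + 16 * η ^ 2 := by
    funext u
    unfold wt parp
    split_ifs
    · simp
    · rw [hη, hy, Rat.cast_add, Rat.cast_mul, Rat.cast_pow, Rat.cast_div, Rat.cast_mul,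
        Rat.cast_pow, Rat.cast_natCast, Rat.cast_natCast, Rat.cast_ofNat, Rat.cast_ofNat]
  have hm00 : (0 : ℝ) ≤ parm a b N := by
    unfold parm parR
    push_cast
    positivity
  rw [← hy] at hb2 hN2
  have hη0 : 0 < η := by rw [hη]; positivity
  have hηy : η ≤ 2 / y := hη ▸ eta_le hy3 hN1'
  have hηd : 100 * q * η ≤ 1 := by
    have a1 : (d : ℝ) ^ 6 ≤ y := hdy 6 (by norm_num)
    have a2 : (3 : ℝ) ^ 5 ≤ d ^ 5 := pow_le_pow_left₀ (by norm_num) hd' 5
    have a3 : 200 * q ≤ y := by nlinarith only [a1, a2, hqd, hd']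
    rw [le_div_iff₀ hy0] at hηy
    nlinarith only [a3, hηy, hη0]
  have hη1 : η ≤ 1 / 200 := by nlinarith only [hηd, hq2, hη0]
  have key := @pairing_gen w v N d n (parm a b N) (wt a b N h κ) (d * d) y hd hN hW hn
  have hPu : ∀ u, (wt a b N h κ u : ℝ) =
      if u < h then (κ : ℝ) else parm a b N + 16 * η ^ 2 := congrFun hP
  rw [hP] at key
  simp only [hPu] at key
  generalize ((parm a b N : ℚ) : ℝ) = m at *
  have hm0 : 0 < m := by
    rcases hm00.lt_or_eq with h0 | h0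
    · exact h0
    · rw [← h0] at m2
      nlinarith only [m2, hη1, hη0]
  have hm2 := par_m_sq hq2 hη0 (by linarith) m1
  have hm1 : m ≤ 3 / 4 := by nlinarith only [hm2, hm0]
  have hsub := par_sub hq2 hm0 hη0 hηd m1
  have hη3 : η ^ 2 ≤ (1 / 200) ^ 2 := pow_le_pow_left₀ hη0.le hη1 2
  obtain ⟨p, hp⟩ : ∃ p, p = m + 16 * η ^ 2 := ⟨_, rfl⟩
  rw [← hp] at key hsub
  have hp0 : 0 < p := by rw [hp]; positivity
  have hp1 : p ≤ 1 := by linarith
  have hκ1' : (1 : ℝ) ≤ κ := by exact_mod_cast hκ1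
  have hκd' : (κ : ℝ) ≤ d := by exact_mod_cast hκd
  have hηN : η * N = 2 * y ^ 668668 := by rw [hη, div_mul_cancel₀ _ hN0.ne']
  have hNη : N * (16 * η ^ 2) ≤ y ^ 337337 := by
    refine le_of_mul_le_mul_right ?_ hN0
    have e1 : N * (16 * η ^ 2) * N = 64 * y ^ (668668 * 2) := by
      rw [show N * (16 * η ^ 2) * N = 16 * (η * N) ^ 2 by ring, hηN, mul_pow, pow_mul]; ring
    rw [e1]
    refine (mul_pow_le_pow hyo (by linarith) le_rfl).trans
      (le_trans (le_of_eq ?_) (mul_le_mul_of_nonneg_left hN1' (by positivity)))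
    rw [← pow_add]
  -- sums with an exceptional set
  have exc : ∀ (f : ℕ → ℝ) (g : ℕ → ℝ) (C : ℝ), 0 ≤ C →
      (∀ c < N, f c ≤ g c + if look 0 v c < h then C else 0) →
      ∑ c ∈ range N, f c ≤ ∑ c ∈ range N, g c + d * C := fun f g C hC hf => by
    refine (sum_le_sum fun c hc => hf c (mem_range.1 hc)).trans ?_
    rw [sum_add_distrib, ← sum_filter, sum_const, nsmul_eq_mul]
    exact add_le_add le_rfl (mul_le_mul_of_nonneg_right (by exact_mod_cast hh) hC)
  have e1 : ∀ c : ℝ, ∑ _a ∈ range N, c = N * c := fun c => by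
    rw [sum_const, card_range, nsmul_eq_mul]
  have hfib : ∀ c, (((range N).filter fun e => look 0 v e = look 0 v c).card : ℝ) ≤ d :=
    fun c => by exact_mod_cast hV _
  have p2 : ∀ i : ℕ, i ≠ 0 → y ^ i + y ≤ y ^ (i + 1) := fun i hi => by
    have := le_self_pow₀ hyo hi
    have := mul_pow_le_pow (c := 2) hyo (by linarith) (le_refl (i + 1))
    linarith
  obtain ⟨g, g1, g2, g3⟩ := key hm0 hm2 (fun u => by split_ifs <;> linarith) (by positivity)
    (fun c _ => by
      rw [rsum_eq]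
      exact mul_le_mul (by split_ifs <;> linarith) (hfib c) (Nat.cast_nonneg _) (by linarith))
    hy (by
      have a1 : 3 * ((d : ℝ) * d) + 3 ≤ d ^ 4 := by nlinarith only [hd', sq_nonneg ((d : ℝ) ^ 2 - 9)]
      have a2 : (3 : ℝ) ^ 5 ≤ d ^ 5 := pow_le_pow_left₀ (by norm_num) hd' 5
      have a3 := pow_le_pow_left₀ (by positivity) a1 4
      refine le_trans (mul_le_mul (le_trans (by norm_num) a2) a3 (by positivity) (by positivity))
        (le_trans (le_of_eq (by ring)) (hdy 21 (by norm_num))))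
    (by
      refine (exc _ (fun _ => 16 * η ^ 2) d (by linarith) fun c _ => ?_).trans ?_
      · split_ifs
        · rw [abs_of_nonneg (by linarith)]
          nlinarith only [hκd', hm0, sq_nonneg η]
        · rw [hp, add_sub_cancel_left, abs_of_nonneg (by positivity), add_zero]
      · rw [e1]
        have a1 := hdy 2 (by norm_num)
        refine le_trans (by linarith) ((p2 337337 (by norm_num)).trans
          (pow_le_pow_right₀ hyo (by norm_num))))
    (by
      refine (exc _ (fun c => (p - m) ^ 2 + p ^ 2 * ((((range N).filter fun e =>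
        look 0 v e = look 0 v c).card : ℝ) - 1)) (d ^ 3 + 2) (by positivity) fun c _ => ?_).trans ?_
      · rw [rsum_eq]
        have a1 := hfib c
        have a0 : (0 : ℝ) ≤ ((range N).filter fun e => look 0 v e = look 0 v c).card :=
          Nat.cast_nonneg _
        generalize (((range N).filter fun e => look 0 v e = look 0 v c).card : ℝ) = t at a1 a0
        split_ifs
        · have a2 : (κ : ℝ) * (κ * t) ≤ d * (d * d) :=
            mul_le_mul hκd' (mul_le_mul hκd' a1 a0 (by linarith)) (by positivity) (by linarith)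
          have a3 : 0 ≤ p ^ 2 * t := by positivity
          have a4 : m * p ≤ 1 * 1 := mul_le_mul (by linarith) hp1 hp0.le (by norm_num)
          have a5 : 0 ≤ m * κ := by positivity
          nlinarith only [a2, a3, a4, a5]
        · exact le_of_eq (by ring)
      · rw [sum_add_distrib, e1, ← mul_sum]
        have a1 := mul_le_mul_of_nonneg_left hρ (sq_nonneg p)
        have a2 := mul_le_mul_of_nonneg_left hsub hN0.le
        have a3 := hdy 5 (by norm_num)
        have a4 : (d : ℝ) * (d ^ 3 + 2) ≤ d ^ 5 := by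
          have b1 : (3 : ℝ) ^ 3 ≤ d ^ 3 := pow_le_pow_left₀ (by norm_num) hd' 3
          have b2 : 3 * (d : ℝ) ^ 3 ≤ d * d ^ 3 := mul_le_mul_of_nonneg_right hd' (by positivity)
          exact (mul_le_mul_of_nonneg_left (by linarith : (d : ℝ) ^ 3 + 2 ≤ d * d ^ 3)
            (by linarith)).trans (le_of_eq (by ring))
        have a5 : 2 * y ^ 1 ≤ y ^ 668668 := mul_pow_le_pow hyo (by linarith) (by norm_num)
        rw [pow_one] at a5
        nlinarith only [a1, a2, a3, a4, a5, hηN])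
    (by
      refine (exc _ (fun _ => (16 * η ^ 2) ^ 2) (d ^ 2) (by positivity) fun c _ => ?_).trans ?_
      · split_ifs
        · have : ((κ : ℝ) - m) ^ 2 ≤ d ^ 2 := pow_le_pow_left₀ (by linarith) (by linarith) 2
          nlinarith only [this, sq_nonneg (16 * η ^ 2)]
        · rw [hp, add_sub_cancel_left, add_zero]
      · rw [e1]
        have a1 : N * (16 * η ^ 2) ^ 2 ≤ y := by
          refine le_of_mul_le_mul_right ?_ hN0
          rw [show N * (16 * η ^ 2) ^ 2 * N = (N * (16 * η ^ 2)) ^ 2 by ring]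
          refine (pow_le_pow_left₀ (by positivity) hNη 2).trans ?_
          rw [← pow_mul]
          exact ((pow_le_pow_right₀ hyo (by norm_num)).trans hN1').trans
            (le_mul_of_one_le_left hN0.le hyo)
        have a2 := hdy 3 (by norm_num)
        have a5 : 2 * y ^ 1 ≤ y ^ 205998 := mul_pow_le_pow hyo (by linarith) (by norm_num)
        rw [pow_one] at a5
        nlinarith only [a1, a2, a5])
  refine ⟨g, m, η, g1, g2, hm0, hη0, by linarith, ?_, m2, m1, hp ▸ g3⟩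
  rw [hη]
  exact eta_small (by linarith) hN1' hb2

end Vale.Agent.N049D
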