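import Vale.Agent.N049D.Core

/-!
# Prescribed degree sequences
-/

namespace Vale.Agent.N049D

open Finset Vale.Agent.P049 Vale.Agent.Lib.PolyTime Vale.Agent.P315.H155

/-- The number of letters `false`. -/
def cntF (w : List Bool) : ℕ := (w.filter fun b => !b).length

/-- For every letter `true`, the number of letters `false` before it. -/
def vlW (w : List Bool) : List ℕ :=
  (List.range w.length).flatMap fun j => if w.getD j false then [cntF (w.take j)] else []

/-- The number of occurrences of `u`. -/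
def cnt (v : List ℕ) (u : ℕ) : ℕ := ∑ e ∈ range v.length, if look 0 v e = u then 1 else 0

/-- The maximum of `3` and of the numbers of occurrences. -/
def dmax (v : List ℕ) : ℕ :=
  v.length + 3 - minD ((List.range v.length).map fun c => v.length + 3 - cnt v (look 0 v c)) v.length

/-- The numerator of the branching number. -/
def brN (v : List ℕ) : ℕ := ∑ c ∈ range v.length, (cnt v (look 0 v c) - 1)

/-- The output word. -/
def outD (a b : List ℕ → ℕ) (w : List Bool) : List Bool :=
  (List.range (cntF w)).flatMap fun i => (List.range (cntF w)).map fun j =>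
    adjV (look 0 (vlW w)) (vlW w).length
      (rhoC (vlW w) (vlW w) (dmax (vlW w)) (a (vlW w)) (b (vlW w)) 0 1) i j

section PT

variable {α : Type*} [Enc α]

theorem PT_cntF {w : α → List Bool} (hw : PT ∅ w) : PT ∅ fun x => cntF (w x) :=
  (PT.filter (f := fun _ b => !b) hw PT.snd'.not).length

theorem PT_vlW {w : α → List Bool} (hw : PT ∅ w) : PT ∅ fun x => vlW (w x) :=
  PT.flatMap (f := fun x j => if (w x).getD j false then [cntF ((w x).take j)] else [])
    (PT.range hw.length (PBd_length hw))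
    ((PT.cond (PT.getD (hw.comp PT.fst') PT.snd' (PT.const false))
      (PT.cons (PT_cntF (PT.take (hw.comp PT.fst') PT.snd')) (PT.const []))
      (PT.const [])).congr fun p => by cases (w p.1).getD p.2 false <;> rfl)

theorem PT_cnt {v : α → List ℕ} {u : α → ℕ} (hv : PT ∅ v) (hu : PT ∅ u) :
    PT ∅ fun x => cnt (v x) (u x) :=
  PT.natSumRange (f := fun x e => if look 0 (v x) e = u x then 1 else 0) hv.length (PBd_length hv)
    (by fun_prop)

theorem PT_dmax {v : α → List ℕ} (hv : PT ∅ v) : PT ∅ fun x => dmax (v x) :=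
  (hv.length.add (PT.const 3)).sub (PT_minD (PT.map
    (f := fun x c => (v x).length + 3 - cnt (v x) (look 0 (v x) c))
    (PT.range hv.length (PBd_length hv)) (((hv.comp PT.fst').length.add (PT.const 3)).sub
      (PT_cnt (hv.comp PT.fst') (PT_look (PT.const 0) (hv.comp PT.fst') PT.snd')))) hv.length)

theorem PT_brN {v : α → List ℕ} (hv : PT ∅ v) : PT ∅ fun x => brN (v x) :=
  PT.natSumRange (f := fun x c => cnt (v x) (look 0 (v x) c) - 1) hv.length (PBd_length hv)
    ((PT_cnt (hv.comp PT.fst') (PT_look (PT.const 0) (hv.comp PT.fst') PT.snd')).sub (PT.const 1))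

end PT

theorem polyTime_of {α : Type} (code : α → List Bool) {f : List Bool → List Bool}
    (hf : PT ∅ fun u : Raw => f u.w) : PolyTime code fun x => f (code x) := by
  obtain ⟨g, hg, hg'⟩ := PT.rawOfList hf
  exact exists_tm2_of_polyTimeFun _ _ _ g (polyTimeFun_iff.2 hg) fun x => hg' ⟨code x⟩

theorem PT_outD {a b : List ℕ → ℕ} (ha : PT ∅ a) (hb : PT ∅ b) :
    PT ∅ fun u : Raw => outD a b u.w := by
  have hw : PT ∅ fun u : Raw => (u.w : List Bool) := PT.listOfRaw PT.id
  have hv := PT_vlW hw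
  have h1 := PT_rhoC hv hv (PT_dmax hv) (ha.comp hv) (hb.comp hv) (PT.const 0) (PT.const 1)
  have h2 := PT_adjV (ρ := fun u : Raw => rhoC (vlW u.w) (vlW u.w) (dmax (vlW u.w)) (a (vlW u.w))
    (b (vlW u.w)) 0 1) hv hv.length (PBd_length hv) h1
  have h3 := PT_table (f := fun u : Raw => adjV (look 0 (vlW u.w)) (vlW u.w).length
    (rhoC (vlW u.w) (vlW u.w) (dmax (vlW u.w)) (a (vlW u.w)) (b (vlW u.w)) 0 1)) (PT_cntF hw)
    ((PBd_length hw).mono fun u => List.length_filter_le _ _) h2
  exact h3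

/-! ### Decoding -/

theorem vlW_snoc (w : List Bool) (b : Bool) :
    vlW (w ++ [b]) = vlW w ++ if b then [cntF w] else [] := by
  unfold vlW
  rw [List.length_append, List.length_singleton, List.range_succ, List.flatMap_append]
  congr 1
  · refine List.flatMap_congr fun j hj => ?_
    have hj' := List.mem_range.1 hj
    rw [List.getD_append _ _ _ _ hj', List.take_append_of_le_length hj'.le]
  · simp

theorem cntF_append (w w' : List Bool) : cntF (w ++ w') = cntF w + cntF w' := by simp [cntF]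

theorem vlW_rep (w : List Bool) (k : ℕ) :
    vlW (w ++ List.replicate k true) = vlW w ++ List.replicate k (cntF w) := by
  induction k with
  | zero => simp
  | succ k ih =>
    rw [List.replicate_succ', ← List.append_assoc, vlW_snoc, ih, cntF_append, List.replicate_succ']
    simp [cntF]

theorem decode (D : List ℕ) : cntF (unaryList D) = D.length ∧ (vlW (unaryList D)).length = D.sum ∧
    (∀ u ∈ vlW (unaryList D), u < D.length) ∧ ∀ u, (vlW (unaryList D)).count u = D.getD u 0 := by
  induction D using List.reverseRecOn with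
  | nil => simp [unaryList, cntF, vlW]
  | append_singleton D k ih =>
    obtain ⟨h1, h2, h3, h4⟩ := ih
    have e : unaryList (D ++ [k]) = unaryList D ++ List.replicate k true ++ [false] := by
      simp [unaryList]
    rw [e, vlW_snoc, vlW_rep, h1]
    refine ⟨?_, by simp [h2], fun u hu => ?_, fun u => ?_⟩
    · rw [cntF_append, cntF_append, h1]
      simp [cntF]
    · simp only [Bool.false_eq_true, if_false, List.append_nil, List.mem_append,
        List.mem_replicate, List.length_append, List.length_singleton] at hu ⊢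
      rcases hu with hu | hu
      · have := h3 u hu
        omega
      · omega
    · simp only [Bool.false_eq_true, if_false, List.append_nil, List.count_append, h4,
        List.count_replicate, beq_iff_eq]
      rcases lt_trichotomy u D.length with h | rfl | h
      · rw [List.getD_append _ _ _ _ h, if_neg h.ne', add_zero]
      · simp
      · rw [if_neg h.ne, List.getD_eq_default _ _ h.le, List.getD_eq_default _ _ (by simpa using h)]

theorem card_fib (l : List ℕ) (u : ℕ) :
    ((range l.length).filter fun c => look 0 l c = u).card = l.count u := by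
  induction l using List.reverseRecOn with
  | nil => simp
  | append_singleton l x ih =>
    rw [List.length_append, List.length_singleton, card_filter, sum_range_succ, List.count_append,
      ← ih, card_filter]
    congr 1
    · exact sum_congr rfl fun c hc => by
        unfold look
        rw [List.getD_append _ _ _ _ (mem_range.1 hc)]
    · simp [look, List.count_singleton]

theorem look_mem {l : List ℕ} {c : ℕ} (hc : c < l.length) : look 0 l c ∈ l := by
  unfold look
  rw [List.getD_eq_getElem _ _ hc]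
  exact List.getElem_mem hc

theorem cnt_eq (v : List ℕ) (u : ℕ) :
    cnt v u = ((range v.length).filter fun c => look 0 v c = u).card := (card_filter _ _).symm

theorem three_le_dmax (v : List ℕ) : 3 ≤ dmax v := by
  have := minD_le_default ((List.range v.length).map fun c => v.length + 3 - cnt v (look 0 v c))
    v.length
  unfold dmax
  omega

theorem fib_dmax (v : List ℕ) : Fib (look 0 v) v.length (dmax v) := fun u => by
  rcases ((range v.length).filter fun c => look 0 v c = u).eq_empty_or_nonempty with h | ⟨c, hc⟩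
  · rw [h]; exact Nat.zero_le _
  obtain ⟨h1, rfl⟩ := mem_filter.1 hc
  have h2 := minD_le_of_mem (d := v.length) (List.mem_map_of_mem
    (f := fun c => v.length + 3 - cnt v (look 0 v c)) (List.mem_range.2 (mem_range.1 h1)))
  have h3 : cnt v (look 0 v c) ≤ v.length := by
    rw [cnt_eq]
    exact (card_filter_le _ _).trans (card_range _).le
  rw [← cnt_eq]
  unfold dmax
  omega

theorem dmax_le {v : List ℕ} {Δ : ℕ} (h3 : 3 ≤ Δ) (h : ∀ u, cnt v u ≤ Δ) : dmax v ≤ Δ := by
  have := le_minD (l := (List.range v.length).map fun c => v.length + 3 - cnt v (look 0 v c))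
    (d := v.length) (c := v.length + 3 - Δ) (by omega) fun x hx => by
      obtain ⟨c, -, rfl⟩ := List.mem_map.1 hx
      have := h (look 0 v c)
      omega
  unfold dmax
  omega

theorem sum_br (D : List ℕ) : ∑ c ∈ range (vlW (unaryList D)).length,
    ((cnt (vlW (unaryList D)) (look 0 (vlW (unaryList D)) c) : ℝ) - 1) =
      ((D.map fun k => k * (k - 1)).sum : ℕ) := by
  obtain ⟨-, -, h3, h4⟩ := decode D
  generalize vlW (unaryList D) = v at h3 h4
  have := sum_fib (V := look 0 v) (N := v.length) (n := D.length) (fun c hc => h3 _ (look_mem hc))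
    (fun _ => 1) fun u => (cnt v u : ℝ) - 1
  simp only [one_mul, sum_const, nsmul_eq_mul, mul_one] at this
  have e : (D.map fun k => k * (k - 1)) =
      (List.range D.length).map fun u => D.getD u 0 * (D.getD u 0 - 1) := by
    refine List.ext_getElem (by simp) fun i h1 _ => ?_
    simp only [List.getElem_map, List.getElem_range]
    rw [List.getD_eq_getElem _ _ (by simpa using h1)]
  rw [this, e, sum_map_range, Nat.cast_sum]
  refine sum_congr rfl fun u _ => ?_
  rw [cnt_eq, card_fib, h4]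
  cases D.getD u 0 with
  | zero => simp
  | succ k => simp

theorem brN_eq (D : List ℕ) : brN (vlW (unaryList D)) = (D.map fun k => k * (k - 1)).sum := by
  have h := sum_br D
  generalize vlW (unaryList D) = v at h
  have : (brN v : ℝ) = ∑ c ∈ range v.length, ((cnt v (look 0 v c) : ℝ) - 1) := by
    unfold brN
    rw [Nat.cast_sum]
    refine sum_congr rfl fun c hc => ?_
    rw [Nat.cast_sub, Nat.cast_one]
    rw [cnt_eq]
    exact card_pos.2 ⟨c, mem_filter.2 ⟨hc, rfl⟩⟩
  exact_mod_cast this.trans h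

theorem branching_le (D : List ℕ) : branching D ≤ (dmax (vlW (unaryList D)) : ℝ) - 1 := by
  have h3 : (3 : ℝ) ≤ dmax (vlW (unaryList D)) := by exact_mod_cast three_le_dmax _
  unfold branching
  refine div_le_of_le_mul₀ (Nat.cast_nonneg _) (by linarith) ?_
  rw [← sum_br, ← (decode D).2.1]
  refine (sum_le_card_nsmul _ _ ((dmax (vlW (unaryList D)) : ℝ) - 1) fun c _ => ?_).trans
    (le_of_eq (by rw [card_range, nsmul_eq_mul, mul_comm]))
  rw [cnt_eq]
  exact sub_le_sub_right (by exact_mod_cast fib_dmax _ _) 1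

theorem dmax_le' {Δ : ℕ} {D : List ℕ} (h3 : 3 ≤ Δ) (hD : ∀ k ∈ D, k ≤ Δ) :
    dmax (vlW (unaryList D)) ≤ Δ := dmax_le h3 fun u => by
  rw [cnt_eq, card_fib, (decode D).2.2.2]
  rcases lt_or_ge u D.length with h | h
  · rw [List.getD_eq_getElem _ _ h]
    exact hD _ (List.getElem_mem h)
  · rw [List.getD_eq_default _ _ h]
    exact Nat.zero_le _

/-- The graph with a given degree sequence, for a bound `q` on the branching number. -/
theorem deg_graph (a b : List ℕ → ℕ) {Δ : ℕ} {D : List ℕ} (h3 : 3 ≤ Δ) (hD : ∀ k ∈ D, k ≤ Δ)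
    (he : Even D.sum) (hN : Δ ^ 10 ^ 8 ≤ D.sum) {q : ℝ}
    (hq : q * b (vlW (unaryList D)) = a (vlW (unaryList D))) (hb : 0 < b (vlW (unaryList D)))
    (hq2 : 2 ≤ q) (hqd : q ≤ dmax (vlW (unaryList D))) (hρ : branching D ≤ q) :
    ∃ (G : SimpleGraph (Fin D.length)) (_ : DecidableRel G.Adj),
      outD a b (unaryList D) = adjWord G ∧ (∀ i, G.degree i = D[i]) ∧
      ((Nat.log (Δ + 1) D.sum / 10 ^ 6 : ℕ) : ℕ∞) < G.egirth ∧
      ∃ m η : ℝ, 0 < m ∧ 0 < η ∧ η ≤ 1 / 100 ∧ 3 * η ≤ (D.sum : ℝ) ^ (-(33 / 100 : ℝ)) ∧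
        (1 - 2 * η) ^ 2 ≤ q * m ^ 2 ∧ q * m ^ 2 ≤ (1 - η) ^ 2 ∧ ∀ x : Fin D.length → ℝ,
        -(x ⬝ᵥ (G.adjMatrix ℝ).mulVec x) ≤
          ∑ i, (m * G.degree i + (1 - m ^ 2) / (m + 16 * η ^ 2)) * x i ^ 2 ∧
        (∑ i, (G.degree i : ℝ) * x i = 0 → x ⬝ᵥ (G.adjMatrix ℝ).mulVec x ≤
          ∑ i, (m * G.degree i + (1 - m ^ 2) / (m + 16 * η ^ 2)) * x i ^ 2) := by
  have hdΔ := dmax_le' h3 hD
  have hS := sum_br D
  obtain ⟨h1, h2, h3', h4⟩ := decode D
  unfold outD
  rw [h1]
  generalize vlW (unaryList D) = v at *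
  have hNpos : 0 < D.sum := lt_of_lt_of_le (Nat.pow_pos (by omega)) hN
  have hN0 : (0 : ℝ) < D.sum := by exact_mod_cast hNpos
  have hn : ∀ c < v.length, look 0 v c < D.length := fun c hc => h3' _ (look_mem hc)
  obtain ⟨g, m, η, g1, g2, m0, η0, η1, η2, m2, m1, hp⟩ := core (w := v) (h := 0) (κ := 1)
    (three_le_dmax v) (h2 ▸ (Nat.pow_le_pow_left hdΔ _).trans hN) (fib_dmax v) (fib_dmax v) hn
    hq hb hq2 hqd (by
      simp only [← cnt_eq]
      rw [hS, h2, ← div_le_iff₀ hN0]
      exact hρ) le_rfl ((by norm_num : 1 ≤ 3).trans (three_le_dmax v)) (by simp)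
  have pg := hp.pg g1 (h2 ▸ he) hn fun _ _ _ _ e => e
  have hm2 := par_m_sq hq2 η0 (by linarith) m1
  refine ⟨pg.graph, pg.dec, ?_, fun i => ?_, ?_, m, η, m0, η0, η1, h2 ▸ η2, m2, m1, fun x => ?_⟩
  · rw [table_eq]
    exact congrArg (fun f => (List.finRange _).flatMap f) (funext fun i =>
      congrArg (fun f => (List.finRange _).map f) (funext fun j => (Bool.decide_eq_true).symm))
  · rw [pg.degree, card_fib, h4, List.getD_eq_getElem _ _ i.2]
    rfl
  · refine lt_of_lt_of_le ?_ (pg.girth hp.noCyc)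
    have a1 : Nat.log (Δ + 1) D.sum ≤ Nat.log (dmax v + 1) D.sum :=
      Nat.log_anti_left (by have := three_le_dmax v; omega) (by omega)
    have a2 := Nat.div_le_div_right (c := 10 ^ 6) a1
    rw [h2] at g2
    exact_mod_cast Nat.lt_succ_of_le (a2.trans g2)
  · simpa only [Nat.not_lt_zero, if_false] using hp.spec pg (h2 ▸ hNpos)
      (fun u => by rw [if_neg (Nat.not_lt_zero u)]; positivity) m0 (by linarith) x

theorem dot_self {ι : Type*} [Fintype ι] (x : ι → ℝ) : x ⬝ᵥ x = ∑ i, x i ^ 2 := by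
  simp [dotProduct, sq]

theorem degrees : ∃ out : List ℕ → List Bool, PolyTime unaryList out ∧
    ∀ (Δ : ℕ) (D : List ℕ), 3 ≤ Δ → (∀ k ∈ D, k ≤ Δ) → Even D.sum → Δ ^ 10 ^ 8 ≤ D.sum →
      ∃ (G : SimpleGraph (Fin D.length)) (_ : DecidableRel G.Adj),
        out D = adjWord G ∧ (∀ i, G.degree i = D[i]) ∧
        ((Nat.log (Δ + 1) D.sum / 10 ^ 6 : ℕ) : ℕ∞) < G.egirth ∧
        ∀ i, i.val ≠ 0 → |(G.isHermitian_adjMatrix ℝ).eigenvalues₀ i| ≤ 2 * √((Δ : ℝ) - 1) := by
  refine ⟨_, polyTime_of unaryList (PT_outD (a := fun v => dmax v - 1) (b := fun _ => 1)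
    ((PT_dmax PT.id).sub (PT.const 1)) (PT.const 1)), fun Δ D h3 hD he hN => ?_⟩
  have hd3 := three_le_dmax (vlW (unaryList D))
  have hd3' : (3 : ℝ) ≤ dmax (vlW (unaryList D)) := by exact_mod_cast hd3
  have hdΔ : (dmax (vlW (unaryList D)) : ℝ) ≤ Δ := by exact_mod_cast dmax_le' h3 hD
  obtain ⟨G, hG, e1, e2, e3, m, η, m0, η0, η1, -, m2, m1, hx⟩ :=
    deg_graph (fun v => dmax v - 1) (fun _ => 1) h3 hD he hN
      (q := (dmax (vlW (unaryList D)) : ℝ) - 1) (by rw [Nat.cast_sub (by omega)]; simp) one_pos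
      (by linarith) (by linarith) (branching_le D)
  refine ⟨G, hG, e1, e2, e3, ?_⟩
  have h1 := par_spec (by linarith) m0 η0 (by linarith) m2 m1
  have h2 : ∀ x : Fin D.length → ℝ, ∑ i, (m * G.degree i + (1 - m ^ 2) / (m + 16 * η ^ 2)) *
      x i ^ 2 ≤ 2 * √((Δ : ℝ) - 1) * (x ⬝ᵥ x) := fun x => by
    rw [dot_self, mul_sum]
    refine sum_le_sum fun i _ => mul_le_mul_of_nonneg_right ?_ (sq_nonneg _)
    have a1 : (G.degree i : ℝ) ≤ dmax (vlW (unaryList D)) := by
      rw [e2, Fin.getElem_fin, ← List.getD_eq_getElem _ 0 i.2, ← (decode D).2.2.2, ← card_fib]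
      exact_mod_cast fib_dmax _ _
    have a2 := mul_le_mul_of_nonneg_left a1 m0.le
    have a3 := Real.sqrt_le_sqrt (sub_le_sub_right hdΔ 1)
    linarith
  exact sorted_eig _ (w := fun i => G.degree i) (fun x => (hx x).1.trans (h2 x))
    fun x h => ((hx x).2 h).trans (h2 x)

theorem bethe_quad {V : Type} [Fintype V] [DecidableEq V] (G : SimpleGraph V)
    [DecidableRel G.Adj] (r : ℝ) (x : V → ℝ) : x ⬝ᵥ (betheHessian G r).mulVec x =
      ∑ i, (r ^ 2 - 1 + G.degree i) * x i ^ 2 - r * (x ⬝ᵥ (G.adjMatrix ℝ).mulVec x) := by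
  unfold betheHessian
  simp only [Matrix.add_mulVec, Matrix.sub_mulVec, Matrix.smul_mulVec, Matrix.one_mulVec,
    dotProduct_add, dotProduct_sub, dotProduct_smul, smul_eq_mul,
    SimpleGraph.dotProduct_mulVec_degMatrix, dot_self, add_mul, sum_add_distrib, ← mul_sum]
  simp only [mul_assoc, ← sq]
  ring

theorem bethe_symm {V : Type} [Fintype V] [DecidableEq V] (G : SimpleGraph V)
    [DecidableRel G.Adj] (r : ℝ) : (betheHessian G r).transpose = betheHessian G r := by
  unfold betheHessian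
  rw [Matrix.transpose_add, Matrix.transpose_sub, Matrix.transpose_smul, Matrix.transpose_smul,
    Matrix.transpose_one, SimpleGraph.transpose_adjMatrix, (G.isSymm_degMatrix ℝ).eq]

theorem bethe : ∃ out : List ℕ → List Bool, PolyTime unaryList out ∧
    ∀ (Δ : ℕ) (D : List ℕ), 3 ≤ Δ → (∀ k ∈ D, k ≤ Δ) → Even D.sum → Δ ^ 10 ^ 8 ≤ D.sum →
      ∃ (G : SimpleGraph (Fin D.length)) (_ : DecidableRel G.Adj),
        out D = adjWord G ∧ (∀ i, G.degree i = D[i]) ∧
        ((Nat.log (Δ + 1) D.sum / 10 ^ 6 : ℕ) : ℕ∞) < G.egirth ∧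
        ∃ r : ℝ, √(max 2 (branching D)) ≤ r ∧
          r ≤ √(max 2 (branching D)) * (1 + (D.sum : ℝ) ^ (-(33 / 100 : ℝ))) ∧
          (betheHessian G (-r)).PosSemidef ∧
          ∀ x, ∑ i, (G.degree i : ℝ) * x i = 0 → 0 ≤ x ⬝ᵥ (betheHessian G r).mulVec x := by
  refine ⟨_, polyTime_of unaryList (PT_outD (a := fun v => max (2 * v.length) (brN v))
    (b := fun v => v.length) (PT.max ((PT.const 2).mul PT.id.length) (PT_brN PT.id))
    PT.id.length), fun Δ D h3 hD he hN => ?_⟩
  have hd3' : (3 : ℝ) ≤ dmax (vlW (unaryList D)) := by exact_mod_cast three_le_dmax _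
  have hNpos : 0 < D.sum := lt_of_lt_of_le (Nat.pow_pos (by omega)) hN
  have hN0 : (0 : ℝ) < D.sum := by exact_mod_cast hNpos
  have hbr := branching_le D
  obtain ⟨G, hG, e1, e2, e3, m, η, m0, η0, η1, η2, m2, m1, hx⟩ :=
    deg_graph (fun v => max (2 * v.length) (brN v)) (fun v => v.length) h3 hD he hN
      (q := max 2 (branching D)) (by
        rw [brN_eq, (decode D).2.1, max_mul_of_nonneg _ _ hN0.le, branching,
          div_mul_cancel₀ _ hN0.ne', Nat.cast_max, Nat.cast_mul, Nat.cast_ofNat])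
      ((decode D).2.1 ▸ hNpos) (le_max_left _ _) (max_le (by linarith) (by linarith))
      (le_max_right _ _)
  have hq2 : 2 ≤ max 2 (branching D) := le_max_left _ _
  generalize max 2 (branching D) = q at *
  have hm2 := par_m_sq hq2 η0 (by linarith) m1
  have hv2 : √q ^ 2 = q := Real.sq_sqrt (by linarith)
  have hv0 : 0 < √q := Real.sqrt_pos.2 (by linarith)
  have u1 : √q * m ≤ 1 - η := (abs_le_of_sq_le_sq' (by rw [mul_pow, hv2]; exact m1)
    (by linarith)).2
  have u2 : 1 - 2 * η ≤ √q * m := (abs_le_of_sq_le_sq' (by rw [mul_pow, hv2]; exact m2)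
    (by positivity)).2
  have h2 : ∀ x : Fin D.length → ℝ, 1 / m * ∑ i, (m * G.degree i + (1 - m ^ 2) /
      (m + 16 * η ^ 2)) * x i ^ 2 ≤ ∑ i, ((1 / m) ^ 2 - 1 + G.degree i) * x i ^ 2 := fun x => by
    rw [mul_sum]
    refine sum_le_sum fun i _ => ?_
    rw [← mul_assoc]
    refine mul_le_mul_of_nonneg_right ?_ (sq_nonneg _)
    have a1 : (1 - m ^ 2) / (m + 16 * η ^ 2) ≤ (1 - m ^ 2) / m :=
      div_le_div_of_nonneg_left (by linarith) m0 (by nlinarith [sq_nonneg η])
    refine (mul_le_mul_of_nonneg_left (add_le_add le_rfl a1) (by positivity)).trans (le_of_eq ?_)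
    field_simp
    ring
  refine ⟨G, hG, e1, e2, e3, 1 / m, ?_, ?_, psd_of (bethe_symm G _) fun x => ?_, fun x h => ?_⟩
  · rw [le_div_iff₀ m0]
    linarith
  · rw [div_le_iff₀ m0]
    have a1 : √q * m * (1 + 3 * η) ≤ √q * m * (1 + (D.sum : ℝ) ^ (-(33 / 100 : ℝ))) :=
      mul_le_mul_of_nonneg_left (by linarith) (by positivity)
    have a2 := mul_le_mul_of_nonneg_right u2 (by positivity : 0 ≤ 1 + 3 * η)
    nlinarith
  · have a1 := mul_le_mul_of_nonneg_left (hx x).1 (by positivity : 0 ≤ 1 / m)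
    rw [bethe_quad, neg_sq]
    linarith [h2 x]
  · have a1 := mul_le_mul_of_nonneg_left ((hx x).2 h) (by positivity : 0 ≤ 1 / m)
    rw [bethe_quad]
    linarith [h2 x]

end Vale.Agent.N049D
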