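import Vale.Agent.N049D.Ini
import Mathlib.Combinatorics.SimpleGraph.LapMatrix
import Mathlib.Analysis.Matrix.Spectrum
import Mathlib.Data.Nat.Nth

/-!
# The general machine and the graph of a pairing
-/

namespace Vale.Agent.N049D

open Finset Vale.Agent.P049 Vale.Agent.Lib.PolyTime Vale.Agent.P315.H155
open Vale.Agent.N049 (complete2 PT_complete2 parG PT_parG parG_le parG_eq degree_eq_sum)

/-- The scale parameter. -/
def parY (N : ℕ) : ℕ := Nat.nthRoot 1000000 N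

/-- The partner function computed by the algorithm: `w` lists the classes which must stay far
apart, `v` lists the vertices of the half-edges. -/
def rhoG (w v : List ℕ) (N d : ℕ) (m : ℚ) (P : ℕ → ℚ) : ℕ → ℕ :=
  complete2 N ((step2 (look 0 w) N (parG d (parY N)) fun S =>
    fullPot (look 0 w) d N (parG d (parY N)) (parY N : ℚ) (Psi N (parY N : ℚ))
      (look N S.1) (mat S.2.1) (mat S.2.2))^[(N - parY N ^ 334333 + 1) / 2]
    (iniS N (iniV 1 m (look 0 v) P N) (iniV (-1) m (look 0 v) P N))).1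

/-- Adjacency of the vertices `i` and `j`. -/
def adjV (V : ℕ → ℕ) (N : ℕ) (ρ : ℕ → ℕ) (i j : ℕ) : Bool :=
  (List.range N).any fun a => decide (V a = i ∧ V (ρ a) = j)

section PT

variable {α : Type*} [Enc α]

theorem PT_parY {N : α → ℕ} (hN : PT ∅ N) (hNb : PBd N) : PT ∅ fun x => parY (N x) :=
  PT_nthRoot (by norm_num) hN hNb

theorem PT_blk {v : α → List ℕ} {P : α → ℕ → ℚ} {a b : α → ℕ} (hv : PT ∅ v)
    (hP : PT ∅ fun p : α × ℕ => P p.1 p.2) (ha : PT ∅ a) (hb : PT ∅ b) :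
    PT ∅ fun x => blk (look 0 (v x)) (P x) (a x) (b x) := by
  unfold blk
  exact PT.ite (by fun_prop) (hP.comp (f := fun x => (x, look 0 (v x) (a x)))
    (PT.pair PT.id (by fun_prop))) (PT.const 0)

theorem PT_rsum {v : α → List ℕ} {P : α → ℕ → ℚ} {N a : α → ℕ} (hv : PT ∅ v)
    (hP : PT ∅ fun p : α × ℕ => P p.1 p.2) (hN : PT ∅ N) (hNb : PBd N) (ha : PT ∅ a) :
    PT ∅ fun x => rsum (look 0 (v x)) (P x) (N x) (a x) :=
  PT_ratSumRange (f := fun x b => blk (look 0 (v x)) (P x) (a x) b) hN hNb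
    (PT_blk (P := fun (p : α × ℕ) u => P p.1 u) (hv.comp PT.fst')
      (hP.comp (PT.pair PT.fst'.fst PT.snd')) (ha.comp PT.fst') PT.snd')

theorem PT_iniV (s : ℚ) {v : α → List ℕ} {P : α → ℕ → ℚ} {N a b : α → ℕ} {m : α → ℚ}
    (hv : PT ∅ v) (hP : PT ∅ fun p : α × ℕ => P p.1 p.2) (hN : PT ∅ N) (hNb : PBd N)
    (hm : PT ∅ m) (ha : PT ∅ a) (hb : PT ∅ b) :
    PT ∅ fun x => iniV s (m x) (look 0 (v x)) (P x) (N x) (a x) (b x) := by
  have h1 := PT_blk hv hP ha hb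
  have h2 := PT_rsum hv hP hN hNb ha
  have h3 := PT_rsum hv hP hN hNb hb
  have h4 : PT ∅ fun x => ∑ c ∈ range (N x), rsum (look 0 (v x)) (P x) (N x) c :=
    PT_ratSumRange (f := fun x c => rsum (look 0 (v x)) (P x) (N x) c) hN hNb
      (PT_rsum (P := fun (p : α × ℕ) u => P p.1 u) (hv.comp PT.fst')
        (hP.comp (PT.pair PT.fst'.fst PT.snd')) (hN.comp PT.fst') (hNb.comp (A := ∅) PT.fst')
        PT.snd')
  unfold iniV cor
  exact PT_ratAdd (PT_ratAdd (PT.ite (ha.eqNat hb) (PT_ratNeg hm) (PT.const 0)) h1)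
    (PT_ratDiv (PT_ratSub (PT_ratAdd (PT_ratAdd (PT.const s) hm) (PT_ratDiv h4 (PT_natCast hN)))
      (PT_ratAdd h2 h3)) (PT_natCast hN))

theorem PT_rhoG {w v : α → List ℕ} {N d : α → ℕ} {m : α → ℚ} {P : α → ℕ → ℚ} (hw : PT ∅ w)
    (hv : PT ∅ v) (hN : PT ∅ N) (hNb : PBd N) (hd : PT ∅ d) (hm : PT ∅ m)
    (hP : PT ∅ fun p : α × ℕ => P p.1 p.2) :
    PT ∅ fun p : α × ℕ => rhoG (w p.1) (v p.1) (N p.1) (d p.1) (m p.1) (P p.1) p.2 := by
  have hy := PT_parY hN hNb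
  have hyN : ∀ x, parY (N x) ≤ N x := fun x => nthRoot_le_self (by norm_num) _
  have hg := PT_parG hd hy (hNb.mono hyN)
  have hgN : ∀ x, parG (d x) (parY (N x)) ≤ N x := fun x => (parG_le _ _).trans (hyN x)
  have hF := PT_fullPot (α := α × St) (hw.comp PT.fst') (hd.comp PT.fst') (hN.comp PT.fst')
    (hNb.comp (A := ∅) PT.fst') (hg.comp PT.fst') (fun x => hgN x.1) (hy.comp PT.fst') PT.snd'
  have hI : ∀ s : ℚ, PT ∅ fun p : (α × ℕ) × ℕ =>
      iniV s (m p.1.1) (look 0 (v p.1.1)) (P p.1.1) (N p.1.1) p.1.2 p.2 := fun s =>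
    PT_iniV s (P := fun (p : (α × ℕ) × ℕ) u => P p.1.1 u) (hv.comp PT.fst'.fst)
      (hP.comp (PT.pair PT.fst'.fst.fst PT.snd')) (hN.comp PT.fst'.fst)
      (hNb.comp (A := ∅) PT.fst'.fst) (hm.comp PT.fst'.fst) PT.fst'.snd PT.snd'
  have hrun := PT_run (P := fun x S => fullPot (look 0 (w x)) (d x) (N x)
    (parG (d x) (parY (N x))) (parY (N x) : ℚ) (Psi (N x) (parY (N x) : ℚ)) (look (N x) S.1)
      (mat S.2.1) (mat S.2.2))
    (A := fun x => iniV 1 (m x) (look 0 (v x)) (P x) (N x))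
    (B := fun x => iniV (-1) (m x) (look 0 (v x)) (P x) (N x)) hw hN hNb hg (hNb.mono hgN)
    (((hN.sub (PT.pow hy (PT.const 334333) (PBd.const _))).add (PT.const 1)).div (PT.const 2))
    ((hNb.add (PBd.const 1)).mono fun x => by omega) (hI 1) (hI (-1))
    (fun x => iniV_symm _ _ _ _ _) (fun x => iniV_symm _ _ _ _ _) hF
  exact PT_complete2 (hN.comp PT.fst') (hNb.comp (A := ∅) PT.fst') (hrun.fst.comp PT.fst') PT.snd'

theorem PT_adjV {v : α → List ℕ} {N : α → ℕ} {ρ : α → ℕ → ℕ} (hv : PT ∅ v) (hN : PT ∅ N)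
    (hNb : PBd N) (hρ : PT ∅ fun p : α × ℕ => ρ p.1 p.2) :
    PT ∅ fun p : (α × ℕ) × ℕ => adjV (look 0 (v p.1.1)) (N p.1.1) (ρ p.1.1) p.1.2 p.2 := by
  have h1 : PT ∅ fun p : ((α × ℕ) × ℕ) × ℕ => ρ p.1.1.1 p.2 :=
    hρ.comp (f := fun p : ((α × ℕ) × ℕ) × ℕ => (p.1.1.1, p.2)) (PT.pair PT.fst'.fst.fst PT.snd')
  exact PT.any (f := fun (p : (α × ℕ) × ℕ) a =>
    decide (look 0 (v p.1.1) a = p.1.2 ∧ look 0 (v p.1.1) (ρ p.1.1 a) = p.2))
    ((PT.range hN hNb).comp PT.fst'.fst) (by fun_prop)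

theorem PT_table {n : α → ℕ} {f : α → ℕ → ℕ → Bool} (hn : PT ∅ n) (hnb : PBd n)
    (hf : PT ∅ fun p : (α × ℕ) × ℕ => f p.1.1 p.1.2 p.2) :
    PT ∅ fun x => (List.range (n x)).flatMap fun i => (List.range (n x)).map fun j => f x i j :=
  PT.flatMap (f := fun x i => (List.range (n x)).map fun j => f x i j) (PT.range hn hnb)
    (PT.map (f := fun (p : α × ℕ) j => f p.1 p.2 j) ((PT.range hn hnb).comp PT.fst') hf)

end PT

theorem table_eq (n : ℕ) (f : ℕ → ℕ → Bool) :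
    ((List.range n).flatMap fun i => (List.range n).map fun j => f i j) =
      (List.finRange n).flatMap fun i : Fin n => (List.finRange n).map fun j : Fin n => f i j := by
  rw [← finRange_flatMap]
  congr 1
  funext i
  exact (finRange_map n fun j => f i j).symm

theorem parY_facts {d N : ℕ} (hd : 3 ≤ d) (hN : d ^ 10 ^ 8 ≤ N) :
    d ^ 100 ≤ parY N ∧ 10 ^ 30 ≤ parY N ∧ parY N ^ 1000000 ≤ N ∧
      (N : ℝ) ≤ 2 * (parY N : ℝ) ^ 1000000 ∧ (N : ℝ) ≤ (parY N : ℝ) ^ 1000001 := by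
  have h1 : d ^ 100 ≤ parY N := (Nat.le_nthRoot_iff (by norm_num)).2 (by
    rw [← pow_mul]
    exact (Nat.pow_le_pow_right (by omega) (by norm_num)).trans hN)
  have h2 : 10 ^ 30 ≤ parY N := le_trans (le_trans (by norm_num) (Nat.pow_le_pow_left hd 100)) h1
  have hb := nthRoot_bounds (M := 1000000) (N := N) (by norm_num) (le_trans (by norm_num) h2)
  change ((parY N : ℕ) : ℝ) ^ 1000000 ≤ _ ∧ _ ≤ 2 * ((parY N : ℕ) : ℝ) ^ 1000000 at hb
  generalize parY N = y at *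
  have h2' : (10 : ℝ) ^ 30 ≤ y := by exact_mod_cast h2
  refine ⟨h1, h2, by exact_mod_cast hb.1, hb.2, ?_⟩
  rw [pow_succ (y : ℝ) 1000000, mul_comm _ (y : ℝ)]
  exact hb.2.trans (mul_le_mul_of_nonneg_right (le_trans (by norm_num) h2') (by positivity))

theorem pairing_gen {w v : List ℕ} {N d n : ℕ} {m : ℚ} {P : ℕ → ℚ} {R y : ℝ} (hd : 3 ≤ d)
    (hN : d ^ 10 ^ 8 ≤ N) (hW : Fib (look 0 w) N d) (hn : ∀ a < N, look 0 v a < n)
    (hm0 : (0 : ℝ) < m) (hm2 : (m : ℝ) ^ 2 ≤ 1 / 2) (hP : ∀ u, (0 : ℝ) < P u) (hR0 : 0 ≤ R)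
    (hR : ∀ a < N, rsum (look 0 v) (fun u => (P u : ℝ)) N a ≤ R) (hy : y = parY N)
    (hyR : 200 * (3 * R + 3) ^ 4 ≤ y)
    (t1 : ∑ a ∈ range N, |(P (look 0 v a) : ℝ) - m| ≤ y ^ 337534)
    (t2 : ∑ a ∈ range N, ((m : ℝ) ^ 2 - 2 * m * P (look 0 v a) +
      P (look 0 v a) * rsum (look 0 v) (fun u => (P u : ℝ)) N a) ≤ N - y ^ 668668 - y)
    (t3 : ∑ a ∈ range N, ((P (look 0 v a) : ℝ) - m) ^ 2 ≤ y ^ 205998) :
    ∃ g, 2 ≤ g ∧ Nat.log (d + 1) N / 10 ^ 6 ≤ g ∧
      Pairing (look 0 w) N g m (iniV 1 m (look 0 v) (fun u => (P u : ℝ)) N)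
        (iniV (-1) m (look 0 v) (fun u => (P u : ℝ)) N) (rhoG w v N d m P) := by
  obtain ⟨hy1, hy2, hN1, hb2, hN2'⟩ := parY_facts hd hN
  have hb3 : N < (parY N + 1) ^ 1000000 := Nat.lt_pow_nthRoot_add_one (by norm_num) _
  subst hy
  unfold rhoG
  generalize parY N = y at *
  rw [parG_eq (by omega) (by omega)]
  obtain ⟨g, hg⟩ : ∃ g, g = Nat.log (d + 1) y := ⟨_, rfl⟩
  rw [← hg]
  have g1 : (d + 1) ^ g ≤ y := hg ▸ Nat.pow_log_le_self _ (by omega)
  have g2 : y < (d + 1) ^ (g + 1) := hg ▸ Nat.lt_pow_succ_log_self (by omega) _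
  have hdd : d + 1 ≤ d ^ 2 := by nlinarith only [hd]
  have g3 : 2 ≤ g := hg ▸ Nat.le_log_of_pow_le (by omega) ((Nat.pow_le_pow_left hdd 2).trans
    (by rw [← pow_mul]; exact (Nat.pow_le_pow_right (by omega) (by norm_num)).trans hy1))
  have hy2' : (10 : ℝ) ^ 30 ≤ y := by exact_mod_cast hy2
  have hN1' : (y : ℝ) ^ 1000000 ≤ N := by exact_mod_cast hN1
  have hN2 : N ≤ y ^ 1000001 := by exact_mod_cast hN2'
  have hNpos : 0 < N := lt_of_lt_of_le (Nat.pow_pos (by omega)) hN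
  have hN0 : (0 : ℝ) < N := by exact_mod_cast hNpos
  have hm1 : (m : ℝ) ≤ 1 := by nlinarith only [hm0, hm2]
  have hend : (3200 * (d : ℝ)) ^ g * ((y ^ 334333 : ℕ) : ℝ) ^ 2 < N := by
    have a1 : 3200 * d ≤ (d + 1) ^ 7 := by
      have : 4 ^ 6 ≤ (d + 1) ^ 6 := Nat.pow_le_pow_left (by omega) 6
      rw [pow_succ]
      exact Nat.mul_le_mul (le_trans (by norm_num) this) (Nat.le_succ d)
    have a2 : (3200 * d) ^ g ≤ y ^ 7 := by
      refine (Nat.pow_le_pow_left a1 g).trans ?_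
      rw [← pow_mul, Nat.mul_comm, pow_mul]
      exact Nat.pow_le_pow_left g1 7
    have a3 : (3200 * d) ^ g * (y ^ 334333) ^ 2 < N := by
      refine (Nat.mul_le_mul_right _ a2).trans_lt (lt_of_lt_of_le ?_ hN1)
      rw [← pow_mul, ← pow_add]
      exact Nat.pow_lt_pow_right (by omega) (by norm_num)
    exact_mod_cast a3
  have a := mSide_iniV (s := 1) (s' := -1) (by norm_num) (by norm_num) hm0.le hm1 hP hR0 hR hyR
    hN1' hN2' t1 t2 t3
  have b := mSide_iniV (s := -1) (s' := 1) (by norm_num) (by norm_num) hm0.le hm1 hP hR0 hR hyR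
    hN1' hN2' t1 t2 t3
  have e1 := cst_iniV 1 m (look 0 v) P N
  have e2 := cst_iniV (-1) m (look 0 v) P N
  rw [Rat.cast_one] at e1
  rw [Rat.cast_neg, Rat.cast_one] at e2
  have hgood := goodPot (A₀ := cst (iniV 1 m (look 0 v) P N))
    (B₀ := cst (iniV (-1) m (look 0 v) P N)) (by omega) hW (by omega) g1
    (le_trans (by omega) (Nat.le_self_pow (by norm_num) y))
    ((Nat.pow_le_pow_right (by omega) (by norm_num)).trans hN1)
    (log_le_root (M := 1000000) (by norm_num) hN0 hb2 (le_trans (by norm_num) hy2')) hend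
    (matPot3 hy2' hN1 hN2 hm0 hm2) (by rw [Psi_mstats, gro_self, e1, e2]; linarith)
  refine ⟨g, g3, ?_, ?_⟩
  · have a1 : N < (d + 1) ^ ((g + 1) * 1000000) := by
      rw [pow_mul]
      exact hb3.trans_le (Nat.pow_le_pow_left g2 _)
    have a2 := Nat.log_lt_of_lt_pow' (by omega) a1
    omega
  · rw [← e1, ← e2]
    exact run (by linarith) (by omega) (iniV_symm _ _ _ _ _) (iniV_symm _ _ _ _ _)
      (e1 ▸ ker_iniV hNpos hn hP) (e2 ▸ ker_iniV hNpos hn hP) hgood fun S => cast_fullPot ..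

/-! ### The graph of a pairing -/

/-- A pairing of the half-edges which gives a simple graph on `n` vertices. -/
structure PG (V : ℕ → ℕ) (N n : ℕ) (ρ : ℕ → ℕ) : Prop where
  vlt : ∀ a < N, V a < n
  lt : ∀ a < N, ρ a < N
  invol : ∀ a < N, ρ (ρ a) = a
  noLoop : ∀ a < N, V (ρ a) ≠ V a
  noMulti : ∀ a < N, ∀ b < N, V a = V b → V (ρ a) = V (ρ b) → a = b

variable {V : ℕ → ℕ} {N n : ℕ} {ρ : ℕ → ℕ}

theorem Pairing.pg {W : ℕ → ℕ} {g : ℕ} {m : ℝ} {A B : ℕ → ℕ → ℝ} (h : Pairing W N g m A B ρ)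
    (hg : 2 ≤ g) (he : Even N) (hn : ∀ a < N, V a < n)
    (hW : ∀ a < N, ∀ b < N, V a = V b → W a = W b) : PG V N n ρ :=
  ⟨hn, h.lt, h.invol,
    fun a ha e => h.noCyc.noLoop (by omega) ha (h.noFix he a ha) (hW _ (h.lt a ha) _ ha e),
    fun a ha b hb e1 e2 => h.noCyc.noMulti hg h.lt h.invol ha hb (hW _ ha _ hb e1)
      (hW _ (h.lt a ha) _ (h.lt b hb) e2)⟩

theorem adjV_iff {i j : ℕ} : adjV V N ρ i j = true ↔ ∃ a < N, V a = i ∧ V (ρ a) = j := by
  simp [adjV]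

/-- The graph of a pairing. -/
def PG.graph (h : PG V N n ρ) : SimpleGraph (Fin n) where
  Adj i j := adjV V N ρ i j = true
  symm := ⟨fun i j hij => by
    obtain ⟨a, ha, e1, e2⟩ := adjV_iff.1 hij
    exact adjV_iff.2 ⟨ρ a, h.lt a ha, e2, by rw [h.invol a ha, e1]⟩⟩
  loopless := ⟨fun i hii => by
    obtain ⟨a, ha, e1, e2⟩ := adjV_iff.1 hii
    exact h.noLoop a ha (e2.trans e1.symm)⟩

instance PG.dec (h : PG V N n ρ) : DecidableRel h.graph.Adj :=
  fun i j => inferInstanceAs (Decidable (adjV V N ρ i j = true))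

theorem PG.sum_adj (h : PG V N n ρ) (i : Fin n) (f : ℕ → ℝ) :
    ∑ j : Fin n, (if h.graph.Adj i j then f j else 0) =
      ∑ a ∈ (range N).filter fun a => V a = i, f (V (ρ a)) := by
  rw [← sum_filter]
  symm
  refine Finset.sum_bij (fun a ha => ⟨V (ρ a), h.vlt _ (h.lt a (mem_range.1 (mem_filter.1 ha).1))⟩)
    ?_ ?_ ?_ ?_
  · intro a ha
    exact mem_filter.2 ⟨mem_univ _,
      adjV_iff.2 ⟨a, mem_range.1 (mem_filter.1 ha).1, (mem_filter.1 ha).2, rfl⟩⟩
  · intro a ha b hb e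
    exact h.noMulti a (mem_range.1 (mem_filter.1 ha).1) b (mem_range.1 (mem_filter.1 hb).1)
      ((mem_filter.1 ha).2.trans (mem_filter.1 hb).2.symm) (congrArg Fin.val e)
  · intro j hj
    obtain ⟨a, ha, e1, e2⟩ := adjV_iff.1 (mem_filter.1 hj).2
    exact ⟨a, mem_filter.2 ⟨mem_range.2 ha, e1⟩, Fin.ext e2⟩
  · intro t _
    rfl

theorem PG.degree (h : PG V N n ρ) (i : Fin n) :
    h.graph.degree i = ((range N).filter fun a => V a = i).card := by
  have := (degree_eq_sum h.graph i).trans (h.sum_adj i fun _ => 1)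
  rw [sum_const, nsmul_eq_mul, mul_one] at this
  exact_mod_cast this

/-- Extension of a vector by zero. -/
def ext0 (x : Fin n → ℝ) (i : ℕ) : ℝ := if hi : i < n then x ⟨i, hi⟩ else 0

theorem ext0_val (x : Fin n → ℝ) (i : Fin n) : ext0 x i = x i := by simp [ext0]

theorem PG.sum_deg (h : PG V N n ρ) (f : ℕ → ℝ) :
    ∑ a ∈ range N, f (V a) = ∑ i : Fin n, h.graph.degree i * f i := by
  have := sum_fib h.vlt (fun _ => 1) f
  simp only [one_mul, sum_const, nsmul_eq_mul, mul_one] at this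
  rw [this, ← Fin.sum_univ_eq_sum_range
    fun v => (((range N).filter fun a => V a = v).card : ℝ) * f v]
  exact sum_congr rfl fun i _ => by rw [h.degree]

theorem PG.quad (h : PG V N n ρ) (x : Fin n → ℝ) :
    ∑ a ∈ range N, ext0 x (V a) * ext0 x (V (ρ a)) = x ⬝ᵥ (h.graph.adjMatrix ℝ).mulVec x := by
  have := sum_fib h.vlt (fun a => ext0 x (V (ρ a))) (ext0 x)
  rw [sum_congr rfl fun a _ => mul_comm _ _, this, ← Fin.sum_univ_eq_sum_range
    fun v => (∑ a ∈ (range N).filter fun a => V a = v, ext0 x (V (ρ a))) * ext0 x v]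
  refine sum_congr rfl fun i _ => ?_
  rw [← h.sum_adj i (ext0 x), ext0_val, N049.mulVec_eq_sum, mul_comm]
  simp only [ext0_val]

/-- The two quadratic inequalities for the graph. -/
theorem Pairing.spec {W : ℕ → ℕ} {g : ℕ} {m : ℝ} {P : ℕ → ℝ}
    (h : Pairing W N g m (iniV 1 m V P N) (iniV (-1) m V P N) ρ) (h' : PG V N n ρ) (hN : 0 < N)
    (hP : ∀ v, 0 < P v) (hm0 : 0 < m) (hm : m ^ 2 < 1) (x : Fin n → ℝ) :
    -(x ⬝ᵥ (h'.graph.adjMatrix ℝ).mulVec x) ≤
        ∑ i : Fin n, (m * h'.graph.degree i + (1 - m ^ 2) / P i) * x i ^ 2 ∧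
      (∑ i, (h'.graph.degree i : ℝ) * x i = 0 → x ⬝ᵥ (h'.graph.adjMatrix ℝ).mulVec x ≤
        ∑ i : Fin n, (m * h'.graph.degree i + (1 - m ^ 2) / P i) * x i ^ 2) := by
  have e : m * ∑ a ∈ range N, ext0 x (V a) ^ 2 + (1 - m ^ 2) * ∑ v ∈ range n, ext0 x v ^ 2 / P v =
      ∑ i : Fin n, (m * h'.graph.degree i + (1 - m ^ 2) / P i) * x i ^ 2 := by
    rw [h'.sum_deg fun v => ext0 x v ^ 2, ← Fin.sum_univ_eq_sum_range fun v => ext0 x v ^ 2 / P v,
      mul_sum, mul_sum, ← sum_add_distrib]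
    exact sum_congr rfl fun i _ => by rw [ext0_val]; ring
  rw [← e, ← h'.quad]
  refine ⟨?_, fun hx => ?_⟩
  · have := h.specB _ _ (inv_iniV hN h'.vlt hP hm (ext0 x) (Or.inl (by nlinarith)))
    linarith
  · have := h.specA _ _ (inv_iniV hN h'.vlt hP hm (ext0 x) (Or.inr ⟨by linarith, by
      rw [h'.sum_deg, ← hx]
      exact sum_congr rfl fun i _ => by rw [ext0_val]⟩))
    linarith

/-! ### Short cycles -/

/-- A short cycle uses only edges inside the classes of `W`. -/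
theorem short_cycle {g : ℕ} {W : ℕ → ℕ} (hc : NoCyc (fun a => W (V a)) N g ρ)
    (hi : ∀ a < N, ρ (ρ a) = a) {G H : SimpleGraph (Fin n)}
    (hG : ∀ i j, G.Adj i j → H.Adj i j ∨ adjV V N ρ i j = true)
    (hH : ∀ i j, H.Adj i j → W i = W j) {u : Fin n} (c : G.Walk u u) (hcyc : c.IsCycle)
    (hL : c.length ≤ g) : ∀ e ∈ c.edges, e ∈ H.edgeSet := by
  classical
  have h3 := hcyc.three_le_length
  obtain ⟨L, hLdef⟩ : ∃ L, L = c.length := ⟨_, rfl⟩
  rw [← hLdef] at hL h3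
  set v : ℕ → Fin n := fun i => c.getVert (i % L) with hv
  have hmod : ∀ i, i % L < L := fun i => Nat.mod_lt _ (by omega)
  have hsucc : ∀ i, (i + 1) % L = if i % L + 1 < L then i % L + 1 else 0 := fun i => by
    rw [Nat.add_mod, Nat.mod_eq_of_lt (by omega : 1 < L)]
    split_ifs with h4
    · exact Nat.mod_eq_of_lt h4
    · rw [show i % L + 1 = L by have := hmod i; omega, Nat.mod_self]
  have nxt : ∀ i, v (i + 1) = c.getVert (i % L + 1) := fun i => by
    simp only [hv, hsucc]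
    split_ifs with h5
    · rfl
    · rw [show i % L + 1 = c.length by have := hmod i; omega, c.getVert_length, c.getVert_zero]
  have adj : ∀ i, G.Adj (v i) (v (i + 1)) := fun i => by
    rw [nxt]
    exact c.adj_getVert_succ (i := i % L) (hLdef ▸ hmod i)
  have inj : ∀ i j, v i = v j → i % L = j % L := fun i j e =>
    hcyc.getVert_injOn' (show i % L ≤ c.length - 1 by have := hmod i; omega)
      (show j % L ≤ c.length - 1 by have := hmod j; omega) e
  have per : ∀ i, v (i + L) = v i := fun i => by simp only [hv, Nat.add_mod_right]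
  suffices hall : ∀ i, H.Adj (v i) (v (i + 1)) by
    intro e he
    obtain ⟨i, hi', rfl⟩ := List.getElem_of_mem he
    rw [c.length_edges, ← hLdef] at hi'
    have := hall i
    rw [nxt] at this
    simp only [hv, Nat.mod_eq_of_lt hi'] at this
    rw [SimpleGraph.Walk.getElem_edges]
    exact this
  by_contra hex
  push Not at hex
  obtain ⟨i₀, hi₀⟩ := hex
  set p : ℕ → Prop := fun i => ¬ H.Adj (v i) (v (i + 1)) with hp
  have pper : ∀ i, p (i + L) ↔ p i := fun i => by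
    simp only [hp, per, show i + L + 1 = i + 1 + L by omega]
  have pinf : {i | p i}.Infinite := Set.infinite_of_not_bddAbove fun ⟨b, hb⟩ => by
    have : ∀ k, p (i₀ + k * L) := fun k => by
      induction k with
      | zero => simpa using hi₀
      | succ k ih => rw [Nat.succ_mul, ← Nat.add_assoc, pper]; exact ih
    have h5 := hb (this (b + 1))
    nlinarith
  have cper : ∀ i, Nat.count p (i + L) = Nat.count p i + Nat.count p L := fun i => by
    induction i with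
    | zero => simp
    | succ i ih =>
      rw [show i + 1 + L = i + L + 1 by omega, Nat.count_succ, Nat.count_succ, ih]
      simp only [pper]
      omega
  have nper : ∀ k, Nat.nth p (k + Nat.count p L) = Nat.nth p k + L := fun k => by
    have h5 := cper (Nat.nth p k)
    rw [Nat.count_nth_of_infinite pinf] at h5
    rw [← h5, Nat.nth_count ((pper _).2 (Nat.nth_mem_of_infinite pinf k))]
  have hL1 : 1 ≤ Nat.count p L := by
    by_contra h0
    have := nper 0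
    rw [show Nat.count p L = 0 by omega] at this
    simp only [Nat.add_zero] at this
    omega
  have ex : ∀ a b : ℕ, ∃ t, adjV V N ρ a b = true → t < N ∧ V t = a ∧ V (ρ t) = b := fun a b => by
    by_cases h4 : adjV V N ρ a b = true
    · obtain ⟨t, ht⟩ := adjV_iff.1 h4
      exact ⟨t, fun _ => ht⟩
    · exact ⟨0, fun h5 => absurd h5 h4⟩
  choose D hD using ex
  have hx := fun k => hD _ _ ((hG _ _ (adj (Nat.nth p k))).resolve_left
    (Nat.nth_mem_of_infinite pinf k))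
  have lt1 : ∀ k, Nat.nth p k < Nat.nth p (k + 1) := fun k =>
    Nat.nth_strictMono pinf (Nat.lt_succ_self k)
  have between : ∀ k j, Nat.nth p k + 1 ≤ j → j ≤ Nat.nth p (k + 1) →
      W (v j) = W (v (Nat.nth p k + 1)) := fun k j h1 h2 => by
    induction j, h1 using Nat.le_induction with
    | base => rfl
    | succ j h1 ih =>
      rw [← ih (by omega)]
      refine (hH _ _ ?_).symm
      by_contra hn
      have := Nat.le_nth_of_lt_nth_succ (p := p) (k := k) (a := j) (by omega) hn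
      omega
  refine hc (Nat.count p L) (fun k => D (v (Nat.nth p k)) (v (Nat.nth p k + 1))) hL1
    ((Nat.count_le p).trans hL) (fun k => (hx k).1) (fun k => ?_) (fun k e => ?_) fun k => ?_
  · beta_reduce
    rw [(hx (k + 1)).2.1, (hx k).2.2]
    exact between k _ (lt1 k) le_rfl
  · have e1 : v (Nat.nth p (k + 1)) = v (Nat.nth p k + 1) :=
      Fin.ext (by rw [← (hx (k + 1)).2.1, e, (hx k).2.2])
    have e2 : v (Nat.nth p (k + 1) + 1) = v (Nat.nth p k) :=
      Fin.ext (by rw [← (hx (k + 1)).2.2, e, hi _ (hx k).1, (hx k).2.1])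
    have e3 := inj _ _ e1
    have e4 := inj _ _ e2
    rw [hsucc, e3, hsucc] at e4
    have := hmod (Nat.nth p k)
    split_ifs at e4 <;> omega
  · rw [nper, show Nat.nth p k + L + 1 = Nat.nth p k + 1 + L by omega, per, per]

theorem PG.girth (h : PG V N n ρ) {g : ℕ} (hc : NoCyc V N g ρ) :
    ((g + 1 : ℕ) : ℕ∞) ≤ h.graph.egirth := by
  refine SimpleGraph.le_egirth.2 fun a c hcyc => ?_
  by_contra hlt
  have hL : c.length ≤ g := by
    have : c.length < g + 1 := by exact_mod_cast not_le.1 hlt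
    omega
  have h1 := short_cycle (W := id) (H := ⊥) hc h.invol (fun _ _ e => Or.inr e)
    (fun _ _ e => e.elim) c hcyc hL
  have h3 := hcyc.three_le_length
  have h2 : 0 < c.edges.length := by rw [c.length_edges]; omega
  simpa using h1 _ (List.getElem_mem h2)

/-! ### Eigenvalues -/

section Eig

open Matrix

variable {ι : Type*} [Fintype ι] [DecidableEq ι] {A : Matrix ι ι ℝ}

omit [DecidableEq ι] in
/-- A quadratic bound on a hyperplane bounds one of two eigenvalues with orthogonal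
eigenvectors. -/
theorem two_eig {w x z : ι → ℝ} {θ μ ν : ℝ} (h : ∀ u, w ⬝ᵥ u = 0 → u ⬝ᵥ A *ᵥ u ≤ θ * (u ⬝ᵥ u))
    (hx : A *ᵥ x = μ • x) (hz : A *ᵥ z = ν • z) (hx0 : 0 < x ⬝ᵥ x) (hz0 : 0 < z ⬝ᵥ z)
    (hxz : x ⬝ᵥ z = 0) (hμν : μ ≤ ν) : μ ≤ θ := by
  have hzx : z ⬝ᵥ x = 0 := by rw [dotProduct_comm, hxz]
  by_cases h0 : w ⬝ᵥ x = 0
  · have := h x h0
    rw [hx, dotProduct_smul, smul_eq_mul] at this
    exact le_of_mul_le_mul_right this hx0
  have := h ((w ⬝ᵥ z) • x - (w ⬝ᵥ x) • z) (by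
    simp only [dotProduct_sub, dotProduct_smul, smul_eq_mul]; ring)
  simp only [mulVec_sub, mulVec_smul, hx, hz, dotProduct_sub, sub_dotProduct, dotProduct_smul,
    smul_dotProduct, smul_eq_mul, hxz, hzx, mul_zero, sub_zero, zero_sub] at this
  have h1 : 0 < (w ⬝ᵥ x) ^ 2 * (z ⬝ᵥ z) := by positivity
  have h2 : 0 ≤ (w ⬝ᵥ z) ^ 2 * (x ⬝ᵥ x) := by positivity
  by_contra hlt
  push Not at hlt
  nlinarith

theorem sorted_eig (hA : A.IsHermitian) {w : ι → ℝ} {θ : ℝ}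
    (h1 : ∀ u, -(u ⬝ᵥ A *ᵥ u) ≤ θ * (u ⬝ᵥ u))
    (h2 : ∀ u, w ⬝ᵥ u = 0 → u ⬝ᵥ A *ᵥ u ≤ θ * (u ⬝ᵥ u)) (i : Fin (Fintype.card ι))
    (hi : i.val ≠ 0) : |hA.eigenvalues₀ i| ≤ θ := by
  set e : Fin (Fintype.card ι) ≃ ι := Fintype.equivOfCardEq (Fintype.card_fin _) with he
  have hev : ∀ j, hA.eigenvalues (e j) = hA.eigenvalues₀ j := fun j => by
    simp only [IsHermitian.eigenvalues, ← he, Equiv.symm_apply_apply]
  have hon : ∀ a b, (hA.eigenvectorBasis a).ofLp ⬝ᵥ (hA.eigenvectorBasis b).ofLp =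
      if a = b then 1 else 0 := fun a b => by
    have := orthonormal_iff_ite.1 hA.eigenvectorBasis.orthonormal a b
    rw [EuclideanSpace.inner_eq_star_dotProduct, star_trivial, dotProduct_comm] at this
    exact this
  have hm : ∀ j, A *ᵥ (hA.eigenvectorBasis (e j)).ofLp =
      hA.eigenvalues₀ j • (hA.eigenvectorBasis (e j)).ofLp := fun j => by
    rw [← hev]
    exact hA.mulVec_eigenvectorBasis _
  rw [abs_le]
  constructor
  · have := h1 (hA.eigenvectorBasis (e i)).ofLp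
    rw [hm, dotProduct_smul, hon, if_pos rfl, smul_eq_mul] at this
    linarith
  · have h0 : 0 < Fintype.card ι := i.pos
    refine two_eig h2 (hm i) (hm ⟨0, h0⟩) (by rw [hon, if_pos rfl]; norm_num)
      (by rw [hon, if_pos rfl]; norm_num) ?_ (hA.eigenvalues₀_antitone (Nat.zero_le i.val))
    rw [hon, if_neg]
    exact fun h => hi (congrArg Fin.val (e.injective h))

end Eig

end Vale.Agent.N049D
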