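import Vale.Agent.N049D.Run

/-!
# The initial kernel for an arbitrary vertex map and arbitrary vertex weights
-/

namespace Vale.Agent.N049D

open Finset Vale.Agent.P049 Vale.Agent.Lib.PolyTime Vale.Agent.P315.H155
open Vale.Agent.N049 (complete2 PT_complete2 parG PT_parG parG_le parG_eq)

section Defs

variable {K : Type*} [Field K]

/-- The block kernel with weight `P v` at the vertex `v`. -/
def blk (V : ℕ → ℕ) (P : ℕ → K) (a b : ℕ) : K := if V a = V b then P (V a) else 0

/-- The row sums of the block kernel. -/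
def rsum (V : ℕ → ℕ) (P : ℕ → K) (N a : ℕ) : K := ∑ b ∈ range N, blk V P a b

/-- The correction which makes all row sums equal to `s`. -/
def cor (s m : K) (V : ℕ → ℕ) (P : ℕ → K) (N a b : ℕ) : K :=
  (s + m + (∑ c ∈ range N, rsum V P N c) / N - (rsum V P N a + rsum V P N b)) / N

/-- The initial kernel. -/
def iniV (s m : K) (V : ℕ → ℕ) (P : ℕ → K) (N a b : ℕ) : K :=
  (if a = b then -m else 0) + blk V P a b + cor s m V P N a b

theorem blk_symm (V : ℕ → ℕ) (P : ℕ → K) (a b : ℕ) : blk V P a b = blk V P b a := by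
  unfold blk
  by_cases h : V a = V b
  · rw [if_pos h, if_pos h.symm, h]
  · rw [if_neg h, if_neg (Ne.symm h)]

theorem iniV_symm (s m : K) (V : ℕ → ℕ) (P : ℕ → K) (N a b : ℕ) :
    iniV s m V P N a b = iniV s m V P N b a := by
  simp only [iniV, cor, blk_symm V P a b, eq_comm, add_comm (rsum V P N a)]

end Defs

theorem cst_iniV (s m : ℚ) (V : ℕ → ℕ) (P : ℕ → ℚ) (N : ℕ) :
    cst (iniV s m V P N) = iniV (s : ℝ) m V (fun v => (P v : ℝ)) N := by
  have h : ∀ a b, ((blk V P a b : ℚ) : ℝ) = blk V (fun v => (P v : ℝ)) a b := fun a b => by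
    unfold blk
    split_ifs <;> simp
  funext c e
  unfold cst iniV cor rsum
  push_cast [h]
  split_ifs <;> simp

variable {V : ℕ → ℕ} {P : ℕ → ℝ} {N n : ℕ} {s m : ℝ}

theorem iniV_row {a : ℕ} (ha : a ∈ range N) : ∑ b ∈ range N, iniV s m V P N a b = s := by
  have hN : (N : ℝ) ≠ 0 := by
    have := mem_range.1 ha
    exact_mod_cast (by omega : N ≠ 0)
  simp only [iniV, cor, sum_add_distrib, ← sum_div, sum_sub_distrib]
  rw [sum_ite_eq, if_pos ha]
  simp only [sum_const, card_range, nsmul_eq_mul]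
  unfold rsum
  field_simp
  ring

theorem qf_iniV (hN : 0 < N) (x : ℕ → ℝ) :
    m * ∑ a ∈ range N, x a ^ 2 + qf (range N) (iniV s m V P N) x =
      qf (range N) (blk V P) (fun a => x a - (∑ c ∈ range N, x c) / N) +
        (s + m) * (∑ c ∈ range N, x c) ^ 2 / N := by
  have hN' : (N : ℝ) ≠ 0 := by exact_mod_cast hN.ne'
  obtain ⟨X, hX⟩ : ∃ X, X = ∑ c ∈ range N, x c := ⟨_, rfl⟩
  obtain ⟨T, hT⟩ : ∃ T, T = ∑ c ∈ range N, rsum V P N c := ⟨_, rfl⟩
  obtain ⟨U, hU⟩ : ∃ U, U = ∑ c ∈ range N, rsum V P N c * x c := ⟨_, rfl⟩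
  rw [← hX]
  have h1 : ∀ a ∈ range N, ∑ b ∈ range N, x a * iniV s m V P N a b * x b =
      -m * x a ^ 2 + ∑ b ∈ range N, x a * blk V P a b * x b +
        (((s + m + T / N) * X - U) / N * x a - X / N * (rsum V P N a * x a)) := by
    intro a ha
    have : ∀ b ∈ range N, x a * iniV s m V P N a b * x b =
        (if a = b then -m * x a * x b else 0) + x a * blk V P a b * x b +
          (x a * (s + m + T / N - rsum V P N a) / N * x b - x a / N * (rsum V P N b * x b)) :=
      fun b _ => by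
        unfold iniV cor
        rw [← hT]
        split_ifs <;> ring
    rw [sum_congr rfl this, sum_add_distrib, sum_add_distrib, sum_sub_distrib, ← mul_sum,
      ← mul_sum, ← hX, ← hU, sum_ite_eq, if_pos ha]
    ring
  have h2 : ∀ a ∈ range N, ∑ b ∈ range N, (x a - X / N) * blk V P a b * (x b - X / N) =
      ∑ b ∈ range N, x a * blk V P a b * x b - X / N * (rsum V P N a * x a) -
        X / N * ∑ b ∈ range N, blk V P a b * x b + (X / N) ^ 2 * rsum V P N a := by
    intro a _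
    unfold rsum
    rw [sum_mul, mul_sum, mul_sum, mul_sum, ← sum_sub_distrib, ← sum_sub_distrib,
      ← sum_add_distrib]
    exact sum_congr rfl fun b _ => by ring
  have h3 : ∑ a ∈ range N, ∑ b ∈ range N, blk V P a b * x b = U := by
    rw [sum_comm, hU]
    refine sum_congr rfl fun b _ => ?_
    rw [← sum_mul]
    congr 1
    exact sum_congr rfl fun a _ => blk_symm V P a b
  unfold qf
  rw [sum_congr rfl h1, sum_congr rfl h2]
  simp only [sum_add_distrib, sum_sub_distrib, ← mul_sum]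
  rw [h3, ← hX, ← hU, ← hT]
  field_simp
  ring

theorem sum_fib (hn : ∀ a < N, V a < n) (z f : ℕ → ℝ) : ∑ a ∈ range N, z a * f (V a) =
    ∑ v ∈ range n, (∑ a ∈ (range N).filter fun a => V a = v, z a) * f v := by
  rw [← sum_fiberwise_of_maps_to (g := V) (t := range n)
    fun a ha => mem_range.2 (hn a (mem_range.1 ha))]
  refine sum_congr rfl fun v _ => ?_
  rw [sum_mul]
  exact sum_congr rfl fun a ha => by rw [(mem_filter.1 ha).2]

theorem blk_ineq (hn : ∀ a < N, V a < n) (hP : ∀ v, 0 < P v) (z Y : ℕ → ℝ) :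
    2 * ∑ a ∈ range N, z a * Y (V a) - qf (range N) (blk V P) z ≤ ∑ v ∈ range n, Y v ^ 2 / P v := by
  have h1 : qf (range N) (blk V P) z = ∑ a ∈ range N, z a *
      (fun v => P v * ∑ b ∈ (range N).filter fun b => V b = v, z b) (V a) := by
    refine sum_congr rfl fun a _ => ?_
    beta_reduce
    rw [sum_filter, mul_sum, mul_sum]
    refine sum_congr rfl fun b _ => ?_
    unfold blk
    by_cases h : V a = V b
    · rw [if_pos h, if_pos h.symm]; ring
    · rw [if_neg h, if_neg (Ne.symm h)]; ring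
  rw [h1, sum_fib hn z Y, sum_fib hn z fun v => P v * ∑ b ∈ (range N).filter fun b => V b = v, z b,
    mul_sum, ← sum_sub_distrib]
  refine sum_le_sum fun v _ => ?_
  generalize ∑ a ∈ (range N).filter fun a => V a = v, z a = Z
  have hp := hP v
  have : Y v ^ 2 / P v - (2 * (Z * Y v) - Z * (P v * Z)) = (P v * Z - Y v) ^ 2 / P v := by
    field_simp
    ring
  have h4 : 0 ≤ (P v * Z - Y v) ^ 2 / P v := by positivity
  linarith

theorem ker_iniV (hN : 0 < N) (hn : ∀ a < N, V a < n) (hP : ∀ v, 0 < P v) :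
    Ker s m (range N) (res (range N) (iniV s m V P N)) :=
  ker_res (iniV_symm s m V P N) (fun _ ha => iniV_row ha) fun x hx => by
    have h := blk_ineq hn hP (fun a => x a - (∑ c ∈ range N, x c) / N) fun _ => 0
    rw [qf_iniV hN, hx] at *
    simp only [mul_zero, sum_const_zero, ne_eq, OfNat.ofNat_ne_zero, not_false_eq_true, zero_pow,
      zero_div] at h ⊢
    linarith

theorem inv_iniV (hN : 0 < N) (hn : ∀ a < N, V a < n) (hP : ∀ v, 0 < P v) (hm : m ^ 2 < 1)
    (Y : ℕ → ℝ) (h : s + m ≤ 0 ∨ (s + m ≠ 0 ∧ ∑ a ∈ range N, Y (V a) = 0)) :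
    Inv s m (range N) (iniV s m V P N) (fun a => Y (V a))
      ((1 - m ^ 2) * ∑ v ∈ range n, Y v ^ 2 / P v) := by
  intro x hx
  have hN' : (0 : ℝ) < N := by exact_mod_cast hN
  refine mul_le_mul_of_nonneg_left ?_ (by linarith)
  have h1 := qf_iniV (V := V) (P := P) (s := s) (m := m) hN x
  have h2 := blk_ineq hn hP (fun a => x a - (∑ c ∈ range N, x c) / N) Y
  obtain ⟨X, hX⟩ : ∃ X, X = ∑ c ∈ range N, x c := ⟨_, rfl⟩
  rw [← hX] at h1 h2 hx
  have h3 : ∑ a ∈ range N, (x a - X / N) * Y (V a) =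
      ∑ a ∈ range N, x a * Y (V a) - (s + m) * X ^ 2 / N := by
    simp only [sub_mul, sum_sub_distrib, ← mul_sum]
    rw [← hx]
    ring
  have h4 : (s + m) * X ^ 2 / N ≤ 0 := by
    rcases h with h | ⟨h, h'⟩
    · exact div_nonpos_of_nonpos_of_nonneg (mul_nonpos_of_nonpos_of_nonneg h (sq_nonneg X)) hN'.le
    · rw [h'] at hx
      rw [(mul_eq_zero.1 hx).resolve_left h]
      simp
  beta_reduce
  linarith

/-! ### The potential at the start -/

theorem mSide_of {y C : ℝ} {X Y : ℕ → ℕ → ℝ} (hC : 1 ≤ C) (hy : 200 * C ^ 4 ≤ y)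
    (h1 : y ^ 1000000 ≤ N) (h2 : N ≤ y ^ 1000001) (sX : ∀ a b, X a b = X b a)
    (rX : RowLe (range N) X C) (rY : RowLe (range N) Y C)
    (t1 : |∑ a ∈ range N, X a a| ≤ y ^ 337535)
    (t2 : ∑ a ∈ range N, ∑ b ∈ range N, X a b ^ 2 ≤ N - y ^ 668668)
    (t3 : ∑ a ∈ range N, X a a ^ 2 ≤ y ^ 205999) :
    mSide (envY y) N 1 (subM (range N) X) (subM (range N) Y) ≤ 1 / 4 := by
  have hC4 : 1 ≤ C ^ 4 := one_le_pow₀ hC
  have hC3 : C ^ 3 ≤ C ^ 4 := pow_le_pow_right₀ hC (by norm_num)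
  have hy2 : 200 ≤ y := by linarith
  have hy1 : 1 ≤ y := by linarith
  have hy0 : 0 < y := by linarith
  have hN0 : (0 : ℝ) < N := lt_of_lt_of_le (pow_pos hy0 _) h1
  have hcard : (Fintype.card (range N) : ℝ) = N := by rw [Fintype.card_coe, card_range]
  have b4 : N * (C * C * C) ≤ N * C ^ 4 := mul_le_mul_of_nonneg_left (by linarith) hN0.le
  have b5 : N * 1 ≤ N * C ^ 4 := mul_le_mul_of_nonneg_left hC4 hN0.le
  have b6 : 200 * C ^ 4 * N ≤ y * N := mul_le_mul_of_nonneg_right hy hN0.le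
  have rX' := rX.subM
  have rY' := rY.subM
  unfold mSide
  refine Env.side_init (pow_pos hy0 _) ((pow_le_pow_right₀ hy1 (by norm_num)).trans h1)
    (pow_pos hy0 _) (pow_pos hy0 _) (pow_pos hy0 _) (pow_pos hy0 _) (pow_pos hy0 _)
    ?_ ?_ ?_ ?_ ?_ ?_
  · rw [trace_subM]
    exact (mul_le_mul_of_nonneg_left t1 (by norm_num)).trans
      (mul_pow_le_pow hy1 (by linarith) (by norm_num))
  · rw [trace_sq_subM _ sX]
    exact t2
  · have b1 := ((rX'.matMul rX').matMul rX').trace_le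
    rw [hcard] at b1
    have b2 : y * N ≤ y ^ 1000200 := (mul_le_mul_of_nonneg_left h2 hy0.le).trans
      (mul_pow_le_pow hy1 le_rfl (by norm_num))
    exact le_trans (by linarith) b2
  · have b1 := ((rX'.matMul rX').matMul rY').trace_le
    rw [hcard] at b1
    have b2 : y * N ≤ y ^ 260000 * N :=
      mul_le_mul_of_nonneg_right (le_self_pow₀ hy1 (by norm_num)) hN0.le
    exact le_trans (by linarith) b2
  · rw [vv_subM]
    exact (mul_le_mul_of_nonneg_left t3 (by norm_num)).trans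
      (mul_pow_le_pow hy1 hy2 (by norm_num))
  · have b1 : uu (subM (range N) X) ≤ N * C ^ 4 := by
      rw [← hcard, ← nsmul_eq_mul, ← card_univ]
      refine sum_le_card_nsmul _ _ _ fun a _ => ?_
      have b := pow_le_pow_left₀ (abs_nonneg _)
        ((rX'.matMul rX').entry (mem_univ a) (mem_univ a)) 2
      rw [sq_abs] at b
      linarith
    have b2 : y * N ≤ y ^ 200 * N :=
      mul_le_mul_of_nonneg_right (le_self_pow₀ hy1 (by norm_num)) hN0.le
    exact le_trans (by linarith) b2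

theorem blk_nonneg (hP : ∀ v, 0 < P v) (a b : ℕ) : 0 ≤ blk V P a b := by
  unfold blk
  split_ifs
  · exact (hP _).le
  · exact le_rfl

theorem abs_cor_le {R : ℝ} (hs : s ^ 2 = 1) (hm0 : 0 ≤ m) (hm1 : m ≤ 1) (hP : ∀ v, 0 < P v)
    (hR : ∀ a < N, rsum V P N a ≤ R) {a b : ℕ} (ha : a ∈ range N) (hb : b ∈ range N) :
    |cor s m V P N a b| ≤ (2 * R + 2) / N := by
  have hN : (0 : ℝ) < N := by
    have := mem_range.1 ha
    exact_mod_cast (by omega : 0 < N)
  have h0 : ∀ c, 0 ≤ rsum V P N c := fun c => sum_nonneg fun _ _ => blk_nonneg hP _ _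
  have h1 : 0 ≤ (∑ c ∈ range N, rsum V P N c) / N :=
    div_nonneg (sum_nonneg fun c _ => h0 c) hN.le
  have h2 : (∑ c ∈ range N, rsum V P N c) / N ≤ R := by
    rw [div_le_iff₀ hN]
    refine (sum_le_card_nsmul _ _ R fun c hc => hR c (mem_range.1 hc)).trans (le_of_eq ?_)
    rw [card_range, nsmul_eq_mul, mul_comm]
  unfold cor
  rw [abs_div, abs_of_pos hN]
  refine div_le_div_of_nonneg_right ?_ hN.le
  have := hR a (mem_range.1 ha)
  have := hR b (mem_range.1 hb)
  have := h0 a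
  have := h0 b
  rcases sign_cases hs with rfl | rfl <;> rw [abs_le] <;> constructor <;> linarith

theorem row0_le {R : ℝ} (hm0 : 0 ≤ m) (hm1 : m ≤ 1) (hP : ∀ v, 0 < P v)
    (hR : ∀ a < N, rsum V P N a ≤ R) :
    RowLe (range N) (fun a b => (if a = b then -m else 0) + blk V P a b) (1 + R) := by
  refine RowLe.add (fun a ha => ?_) fun a ha => ?_
  · rw [sum_eq_single_of_mem a ha fun b _ hb => by rw [if_neg hb.symm, abs_zero], if_pos rfl,
      abs_neg, abs_of_nonneg hm0]
    exact hm1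
  · rw [sum_congr rfl fun b _ => abs_of_nonneg (blk_nonneg hP a b)]
    exact hR a (mem_range.1 ha)

theorem row_iniV {R : ℝ} (hs : s ^ 2 = 1) (hm0 : 0 ≤ m) (hm1 : m ≤ 1) (hP : ∀ v, 0 < P v)
    (hR : ∀ a < N, rsum V P N a ≤ R) : RowLe (range N) (iniV s m V P N) (3 * R + 3) := by
  refine ((row0_le hm0 hm1 hP hR).add (G := cor s m V P N) (D := 2 * R + 2)
    fun a ha => ?_).mono (le_of_eq (by ring))
  have hN : (N : ℝ) ≠ 0 := by
    have := mem_range.1 ha
    exact_mod_cast (by omega : N ≠ 0)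
  refine (sum_le_card_nsmul _ _ _ fun b hb => abs_cor_le hs hm0 hm1 hP hR ha hb).trans
    (le_of_eq ?_)
  rw [card_range, nsmul_eq_mul]
  field_simp

theorem row0_sq {a : ℕ} (ha : a ∈ range N) :
    ∑ b ∈ range N, ((if a = b then -m else 0) + blk V P a b) ^ 2 =
      m ^ 2 - 2 * m * P (V a) + P (V a) * rsum V P N a := by
  have : ∀ b ∈ range N, ((if a = b then -m else 0) + blk V P a b) ^ 2 =
      (if a = b then m ^ 2 - 2 * m * P (V a) else 0) + P (V a) * blk V P a b := fun b _ => by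
    unfold blk
    by_cases h : a = b
    · subst h
      simp only [if_true]
      ring
    · simp only [h, if_false]
      split_ifs <;> ring
  rw [sum_congr rfl this, sum_add_distrib, sum_ite_eq, if_pos ha, ← mul_sum]
  rfl

theorem mSide_iniV {y R s' : ℝ} (hs : s ^ 2 = 1) (hs' : s' ^ 2 = 1) (hm0 : 0 ≤ m) (hm1 : m ≤ 1)
    (hP : ∀ v, 0 < P v) (hR0 : 0 ≤ R) (hR : ∀ a < N, rsum V P N a ≤ R)
    (hy : 200 * (3 * R + 3) ^ 4 ≤ y) (h1 : y ^ 1000000 ≤ N) (h2 : N ≤ y ^ 1000001)
    (t1 : ∑ a ∈ range N, |P (V a) - m| ≤ y ^ 337534)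
    (t2 : ∑ a ∈ range N, (m ^ 2 - 2 * m * P (V a) + P (V a) * rsum V P N a) ≤
      N - y ^ 668668 - y)
    (t3 : ∑ a ∈ range N, (P (V a) - m) ^ 2 ≤ y ^ 205998) :
    mSide (envY y) N 1 (subM (range N) (iniV s m V P N)) (subM (range N) (iniV s' m V P N)) ≤
      1 / 4 := by
  obtain ⟨C, hC⟩ : ∃ C, C = 3 * R + 3 := ⟨_, rfl⟩
  have hC1 : 1 ≤ C := by linarith
  have r1 := row_iniV hs hm0 hm1 hP hR
  have r2 := row_iniV hs' hm0 hm1 hP hR
  rw [← hC] at hy r1 r2
  have hC2 : C ^ 2 ≤ C ^ 4 := pow_le_pow_right₀ hC1 (by norm_num)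
  have hC3 : C ≤ C ^ 2 := le_self_pow₀ hC1 (by norm_num)
  have hy2 : 200 ≤ y := by linarith
  have hy1 : 1 ≤ y := by linarith
  have hN1 : (1 : ℝ) ≤ N := (one_le_pow₀ hy1).trans h1
  have hN0 : (0 : ℝ) < N := by linarith
  have hc : ∀ a ∈ range N, ∀ b ∈ range N, |cor s m V P N a b| ≤ C / N := fun a ha b hb =>
    (abs_cor_le hs hm0 hm1 hP hR ha hb).trans (div_le_div_of_nonneg_right (by linarith) hN0.le)
  have hd : ∀ a, iniV s m V P N a a = P (V a) - m + cor s m V P N a a := fun a => by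
    simp only [iniV, blk, if_true]
    ring
  have e1 : ∀ c : ℝ, ∑ _a ∈ range N, c = N * c := fun c => by
    rw [sum_const, card_range, nsmul_eq_mul]
  have p1 : ∀ i : ℕ, i ≠ 0 → y ≤ y ^ i := fun i hi => le_self_pow₀ hy1 hi
  have p2 : ∀ i : ℕ, 3 * y ^ i ≤ y ^ (i + 1) := fun i => mul_pow_le_pow hy1 (by linarith) le_rfl
  refine mSide_of hC1 hy h1 h2 (iniV_symm s m V P N) r1 r2 ?_ ?_ ?_
  · refine (abs_sum_le_sum_abs _ _).trans ((sum_le_sum (g := fun a => |P (V a) - m| + C / N)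
      fun a ha => ?_).trans ?_)
    · rw [hd]
      exact (abs_add_le _ _).trans (add_le_add le_rfl (hc a ha a ha))
    · rw [sum_add_distrib, e1, mul_div_cancel₀ _ hN0.ne']
      have a1 := p1 337534 (by norm_num)
      exact le_trans (by linarith) (p2 337534)
  · refine (sum_le_sum (g := fun a => m ^ 2 - 2 * m * P (V a) + P (V a) * rsum V P N a +
      3 * C ^ 2 / N) fun a ha => ?_).trans ?_
    · have b1 := row0_le hm0 hm1 hP hR a ha
      have b2 : ∀ b ∈ range N, iniV s m V P N a b ^ 2 ≤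
          ((if a = b then -m else 0) + blk V P a b) ^ 2 +
            2 * (C / N) * |(if a = b then -m else 0) + blk V P a b| + (C / N) ^ 2 := fun b hb => by
        have b3 := hc a ha b hb
        unfold iniV
        generalize (if a = b then -m else 0) + blk V P a b = u
        generalize cor s m V P N a b = w at b3
        have b4 : u * w ≤ |u| * (C / N) := (le_abs_self _).trans
          (by rw [abs_mul]; exact mul_le_mul_of_nonneg_left b3 (abs_nonneg _))
        have b5 := pow_le_pow_left₀ (abs_nonneg _) b3 2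
        rw [sq_abs] at b5
        nlinarith
      refine (sum_le_sum b2).trans ?_
      rw [sum_add_distrib, sum_add_distrib, row0_sq ha, ← mul_sum, e1]
      have b6 : 2 * (C / N) * ∑ b ∈ range N, |(if a = b then -m else 0) + blk V P a b| ≤
          2 * (C / N) * C := mul_le_mul_of_nonneg_left (b1.trans (by linarith)) (by positivity)
      have b7 : 3 * C ^ 2 / N = 2 * (C / N) * C + N * (C / N) ^ 2 := by field_simp; ring
      linarith
    · rw [sum_add_distrib, e1, mul_div_cancel₀ _ hN0.ne']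
      linarith
  · refine (sum_le_sum (g := fun a => 2 * (P (V a) - m) ^ 2 + 2 * C ^ 2 / N)
      fun a ha => ?_).trans ?_
    · have b5 := pow_le_pow_left₀ (abs_nonneg _) (hc a ha a ha) 2
      have b6 : (C / N) ^ 2 ≤ C ^ 2 / N := by
        rw [div_pow]
        exact div_le_div_of_nonneg_left (by positivity) hN0 (le_self_pow₀ hN1 (by norm_num))
      rw [sq_abs] at b5
      rw [hd, mul_div_assoc]
      nlinarith [sq_nonneg (P (V a) - m - cor s m V P N a a)]
    · rw [sum_add_distrib, e1, mul_div_cancel₀ _ hN0.ne', ← mul_sum]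
      have a1 := p1 205998 (by norm_num)
      exact le_trans (by linarith) (p2 205998)

end Vale.Agent.N049D
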