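import Vale.Agent.N049.Main

/-!
# Short walks along matched half-edges, for an arbitrary vertex map `V`

This is `Vale.Agent.N049.Near` and `Vale.Agent.N049.Cnt` with `a / d` replaced by `V a`.

`Near V N π i u v` says that the vertex `v` is reached from `u` in at most `i` steps.  Matching
only half-edges whose vertices are far apart creates no short closed walk without backtracking.
-/

namespace Vale.Agent.N049D

open Finset Vale.Agent.P049 Vale.Agent.Lib.PolyTime Vale.Agent.P315.H155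
open Vale.Agent.N049 (Invol cauchy_le ind_nonneg)

/-- `v` is reached from `u` in at most `i` steps along matched half-edges. -/
def Near (V : ℕ → ℕ) (N : ℕ) (π : ℕ → ℕ) : ℕ → ℕ → ℕ → Prop
  | 0, u, v => u = v
  | i + 1, u, v => Near V N π i u v ∨ ∃ c < N, π c < N ∧ Near V N π i u (V c) ∧ V (π c) = v

instance decNear (V : ℕ → ℕ) (N : ℕ) (π : ℕ → ℕ) : ∀ i u v, Decidable (Near V N π i u v)
  | 0, u, v => inferInstanceAs (Decidable (u = v))
  | i + 1, u, v => by
    have := decNear V N π i u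
    unfold Near
    infer_instance

/-- Every vertex carries at most `d` half-edges. -/
def Fib (V : ℕ → ℕ) (N d : ℕ) : Prop := ∀ v, ((range N).filter fun c => V c = v).card ≤ d

variable {V : ℕ → ℕ} {d N : ℕ} {π : ℕ → ℕ}

theorem near_zero {u v : ℕ} : Near V N π 0 u v ↔ u = v := Iff.rfl

theorem near_succ {i u v : ℕ} : Near V N π (i + 1) u v ↔
    Near V N π i u v ∨ ∃ c < N, π c < N ∧ Near V N π i u (V c) ∧ V (π c) = v := Iff.rfl

theorem Near.mono {i j u v : ℕ} (h : Near V N π i u v) (hij : i ≤ j) : Near V N π j u v := by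
  induction j, hij using Nat.le_induction with
  | base => exact h
  | succ j _ ih => exact Or.inl ih

theorem Near.refl (i u : ℕ) : Near V N π i u u :=
  (near_zero.2 rfl : Near V N π 0 u u).mono (Nat.zero_le i)

theorem Near.step {i u c : ℕ} (h : Near V N π i u (V c)) (hc : c < N) (hp : π c < N) :
    Near V N π (i + 1) u (V (π c)) := Or.inr ⟨c, hc, hp, h, rfl⟩

theorem Near.trans {i j u v w : ℕ} (h : Near V N π i u v) (h' : Near V N π j v w) :
    Near V N π (i + j) u w := by
  induction j generalizing w with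
  | zero => rw [← near_zero.1 h']; exact h
  | succ j ih =>
    rcases h' with h' | ⟨c, hc, hp, h1, rfl⟩
    · exact Or.inl (ih h')
    · exact (ih h1).step hc hp

theorem Near.symm (hπ : Invol N π) {i u v : ℕ} (h : Near V N π i u v) : Near V N π i v u := by
  induction i generalizing v with
  | zero => exact (near_zero.1 h).symm
  | succ i ih =>
    rcases h with h | ⟨c, hc, hp, h1, rfl⟩
    · exact Or.inl (ih h)
    · have h2 : Near V N π 1 (V (π c)) (V c) := by
        have := (Near.refl (V := V) (N := N) (π := π) 0 (V (π c))).step hp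
          (by rw [hπ c hc hp]; exact hc)
        rwa [hπ c hc hp] at this
      have := h2.trans (ih h1)
      rwa [Nat.add_comm] at this

theorem near_symm (hπ : Invol N π) (i u v : ℕ) : Near V N π i u v ↔ Near V N π i v u :=
  ⟨Near.symm hπ, Near.symm hπ⟩

theorem near_const {i u v : ℕ} : Near V N (fun _ => N) i u v ↔ u = v := by
  induction i with
  | zero => rfl
  | succ i ih => rw [near_succ, ih]; simp

theorem Fib.sub (h : Fib V N d) {S : Finset ℕ} (hS : S ⊆ range N) (v : ℕ) :
    (S.filter fun c => V c = v).card ≤ d :=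
  (card_le_card (filter_subset_filter _ hS)).trans (h v)

/-- Short walks after one more pair has been matched. -/
theorem near_upd {a b i u v : ℕ} (h : Near V N (upd π a b) i u v) :
    Near V N π i u v ∨ ∃ j l, j + l + 1 = i ∧
      ((Near V N π j u (V a) ∧ Near V N π l (V b) v) ∨
        (Near V N π j u (V b) ∧ Near V N π l (V a) v)) := by
  induction i generalizing v with
  | zero => exact Or.inl h
  | succ i ih =>
    rcases h with h | ⟨c, hc, hp, h1, rfl⟩
    · rcases ih h with h | ⟨j, l, e, h | h⟩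
      · exact Or.inl (Or.inl h)
      · exact Or.inr ⟨j, l + 1, by omega, Or.inl ⟨h.1, Or.inl h.2⟩⟩
      · exact Or.inr ⟨j, l + 1, by omega, Or.inr ⟨h.1, Or.inl h.2⟩⟩
    by_cases e1 : c = a
    · subst e1
      rw [upd_a]
      rcases ih h1 with h | ⟨j, l, e, h | h⟩
      · exact Or.inr ⟨i, 0, by omega, Or.inl ⟨h, rfl⟩⟩
      · exact Or.inr ⟨j, l + 1, by omega, Or.inl ⟨h.1, Near.refl _ _⟩⟩
      · exact Or.inl (h.1.mono (by omega))
    by_cases e2 : c = b
    · subst e2
      rw [upd_b]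
      rcases ih h1 with h | ⟨j, l, e, h | h⟩
      · exact Or.inr ⟨i, 0, by omega, Or.inr ⟨h, rfl⟩⟩
      · exact Or.inl (h.1.mono (by omega))
      · exact Or.inr ⟨j, l + 1, by omega, Or.inr ⟨h.1, Near.refl _ _⟩⟩
    rw [upd_of_ne π e1 e2] at hp ⊢
    rcases ih h1 with h | ⟨j, l, e, h | h⟩
    · exact Or.inl (h.step hc hp)
    · exact Or.inr ⟨j, l + 1, by omega, Or.inl ⟨h.1, h.2.step hc hp⟩⟩
    · exact Or.inr ⟨j, l + 1, by omega, Or.inr ⟨h.1, h.2.step hc hp⟩⟩

/-- At most `(d + 1) ^ i` vertices are reached in `i` steps. -/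
theorem exists_ball (hd : Fib V N d) (i u : ℕ) :
    ∃ B : Finset ℕ, B.card ≤ (d + 1) ^ i ∧ ∀ v, Near V N π i u v → v ∈ B := by
  induction i with
  | zero => exact ⟨{u}, by simp, fun v h => mem_singleton.2 (near_zero.1 h).symm⟩
  | succ i ih =>
    obtain ⟨B, hB, hB'⟩ := ih
    refine ⟨B ∪ B.biUnion fun w => ((range N).filter fun c => V c = w).image fun c => V (π c),
      ?_, ?_⟩
    · refine (card_union_le _ _).trans ?_
      have h1 : (B.biUnion fun w =>
          ((range N).filter fun c => V c = w).image fun c => V (π c)).card ≤ B.card * d :=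
        card_biUnion_le.trans ((sum_le_card_nsmul _ _ d fun w _ =>
          card_image_le.trans (hd _)).trans (by simp))
      rw [pow_succ]
      nlinarith
    · rintro v (h | ⟨c, hc, -, h1, rfl⟩)
      · exact mem_union_left _ (hB' v h)
      · exact mem_union_right _ (mem_biUnion.2 ⟨V c, hB' _ h1,
          mem_image.2 ⟨c, mem_filter.2 ⟨mem_range.2 hc, rfl⟩, rfl⟩⟩)

theorem card_near_le (hd : Fib V N d) (i u : ℕ) {S : Finset ℕ} (hS : S ⊆ range N) :
    (S.filter fun e => Near V N π i u (V e)).card ≤ (d + 1) ^ (i + 1) := by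
  obtain ⟨B, hB, hB'⟩ := exists_ball (π := π) hd i u
  have h1 : (S.filter fun e => Near V N π i u (V e)) ⊆
      B.biUnion fun w => S.filter fun e => V e = w := fun e he =>
    mem_biUnion.2 ⟨V e, hB' _ (mem_filter.1 he).2, mem_filter.2 ⟨(mem_filter.1 he).1, rfl⟩⟩
  refine (card_le_card h1).trans (card_biUnion_le.trans
    ((sum_le_card_nsmul _ _ d fun w _ => hd.sub hS _).trans ?_))
  rw [smul_eq_mul, pow_succ]
  exact Nat.mul_le_mul hB (Nat.le_succ d)

/-! ### Walks without backtracking -/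

/-- `x 0, …, x (L - 1)` are matched half-edges which form a walk without backtracking. -/
structure Walk (V : ℕ → ℕ) (N : ℕ) (π : ℕ → ℕ) (L : ℕ) (x : ℕ → ℕ) : Prop where
  lt : ∀ i < L, x i < N
  mt : ∀ i < L, π (x i) < N
  nx : ∀ i, i + 1 < L → V (x (i + 1)) = V (π (x i))
  nb : ∀ i, i + 1 < L → x (i + 1) ≠ π (x i)

/-- There is no closed walk without backtracking of length between `1` and `g`. -/
def Acyc (V : ℕ → ℕ) (N g : ℕ) (π : ℕ → ℕ) : Prop :=
  ∀ L x, 1 ≤ L → L ≤ g → Walk V N π L x → V (π (x (L - 1))) ≠ V (x 0)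

theorem acyc_const (V : ℕ → ℕ) (N g : ℕ) : Acyc V N g fun _ => N :=
  fun _ _ h1 _ h => absurd (h.mt 0 h1) (lt_irrefl _)

/-- A segment of a walk. -/
theorem Walk.seg {L : ℕ} {x : ℕ → ℕ} (h : Walk V N π L x) (s l : ℕ) (hl : s + l ≤ L) :
    Walk V N π l fun i => x (s + i) :=
  ⟨fun i hi => h.lt _ (by omega), fun i hi => h.mt _ (by omega),
    fun i hi => h.nx (s + i) (by omega), fun i hi => h.nb (s + i) (by omega)⟩

theorem Walk.congr {ρ : ℕ → ℕ} {L : ℕ} {x : ℕ → ℕ} (h : Walk V N ρ L x)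
    (e : ∀ i < L, ρ (x i) = π (x i)) : Walk V N π L x :=
  ⟨h.lt, fun i hi => e i hi ▸ h.mt i hi, fun i hi => e i (by omega) ▸ h.nx i hi,
    fun i hi => e i (by omega) ▸ h.nb i hi⟩

/-- The end of a walk is near its start. -/
theorem Walk.near {L : ℕ} {x : ℕ → ℕ} (h : Walk V N π L x) {i : ℕ} (hi : i < L) :
    Near V N π (i + 1) (V (x 0)) (V (π (x i))) := by
  induction i with
  | zero => exact (Near.refl 0 _).step (h.lt 0 hi) (h.mt 0 hi)
  | succ i ih =>
    refine Near.step ?_ (h.lt _ hi) (h.mt _ hi)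
    rw [h.nx i hi]
    exact ih (by omega)

/-- Between the indices `s` and `t` of a `ρ`-walk on which `ρ` agrees with `π`. -/
theorem Walk.near_between {ρ : ℕ → ℕ} {L : ℕ} {x : ℕ → ℕ} (h : Walk V N ρ L x) {s t : ℕ}
    (hst : s ≤ t) (ht : t ≤ L) (e : ∀ i, s ≤ i → i < t → ρ (x i) = π (x i)) {u v : ℕ}
    (hu : s < t → u = V (x s)) (hv : s < t → v = V (ρ (x (t - 1)))) (huv : s = t → u = v) :
    Near V N π (t - s) u v := by
  rcases hst.eq_or_lt with rfl | hlt
  · rw [Nat.sub_self]; exact huv rfl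
  have h1 := ((h.seg s (t - s) (by omega)).congr (π := π) fun i hi =>
    e (s + i) (by omega) (by omega)).near (i := t - s - 1) (by omega)
  have e1 : t - s - 1 + 1 = t - s := by omega
  have e2 : s + (t - s - 1) = t - 1 := by omega
  simp only [e1, e2, Nat.add_zero] at h1
  rw [hu hlt, hv hlt, e (t - 1) (by omega) (by omega)]
  exact h1

/-- The extension lemma: `ρ` extends `π` by a map of a set `T` of half-edges which are pairwise
far apart.  A short closed walk of `ρ` meets `T` exactly once, at a fixed point of `ρ`. -/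
theorem Acyc.extend {g : ℕ} (hπ : Acyc V N g π) {ρ : ℕ → ℕ} {T : ℕ → Prop}
    (hT : ∀ a, T a → T (ρ a)) (hρ : ∀ a < N, ¬ T a → ρ a = π a)
    (far : ∀ a b, T a → T b → Near V N π (g - 1) (V a) (V b) → a = b) {L : ℕ} {x : ℕ → ℕ}
    (h1 : 1 ≤ L) (hL : L ≤ g) (h : Walk V N ρ L x) (hc : V (ρ (x (L - 1))) = V (x 0)) :
    ∃ i < L, T (x i) ∧ ρ (x i) = x i ∧ ∀ j < L, T (x j) → j = i := by
  classical
  have e0 : ∀ i < L, ¬ T (x i) → ρ (x i) = π (x i) := fun i hi hn => hρ _ (h.lt i hi) hn
  -- two consecutive indices in `T` are impossible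
  have two : ∀ i j, i < j → j < L → T (x i) → T (x j) → False := by
    intro i j hij hj hi hj'
    have hex : ∃ k, i < k ∧ k < L ∧ T (x k) := ⟨j, hij, hj, hj'⟩
    obtain ⟨k1, k2, k3⟩ := Nat.find_spec hex
    set k := Nat.find hex with hk
    have k4 : ∀ l, i + 1 ≤ l → l < k → ρ (x l) = π (x l) := fun l l1 l2 =>
      e0 l (by omega) fun hl => Nat.find_min hex l2 ⟨by omega, by omega, hl⟩
    have n1 : Near V N π (k - (i + 1)) (V (ρ (x i))) (V (x k)) :=
      h.near_between (by omega) k2.le k4 (fun _ => (h.nx i (by omega)).symm)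
        (fun _ => by
          have := h.nx (k - 1) (by omega)
          rwa [Nat.sub_add_cancel (by omega : 1 ≤ k)] at this)
        fun e => by rw [← e]; exact (h.nx i (by omega)).symm
    have e1 : ρ (x i) = x k := far _ _ (hT _ hi) k3 (n1.mono (by omega))
    rcases (by omega : i + 1 = k ∨ i + 1 < k) with e | hlt
    · exact h.nb i (by omega) (by rw [e, e1])
    · have w := (h.seg (i + 1) (k - (i + 1)) (by omega)).congr (π := π) fun l hl =>
        k4 (i + 1 + l) (by omega) (by omega)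
      refine hπ _ _ (by omega) (by omega) w ?_
      have e2 : i + 1 + (k - (i + 1) - 1) = k - 1 := by omega
      have e3 := h.nx (k - 1) (by omega)
      rw [Nat.sub_add_cancel (by omega : 1 ≤ k)] at e3
      simp only [e2, Nat.add_zero]
      rw [← k4 (k - 1) (by omega) (by omega), ← e3, h.nx i (by omega), e1]
  by_cases hex : ∃ i < L, T (x i)
  · obtain ⟨i, hi, hi'⟩ := hex
    have uniq : ∀ j < L, T (x j) → j = i := fun j hj hj' => by
      rcases lt_trichotomy j i with h' | h' | h'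
      · exact (two j i h' hi hj' hi').elim
      · exact h'
      · exact (two i j h' hj hi' hj').elim
    refine ⟨i, hi, hi', far _ _ (hT _ hi') hi' ?_, uniq⟩
    have k4 : ∀ l < L, l ≠ i → ρ (x l) = π (x l) := fun l l1 l2 =>
      e0 l l1 fun hl => l2 (uniq l l1 hl)
    have n1 : Near V N π (L - (i + 1)) (V (ρ (x i))) (V (x 0)) :=
      h.near_between (by omega) le_rfl (fun l l1 l2 => k4 l l2 (by omega))
        (fun _ => (h.nx i (by omega)).symm) (fun _ => hc.symm)
        fun e => by rw [← hc, ← e, Nat.add_sub_cancel]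
    have n2 : Near V N π (i - 0) (V (x 0)) (V (x i)) :=
      h.near_between (Nat.zero_le i) hi.le (fun l _ l2 => k4 l (by omega) (by omega))
        (fun _ => rfl)
        (fun _ => by
          have := h.nx (i - 1) (by omega)
          rwa [Nat.sub_add_cancel (by omega : 1 ≤ i)] at this)
        fun e => by rw [← e]
    exact (n1.trans n2).mono (by omega)
  · push Not at hex
    have w := h.congr (π := π) fun i hi => e0 i hi (hex i hi)
    refine absurd ?_ (hπ L x h1 hL w)
    rw [← e0 _ (by omega) (hex _ (by omega)), hc]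

theorem Acyc.upd {g : ℕ} (hi : Invol N π) (hπ : Acyc V N g π) {a b : ℕ}
    (hab : ¬ Near V N π (g - 1) (V a) (V b)) : Acyc V N g (upd π a b) := by
  intro L x h1 hL h hc
  have hne : a ≠ b := by rintro rfl; exact hab (Near.refl _ _)
  obtain ⟨i, -, h2, h3, -⟩ := hπ.extend (ρ := P049.upd π a b) (T := fun c => c = a ∨ c = b)
    (by rintro c (rfl | rfl)
        · exact Or.inr (upd_a ..)
        · exact Or.inl (upd_b ..))
    (fun c _ hc => upd_of_ne π (fun e => hc (Or.inl e)) fun e => hc (Or.inr e))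
    (by rintro c e (rfl | rfl) (rfl | rfl) hn
        · rfl
        · exact absurd hn hab
        · exact absurd (hn.symm hi) hab
        · rfl) h1 hL h hc
  rcases h2 with e | e <;> rw [e] at h3
  · rw [upd_a] at h3; exact hne h3.symm
  · rw [upd_b] at h3; exact hne h3

/-- There is no periodic walk without backtracking with period between `1` and `g`. -/
def NoCyc (V : ℕ → ℕ) (N g : ℕ) (ρ : ℕ → ℕ) : Prop :=
  ∀ L (x : ℕ → ℕ), 1 ≤ L → L ≤ g → (∀ i, x i < N) → (∀ i, V (x (i + 1)) = V (ρ (x i))) →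
    (∀ i, x (i + 1) ≠ ρ (x i)) → (∀ i, x (i + L) = x i) → False

theorem Acyc.noCyc {g : ℕ} (hπ : Acyc V N g π) {ρ : ℕ → ℕ} {T : ℕ → Prop}
    (hT : ∀ a, T a → T (ρ a)) (hρ : ∀ a < N, ¬ T a → ρ a = π a) (hlt : ∀ a < N, ρ a < N)
    (far : ∀ a b, T a → T b → Near V N π (g - 1) (V a) (V b) → a = b) : NoCyc V N g ρ := by
  intro L x h1 hL x1 x2 x3 x4
  have w : ∀ s l, Walk V N ρ l fun i => x (s + i) := fun s l =>
    ⟨fun i _ => x1 _, fun i _ => hlt _ (x1 _), fun i _ => x2 (s + i), fun i _ => x3 (s + i)⟩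
  have cl : ∀ s, V (ρ (x (s + (L - 1)))) = V (x (s + 0)) := fun s => by
    rw [← x2, show s + (L - 1) + 1 = s + L by omega, x4, Nat.add_zero]
  obtain ⟨i, -, i1, i2, -⟩ := hπ.extend hT hρ far h1 hL (w 0 L) (cl 0)
  simp only [Nat.zero_add] at i1 i2
  rcases h1.eq_or_lt with rfl | h2
  · exact x3 i (by rw [x4, i2])
  obtain ⟨j, -, -, -, j3⟩ := hπ.extend hT hρ far h1 hL (w (i + 1) L) (cl (i + 1))
  have e1 : L - 1 = j := j3 (L - 1) (by omega) (by
    rw [show i + 1 + (L - 1) = i + L by omega, x4]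
    exact i1)
  obtain ⟨k, k1, k2, -, -⟩ := hπ.extend hT hρ far (L := L - 1) (by omega) (by omega)
    (w (i + 1) (L - 1)) (by
      rw [← x2, show i + 1 + (L - 1 - 1) + 1 = i + L by omega, x4, Nat.add_zero, x2, i2])
  have := j3 k (by omega) k2
  omega

theorem NoCyc.noMulti {g : ℕ} {ρ : ℕ → ℕ} (h : NoCyc V N g ρ) (hg : 2 ≤ g)
    (hlt : ∀ a < N, ρ a < N) (hi : ∀ a < N, ρ (ρ a) = a) {a b : ℕ} (ha : a < N) (hb : b < N)
    (e1 : V a = V b) (e2 : V (ρ a) = V (ρ b)) : a = b := by
  by_contra hne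
  refine h 2 (fun i => if i % 2 = 0 then a else ρ b) (by norm_num) hg (fun i => ?_) (fun i => ?_)
    (fun i => ?_) fun i => by simp
  · split_ifs
    · exact ha
    · exact hlt b hb
  · rcases Nat.mod_two_eq_zero_or_one i with e | e
    · simp only [e, if_true, show (i + 1) % 2 ≠ 0 by omega, if_false, e2]
    · simp only [show i % 2 ≠ 0 by omega, if_true, show (i + 1) % 2 = 0 by omega, if_false,
        hi b hb, e1]
  · rcases Nat.mod_two_eq_zero_or_one i with e | e
    · simp only [e, if_true, show (i + 1) % 2 ≠ 0 by omega, if_false]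
      intro e3
      exact hne (by rw [← hi a ha, ← e3, hi b hb])
    · simp only [show i % 2 ≠ 0 by omega, if_true, show (i + 1) % 2 = 0 by omega, if_false,
        hi b hb]
      exact hne

theorem NoCyc.noLoop {g : ℕ} {ρ : ℕ → ℕ} (h : NoCyc V N g ρ) (hg : 1 ≤ g) {a : ℕ} (ha : a < N)
    (hne : ρ a ≠ a) : V (ρ a) ≠ V a := fun e =>
  h 1 (fun _ => a) le_rfl hg (fun _ => ha) (fun _ => e.symm) (fun _ => hne.symm) fun _ => rfl

/-! ### Balls as lists of half-edges -/

/-- One more step. -/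
def growL (V : ℕ → ℕ) (N : ℕ) (π : ℕ → ℕ) (B : List ℕ) : List ℕ :=
  (List.range N).filter fun e => decide (e ∈ B) ||
    (List.range N).any fun c => decide (π c < N ∧ c ∈ B ∧ V (π c) = V e)

/-- The half-edges at the vertices reached from `u` in at most `i` steps. -/
def ballL (V : ℕ → ℕ) (N : ℕ) (π : ℕ → ℕ) (i u : ℕ) : List ℕ :=
  (growL V N π)^[i] ((List.range N).filter fun e => decide (u = V e))

theorem mem_growL {B : List ℕ} {e : ℕ} : e ∈ growL V N π B ↔
    e < N ∧ (e ∈ B ∨ ∃ c < N, π c < N ∧ c ∈ B ∧ V (π c) = V e) := by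
  simp [growL]

theorem mem_ballL {i u e : ℕ} : e ∈ ballL V N π i u ↔ e < N ∧ Near V N π i u (V e) := by
  induction i generalizing e with
  | zero => simp [ballL, near_zero]
  | succ i ih =>
    unfold ballL at ih ⊢
    rw [Function.iterate_succ_apply', mem_growL, near_succ]
    simp only [ih]
    refine and_congr_right fun he => or_congr (by simp [he]) ?_
    exact ⟨fun ⟨c, h1, h2, h3, h4⟩ => ⟨c, h1, h2, h3.2, h4⟩,
      fun ⟨c, h1, h2, h3, h4⟩ => ⟨c, h1, h2, ⟨h1, h3⟩, h4⟩⟩

/-! ### The counting potential -/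

section Defs

variable {K : Type*} [Field K]

/-- The weight of a pair of vertices. -/
def omg (V : ℕ → ℕ) (N g : ℕ) (t : K) (π : ℕ → ℕ) (u v : ℕ) : K :=
  ∑ i ∈ range g, if Near V N π i u v then t ^ i else 0

/-- The total weight of the pairs of distinct free half-edges. -/
def cntG (V : ℕ → ℕ) (N g : ℕ) (t : K) (π : ℕ → ℕ) : K :=
  ∑ c ∈ range N, ∑ e ∈ range N,
    if N ≤ π c ∧ N ≤ π e ∧ c ≠ e then omg V N g t π (V c) (V e) else 0

end Defs

theorem cast_omg (V : ℕ → ℕ) (N g : ℕ) (t : ℚ) (π : ℕ → ℕ) (u v : ℕ) :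
    ((omg V N g t π u v : ℚ) : ℝ) = omg V N g (t : ℝ) π u v := by
  simp only [omg, Rat.cast_sum]
  refine sum_congr rfl fun i _ => ?_
  split_ifs <;> simp

theorem cast_cntG (V : ℕ → ℕ) (N g : ℕ) (t : ℚ) (π : ℕ → ℕ) :
    ((cntG V N g t π : ℚ) : ℝ) = cntG V N g (t : ℝ) π := by
  simp only [cntG, Rat.cast_sum]
  refine sum_congr rfl fun c _ => sum_congr rfl fun e _ => ?_
  split_ifs
  · exact cast_omg ..
  · simp

variable {g : ℕ} {t : ℝ}

theorem omg_nonneg (ht : 0 ≤ t) (u v : ℕ) : 0 ≤ omg V N g t π u v :=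
  sum_nonneg fun i _ => ind_nonneg ht _ i

theorem omg_symm (hπ : Invol N π) (u v : ℕ) : omg V N g t π u v = omg V N g t π v u := by
  simp only [omg, near_symm hπ _ u v]

theorem omg_far {u v : ℕ} (h : ¬ Near V N π (g - 1) u v) : omg V N g t π u v = 0 :=
  sum_eq_zero fun i hi => if_neg fun h1 => h (h1.mono (by have := mem_range.1 hi; omega))

theorem le_omg (ht : 0 ≤ t) (hg : 1 ≤ g) {u v : ℕ} (h : Near V N π (g - 1) u v) :
    t ^ (g - 1) ≤ omg V N g t π u v := by
  have := single_le_sum (s := range g) (f := fun i => if Near V N π i u v then t ^ i else 0)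
    (fun i _ => ind_nonneg ht _ i) (mem_range.2 (by omega : g - 1 < g))
  simp only [if_pos h] at this
  exact this

theorem omg_upd (ht : 0 ≤ t) (a b u v : ℕ) : omg V N g t (upd π a b) u v ≤ omg V N g t π u v +
    t * (omg V N g t π u (V a) * omg V N g t π (V b) v +
      omg V N g t π u (V b) * omg V N g t π (V a) v) := by
  set x1 : ℕ → ℝ := fun j => if Near V N π j u (V a) then t ^ j else 0 with hx1
  set z1 : ℕ → ℝ := fun j => if Near V N π j (V b) v then t ^ j else 0 with hz1
  set x2 : ℕ → ℝ := fun j => if Near V N π j u (V b) then t ^ j else 0 with hx2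
  set z2 : ℕ → ℝ := fun j => if Near V N π j (V a) v then t ^ j else 0 with hz2
  have n1 : ∀ j, 0 ≤ x1 j := fun j => ind_nonneg ht _ j
  have n2 : ∀ j, 0 ≤ z1 j := fun j => ind_nonneg ht _ j
  have n3 : ∀ j, 0 ≤ x2 j := fun j => ind_nonneg ht _ j
  have n4 : ∀ j, 0 ≤ z2 j := fun j => ind_nonneg ht _ j
  have c1 := cauchy_le g n1 n2
  have c2 := cauchy_le g n3 n4
  have key : ∀ i ∈ range g, (if Near V N (upd π a b) i u v then t ^ i else 0) ≤
      (if Near V N π i u v then t ^ i else 0) +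
      t * (∑ p ∈ (range g ×ˢ range g).filter (fun p => p.1 + p.2 + 1 = i), x1 p.1 * z1 p.2 +
        ∑ p ∈ (range g ×ˢ range g).filter (fun p => p.1 + p.2 + 1 = i), x2 p.1 * z2 p.2) := by
    intro i hi
    have hi' := mem_range.1 hi
    have s1 : 0 ≤ ∑ p ∈ (range g ×ˢ range g).filter (fun p => p.1 + p.2 + 1 = i),
        x1 p.1 * z1 p.2 := sum_nonneg fun p _ => mul_nonneg (n1 _) (n2 _)
    have s2 : 0 ≤ ∑ p ∈ (range g ×ˢ range g).filter (fun p => p.1 + p.2 + 1 = i),
        x2 p.1 * z2 p.2 := sum_nonneg fun p _ => mul_nonneg (n3 _) (n4 _)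
    have s3 := ind_nonneg ht (Near V N π i u v) i
    by_cases h : Near V N (upd π a b) i u v
    swap
    · rw [if_neg h]; positivity
    rw [if_pos h]
    rcases near_upd h with h | ⟨j, l, e, h⟩
    · rw [if_pos h]
      have : 0 ≤ t * (∑ p ∈ (range g ×ˢ range g).filter (fun p => p.1 + p.2 + 1 = i),
        x1 p.1 * z1 p.2 + ∑ p ∈ (range g ×ˢ range g).filter (fun p => p.1 + p.2 + 1 = i),
          x2 p.1 * z2 p.2) := by positivity
      linarith
    have hm : (j, l) ∈ (range g ×ˢ range g).filter (fun p => p.1 + p.2 + 1 = i) :=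
      mem_filter.2 ⟨mem_product.2 ⟨mem_range.2 (by omega), mem_range.2 (by omega)⟩, e⟩
    have e1 : t ^ i = t * (t ^ j * t ^ l) := by rw [← e]; ring
    rcases h with h | h
    · have := single_le_sum (f := fun p : ℕ × ℕ => x1 p.1 * z1 p.2)
        (fun p _ => mul_nonneg (n1 _) (n2 _)) hm
      have e2 : x1 j * z1 l = t ^ j * t ^ l := by simp only [hx1, hz1, if_pos h.1, if_pos h.2]
      have h5 := mul_le_mul_of_nonneg_left ((e2.symm.trans_le this).trans
        (le_add_of_nonneg_right s2)) ht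
      linarith
    · have := single_le_sum (f := fun p : ℕ × ℕ => x2 p.1 * z2 p.2)
        (fun p _ => mul_nonneg (n3 _) (n4 _)) hm
      have e2 : x2 j * z2 l = t ^ j * t ^ l := by simp only [hx2, hz2, if_pos h.1, if_pos h.2]
      have h5 := mul_le_mul_of_nonneg_left ((e2.symm.trans_le this).trans
        (le_add_of_nonneg_left s1)) ht
      linarith
  refine (sum_le_sum key).trans ?_
  rw [sum_add_distrib, ← mul_sum, sum_add_distrib]
  exact add_le_add le_rfl (mul_le_mul_of_nonneg_left (add_le_add c1 c2) ht)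

theorem cntG_eq (V : ℕ → ℕ) (N g : ℕ) (t : ℝ) (π : ℕ → ℕ) : cntG V N g t π =
    ∑ c ∈ alive N π, ∑ e ∈ alive N π, if c ≠ e then omg V N g t π (V c) (V e) else 0 := by
  unfold cntG alive
  rw [sum_filter]
  refine sum_congr rfl fun c _ => ?_
  by_cases hc : N ≤ π c
  · rw [if_pos hc, sum_filter]
    refine sum_congr rfl fun e _ => ?_
    by_cases he : N ≤ π e <;> simp [hc, he]
  · simp [hc]

/-- The total weight seen from one half-edge. -/
noncomputable def rowG (V : ℕ → ℕ) (N g : ℕ) (t : ℝ) (π : ℕ → ℕ) (a : ℕ) : ℝ :=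
  ∑ e ∈ alive N π, if a ≠ e then omg V N g t π (V a) (V e) else 0

theorem ent_nonneg (ht : 0 ≤ t) (a e : ℕ) :
    0 ≤ (if a ≠ e then omg V N g t π (V a) (V e) else 0) := by
  split_ifs
  · exact omg_nonneg ht _ _
  · exact le_rfl

theorem rowG_nonneg (ht : 0 ≤ t) (a : ℕ) : 0 ≤ rowG V N g t π a :=
  sum_nonneg fun e _ => ent_nonneg ht a e

theorem sum_rowG : ∑ a : alive N π, rowG V N g t π a = cntG V N g t π := by
  rw [cntG_eq]
  exact sum_coe_sort (alive N π) fun a => rowG V N g t π a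

theorem cntG_nonneg (ht : 0 ≤ t) : 0 ≤ cntG V N g t π := by
  rw [← sum_rowG]
  exact sum_nonneg fun a _ => rowG_nonneg ht a

theorem cntG_upd (ht : 0 ≤ t) (hπ : Invol N π) {a b : ℕ} (ha : a ∈ alive N π)
    (hb : b ∈ alive N π) (hab : ¬ Near V N π (g - 1) (V a) (V b)) :
    cntG V N g t (upd π a b) ≤ cntG V N g t π - 2 * rowG V N g t π a - 2 * rowG V N g t π b +
      2 * t * (rowG V N g t π a * rowG V N g t π b) := by
  have hne : a ≠ b := by rintro rfl; exact hab (Near.refl _ _)
  have h1 := sum_sum_rest ha hb hne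
    (g := fun c e => if c ≠ e then omg V N g t π (V c) (V e) else 0)
    fun c e => by simp only [ne_comm, omg_symm hπ (V c)]
  simp only [ne_eq, not_true_eq_false, if_false, add_zero, omg_far hab, ite_self, mul_zero] at h1
  have h2 : ∀ x y, ∑ c ∈ rest (alive N π) x y, omg V N g t π (V x) (V c) ≤
      rowG V N g t π x := fun x y => by
    refine le_trans (le_of_eq (sum_congr rfl fun c hc => ?_))
      (sum_le_sum_of_subset_of_nonneg (rest_subset _ x y) fun e _ _ => ent_nonneg ht x e)
    rw [if_pos (mem_rest.1 hc).2.1.symm]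
  have hr : rest (alive N π) b a = rest (alive N π) a b := by
    ext c; simp only [mem_rest]; tauto
  have ha' := h2 a b
  have hb' := h2 b a
  rw [hr] at hb'
  have h3 : ∀ c e, (if c ≠ e then omg V N g t (upd π a b) (V c) (V e) else 0) ≤
      (if c ≠ e then omg V N g t π (V c) (V e) else 0) +
      t * (omg V N g t π (V a) (V c) * omg V N g t π (V b) (V e)) +
      t * (omg V N g t π (V b) (V c) * omg V N g t π (V a) (V e)) := by
    intro c e
    have p1 := mul_nonneg ht (mul_nonneg (omg_nonneg (V := V) (N := N) (g := g) (π := π) ht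
      (V a) (V c)) (omg_nonneg (V := V) (N := N) (g := g) (π := π) ht (V b) (V e)))
    have p2 := mul_nonneg ht (mul_nonneg (omg_nonneg (V := V) (N := N) (g := g) (π := π) ht
      (V b) (V c)) (omg_nonneg (V := V) (N := N) (g := g) (π := π) ht (V a) (V e)))
    split_ifs
    · have := omg_upd (V := V) (N := N) (g := g) (π := π) ht a b (V c) (V e)
      rw [omg_symm hπ (V c) (V a), omg_symm hπ (V c) (V b)] at this
      linarith
    · linarith
  rw [cntG_eq, cntG_eq, alive_upd (mem_alive.1 ha).1 (mem_alive.1 hb).1]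
  refine (sum_le_sum fun c _ => sum_le_sum fun e _ => h3 c e).trans ?_
  simp only [sum_add_distrib, ← mul_sum, ← sum_mul]
  have n2 : 0 ≤ ∑ c ∈ rest (alive N π) a b, omg V N g t π (V b) (V c) :=
    sum_nonneg fun _ _ => omg_nonneg ht _ _
  have h4 := mul_le_mul_of_nonneg_left (mul_le_mul ha' hb' n2 (rowG_nonneg ht a)) ht
  simp only [ne_eq]
  rw [h1]
  unfold rowG at h4 ⊢
  simp only [ne_eq] at h4 ⊢
  nlinarith

/-- The drift of the counting potential. -/
theorem drift_cntG (ht : 0 ≤ t) (hπ : Invol N π) {w : alive N π → alive N π → ℝ}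
    {ε : ℝ} (hε : 0 ≤ ε) (hw : ∀ a b, 0 ≤ w a b) (hw2 : ∀ a b, w a b ≤ 2)
    (hs : ∀ a b, w a b = w b a) (hrow : ∀ a, ∑ b, |w a b - 1| ≤ ε * Fintype.card (alive N π))
    (hF : ∀ a b, w a b ≠ 0 → ¬ Near V N π (g - 1) (V a) (V b))
    (hk : 4 ≤ Fintype.card (alive N π)) {lam : ℝ} (hl : 0 < lam)
    (h1 : cntG V N g t π ≤ lam * (Fintype.card (alive N π) : ℝ) ^ 2) :
    ∑ a, ∑ b, w a b * (cntG V N g t (upd π a b) /
      (lam * ((Fintype.card (alive N π) : ℝ) - 2) ^ 2) -
      cntG V N g t π / (lam * (Fintype.card (alive N π) : ℝ) ^ 2)) ≤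
      32 * ε * Fintype.card (alive N π) + 16 * t * lam * (Fintype.card (alive N π) : ℝ) ^ 2 := by
  have hL := cntG_nonneg (V := V) (N := N) (g := g) (π := π) ht
  have hG : ∑ a : alive N π, ∑ b : alive N π, w a b *
      (2 * t * (rowG V N g t π a * rowG V N g t π b)) ≤
      4 * t * (lam * (Fintype.card (alive N π) : ℝ) ^ 2) ^ 2 := by
    have h3 : ∑ a : alive N π, ∑ b : alive N π, w a b *
        (2 * t * (rowG V N g t π a * rowG V N g t π b)) ≤
        ∑ a : alive N π, ∑ b : alive N π, 4 * t * (rowG V N g t π a * rowG V N g t π b) := by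
      refine sum_le_sum fun a _ => sum_le_sum fun b _ => ?_
      have := mul_nonneg ht (mul_nonneg (rowG_nonneg (V := V) (N := N) (g := g) (π := π) ht a)
        (rowG_nonneg (V := V) (N := N) (g := g) (π := π) ht b))
      nlinarith [hw2 a b]
    refine h3.trans ?_
    simp only [← mul_sum, ← sum_mul, sum_rowG]
    refine mul_le_mul_of_nonneg_left ?_ (by positivity)
    nlinarith
  have := markov_quad hε hw hs hrow hk (f := fun a => rowG V N g t π a)
    (fun a => rowG_nonneg ht _) (X := fun a b => cntG V N g t (upd π a b))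
    (g := fun a b => 2 * t * (rowG V N g t π a * rowG V N g t π b))
    (fun a b h => by rw [sum_rowG]; exact cntG_upd ht hπ a.2 b.2 (hF a b h)) (by positivity) hG hl
    (by rw [sum_rowG]; exact h1)
  rw [sum_rowG] at this
  refine this.trans (le_of_eq ?_)
  have hk0 : (Fintype.card (alive N π) : ℝ) ≠ 0 := by
    have : 0 < Fintype.card (alive N π) := by omega
    exact_mod_cast this.ne'
  field_simp
  ring

theorem cntG_le_ini (hd : Fib V N d) (ht : 0 ≤ t) (ht2 : t ≤ 1 / 2) :
    cntG V N g t (fun _ => N) ≤ N * (2 * d) := by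
  rw [cntG_eq, alive_const]
  refine (sum_le_card_nsmul _ _ (2 * d : ℝ) fun c _ => ?_).trans (by simp)
  refine le_trans (sum_le_sum (g := fun e => 2 * if V e = V c then (1 : ℝ) else 0)
    fun e _ => ?_) ?_
  · have h1 : omg V N g t (fun _ => N) (V c) (V e) ≤
        2 * if V e = V c then (1 : ℝ) else 0 := by
      simp only [omg, near_const]
      by_cases h : V e = V c
      · simp only [h, if_true, mul_one]
        exact (sum_le_sum fun i _ => pow_le_pow_left₀ ht ht2 i).trans (sum_geometric_two_le g)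
      · simp [h, Ne.symm h]
    split_ifs at h1 ⊢ <;> first | exact h1 | norm_num
  · rw [← mul_sum, sum_boole]
    exact mul_le_mul_of_nonneg_left (by exact_mod_cast hd _) (by norm_num)

theorem far_of_cntG_lt (ht : 0 ≤ t) (hg : 1 ≤ g) (h : cntG V N g t π < t ^ (g - 1)) {a b : ℕ}
    (ha : a ∈ alive N π) (hb : b ∈ alive N π) (hn : Near V N π (g - 1) (V a) (V b)) :
    a = b := by
  by_contra hab
  rw [cntG_eq] at h
  have h1 := single_le_sum (s := alive N π) (f := fun c => ∑ e ∈ alive N π,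
    if c ≠ e then omg V N g t π (V c) (V e) else 0)
    (fun c _ => sum_nonneg fun e _ => ent_nonneg ht c e) ha
  have h2 := single_le_sum (s := alive N π)
    (f := fun e => if a ≠ e then omg V N g t π (V a) (V e) else 0)
    (fun e _ => ent_nonneg ht a e) hb
  simp only [if_pos hab] at h2
  linarith [le_omg ht hg hn]

section PT

variable {α : Type*} [Enc α]

theorem esize_filter_le (N : ℕ) (f : ℕ → Bool) :
    esize ((List.range N).filter f) ≤ N * (2 * N + 1) := by
  have := esize_list_le (l := (List.range N).filter f) (B := N) fun x hx =>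
    (esize_nat_le_self _).trans (List.mem_range.1 (List.mem_filter.1 hx).1).le
  refine this.trans (Nat.mul_le_mul_right _ ?_)
  exact (List.length_filter_le _ _).trans (by simp)

theorem PT_ballL {N i u : α → ℕ} {v l : α → List ℕ} (hv : PT ∅ v) (hN : PT ∅ N) (hNb : PBd N)
    (hl : PT ∅ l) (hi : PT ∅ i) (hib : PBd i) (hu : PT ∅ u) :
    PT ∅ fun x => ballL (look 0 (v x)) (N x) (look (N x) (l x)) (i x) (u x) := by
  have h0 : PT ∅ fun x => (List.range (N x)).filter fun e => decide (u x = look 0 (v x) e) :=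
    PT.filter (f := fun x e => decide (u x = look 0 (v x) e)) (PT.range hN hNb) (by fun_prop)
  have hN' : PT ∅ fun p : α × List ℕ => N p.1 := hN.comp PT.fst'
  have hNb' : PBd fun p : α × List ℕ => N p.1 := hNb.comp (A := ∅) PT.fst'
  refine PT.iterate' (step := fun x B => growL (look 0 (v x)) (N x) (look (N x) (l x)) B) hi hib
    h0 ?_ (b := fun x => N x * (2 * N x + 1)) (by fun_prop) fun x j _ => ?_
  · unfold growL
    refine PT.filter (f := fun (p : α × List ℕ) e => decide (e ∈ p.2) ||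
      (List.range (N p.1)).any fun c => decide (look (N p.1) (l p.1) c < N p.1 ∧ c ∈ p.2 ∧
        look 0 (v p.1) (look (N p.1) (l p.1) c) = look 0 (v p.1) e)) (PT.range hN' hNb') ?_
    refine (PT.mem PT.fst'.snd PT.snd').or ?_
    refine PT.any (f := fun (q : (α × List ℕ) × ℕ) c => decide (look (N q.1.1) (l q.1.1) c <
      N q.1.1 ∧ c ∈ q.1.2 ∧ look 0 (v q.1.1) (look (N q.1.1) (l q.1.1) c) = look 0 (v q.1.1) q.2))
      ((PT.range hN' hNb').comp PT.fst') ?_
    fun_prop
  · cases j with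
    | zero => exact esize_filter_le ..
    | succ j =>
      rw [Function.iterate_succ_apply']
      exact esize_filter_le ..

theorem PT_near {N i c e : α → ℕ} {v l : α → List ℕ} (hv : PT ∅ v) (hN : PT ∅ N) (hNb : PBd N)
    (hl : PT ∅ l) (hi : PT ∅ i) (hib : PBd i) (hc : PT ∅ c) (he : PT ∅ e) :
    PT ∅ fun x => decide (e x < N x ∧ Near (look 0 (v x)) (N x) (look (N x) (l x)) (i x)
      (look 0 (v x) (c x)) (look 0 (v x) (e x))) := by
  have h1 := PT.mem (PT_ballL hv hN hNb hl hi hib (PT_look (PT.const 0) hv hc)) he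
  refine h1.congr fun x => ?_
  rw [Bool.eq_iff_iff, decide_eq_true_iff, decide_eq_true_iff]
  exact mem_ballL

theorem PT_cntG {N g : α → ℕ} {t : α → ℚ} {v l : α → List ℕ} (hv : PT ∅ v) (hN : PT ∅ N)
    (hNb : PBd N) (hg : PT ∅ g) (hgN : ∀ x, g x ≤ N x) (ht : PT ∅ t) (hl : PT ∅ l) :
    PT ∅ fun x => cntG (look 0 (v x)) (N x) (g x) (t x) (look (N x) (l x)) := by
  have key : PT ∅ fun x => ∑ c ∈ range (N x), ∑ e ∈ range (N x),
      if N x ≤ look (N x) (l x) c ∧ N x ≤ look (N x) (l x) e ∧ c ≠ e then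
        ∑ i ∈ range (g x), (if e < N x ∧ Near (look 0 (v x)) (N x) (look (N x) (l x)) (min i (N x))
          (look 0 (v x) c) (look 0 (v x) e) then t x ^ min i (N x) else 0) else 0 := by
    refine PT_ratSumRange hN hNb (PT_ratSumRange (hN.comp PT.fst') (hNb.comp (A := ∅) PT.fst') ?_)
    refine PT.ite (PT.decide_and (by fun_prop) (PT.decide_and (by fun_prop)
      (PT.decide_not (by fun_prop)))) ?_ (PT.const 0)
    have hN3 : PT ∅ fun q : ((α × ℕ) × ℕ) × ℕ => N q.1.1.1 := hN.comp PT.fst'.fst.fst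
    have hNb3 : PBd fun q : ((α × ℕ) × ℕ) × ℕ => N q.1.1.1 := hNb.comp (A := ∅) PT.fst'.fst.fst
    have hm : PT ∅ fun q : ((α × ℕ) × ℕ) × ℕ => min q.2 (N q.1.1.1) := PT.min PT.snd' hN3
    refine PT_ratSumRange (hg.comp PT.fst'.fst) ((hNb.mono hgN).comp (A := ∅) PT.fst'.fst) ?_
    exact PT.ite (PT_near (hv.comp PT.fst'.fst.fst) hN3 hNb3 (hl.comp PT.fst'.fst.fst) hm
      (PBd_min_right hNb3) PT.fst'.fst.snd PT.fst'.snd)
      (PT_ratPow (ht.comp PT.fst'.fst.fst) hm (PBd_min_right hNb3)) (PT.const 0)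
  refine key.congr fun x => ?_
  unfold cntG omg
  refine sum_congr rfl fun c _ => sum_congr rfl fun e he => ?_
  congr 1
  refine sum_congr rfl fun i hi => ?_
  have : min i (N x) = i := min_eq_left ((mem_range.1 hi).le.trans (hgN x))
  simp only [this, mem_range.1 he, true_and]

end PT

end Vale.Agent.N049D
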