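import Vale.Agent.N049D.Deg

/-!
# Ramanujan graphs with a prescribed induced subgraph
-/

namespace Vale.Agent.N049D

open Finset Vale.Agent.P049 Vale.Agent.Lib.PolyTime Vale.Agent.P315.H155 Matrix

section General

variable {ι V : Type} [Fintype ι] [DecidableEq ι] [Fintype V] [DecidableEq V]

theorem exists_coercive {M : Matrix ι ι ℝ} (hM : M.PosDef) (r : ℝ) :
    ∃ κ : ℕ, 1 ≤ κ ∧ ∀ x, r * (x ⬝ᵥ x) ≤ κ * (x ⬝ᵥ M *ᵥ x) := by
  let S := specData (psd_symm hM.posSemidef)
  have hl : ∀ i, 0 < S.l i := fun i => by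
    have h1 : S.Uᵀ *ᵥ (fun a => S.U a i) = Pi.single i 1 := by
      funext j
      have := congrFun (congrFun S.tmul j) i
      simpa [mul_apply, mulVec, dotProduct, one_apply, Pi.single_apply] using this
    have h2 := S.quad_fc (fun x => x) fun a => S.U a i
    rw [S.fc_id, h1, sum_eq_single_of_mem i (mem_univ _) fun j _ hj => by simp [hj]] at h2
    have h3 := hM.dotProduct_mulVec_pos (x := fun a => S.U a i) fun h0 => by
      have := S.sum_U_sq' i
      simp only [show ∀ a, S.U a i = 0 from congrFun h0] at this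
      simp at this
    rw [star_trivial, h2] at h3
    simpa using h3
  obtain ⟨κ, hκ⟩ := exists_nat_ge (1 + ∑ i, |r| / S.l i)
  have h0 : 0 ≤ ∑ i, |r| / S.l i := sum_nonneg fun i _ => div_nonneg (abs_nonneg r) (hl i).le
  refine ⟨κ, by exact_mod_cast (by linarith : (1 : ℝ) ≤ κ), fun x => ?_⟩
  have h := S.quad_fc_le (f := fun _ => r) (g := fun t => κ * t) (fun i => by
    have h1 := single_le_sum (f := fun i => |r| / S.l i)
      (fun i _ => div_nonneg (abs_nonneg r) (hl i).le) (mem_univ i)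
    have h2 : |r| / S.l i ≤ κ := by linarith
    rw [div_le_iff₀ (hl i)] at h2
    exact (le_abs_self r).trans h2) x
  rw [S.fc_const, S.fc_smul', S.fc_id] at h
  simpa only [smul_mulVec, one_mulVec, dotProduct_smul, smul_eq_mul] using h

omit [DecidableEq ι] in
theorem abs_quad_le (H : SimpleGraph ι) [DecidableRel H.Adj] (y : ι → ℝ) :
    |y ⬝ᵥ H.adjMatrix ℝ *ᵥ y| ≤ (fun i => |y i|) ⬝ᵥ H.adjMatrix ℝ *ᵥ fun i => |y i| := by
  rw [SimpleGraph.dotProduct_mulVec_adjMatrix, SimpleGraph.dotProduct_mulVec_adjMatrix]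
  refine (abs_sum_le_sum_abs _ _).trans (sum_le_sum fun i _ => (abs_sum_le_sum_abs _ _).trans
    (sum_le_sum fun j _ => ?_))
  split_ifs
  · exact (abs_mul _ _).le
  · simp

omit [DecidableEq ι] [DecidableEq V] in
theorem sum_map_adj (H : SimpleGraph ι) [DecidableRel H.Adj] (e : ι ↪ V)
    [DecidableRel (H.map e).Adj] (F : V → V → ℝ) :
    ∑ u, ∑ v, (if (H.map e).Adj u v then F u v else 0) =
      ∑ a, ∑ b, if H.Adj a b then F (e a) (e b) else 0 := by
  symm
  refine Fintype.sum_of_injective e e.injective _ _ (fun u hu => sum_eq_zero fun v _ =>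
    if_neg fun h => ?_) fun a => Fintype.sum_of_injective e e.injective _ _
      (fun v hv => if_neg fun h => ?_) fun b => ?_
  · obtain ⟨a, b, -, rfl, -⟩ := (SimpleGraph.map_adj e H u v).1 h
    exact hu ⟨a, rfl⟩
  · obtain ⟨a, b, -, -, rfl⟩ := (SimpleGraph.map_adj e H _ v).1 h
    exact hv ⟨b, rfl⟩
  · simp only [SimpleGraph.map_adj_apply]

omit [DecidableEq ι] [DecidableEq V] in
theorem quad_map (H : SimpleGraph ι) [DecidableRel H.Adj] (e : ι ↪ V)
    [DecidableRel (H.map e).Adj] (x : V → ℝ) : x ⬝ᵥ (H.map e).adjMatrix ℝ *ᵥ x =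
      (fun a => x (e a)) ⬝ᵥ H.adjMatrix ℝ *ᵥ fun a => x (e a) := by
  rw [SimpleGraph.dotProduct_mulVec_adjMatrix, SimpleGraph.dotProduct_mulVec_adjMatrix]
  exact sum_map_adj H e fun u v => x u * x v

omit [DecidableEq ι] [DecidableEq V] in
theorem sum_deg_map (H : SimpleGraph ι) [DecidableRel H.Adj] (e : ι ↪ V)
    [DecidableRel (H.map e).Adj] (f : V → ℝ) :
    ∑ u, ((H.map e).degree u : ℝ) * f u = ∑ a, (H.degree a : ℝ) * f (e a) := by
  simp only [N049.degree_eq_sum, sum_mul, ite_mul, one_mul, zero_mul]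
  exact sum_map_adj H e fun u _ => f u

omit [DecidableEq V] in
/-- The Ramanujan property of a regular graph from two quadratic inequalities. -/
theorem ram_of_quad {G : SimpleGraph V} [DecidableRel G.Adj] {d : ℕ} {θ : ℝ} (hθ : θ < d)
    (hr : G.IsRegularOfDegree d) {w : V → ℝ}
    (h1 : ∀ u, -(u ⬝ᵥ G.adjMatrix ℝ *ᵥ u) ≤ θ * (u ⬝ᵥ u))
    (h2 : ∀ u, w ⬝ᵥ u = 0 → u ⬝ᵥ G.adjMatrix ℝ *ᵥ u ≤ θ * (u ⬝ᵥ u)) (μ : ℝ) (x : V → ℝ)
    (hx : x ≠ 0) (hs : ∑ i, x i = 0) (he : G.adjMatrix ℝ *ᵥ x = μ • x) : |μ| ≤ θ := by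
  obtain ⟨i, hi⟩ := Function.ne_iff.1 hx
  have hx0 : 0 < x ⬝ᵥ x := by
    rw [dot_self]
    exact sum_pos' (fun j _ => sq_nonneg _) ⟨i, mem_univ _, by
      have : x i ≠ 0 := hi
      positivity⟩
  have h10 : 0 < (fun _ : V => (1 : ℝ)) ⬝ᵥ fun _ => 1 := by
    rw [dot_self]
    exact sum_pos (fun j _ => by norm_num) ⟨i, mem_univ _⟩
  have ho : G.adjMatrix ℝ *ᵥ (fun _ => (1 : ℝ)) = (d : ℝ) • fun _ => (1 : ℝ) := by
    funext v
    rw [N049.mulVec_eq_sum, ← N049.degree_eq_sum, hr v]
    simp
  rw [abs_le]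
  constructor
  · have := h1 x
    rw [he, dotProduct_smul, smul_eq_mul] at this
    by_contra hlt
    push Not at hlt
    nlinarith
  · rcases le_total μ d with h | h
    · exact two_eig h2 he ho hx0 h10 (by simpa [dotProduct] using hs) h
    · exact absurd (two_eig h2 ho he h10 hx0 (by simpa [dotProduct] using hs) h) (not_le.2 hθ)

end General

variable {h : ℕ}

/-- The adjacency of `H`, extended to all numbers. -/
def hB (H : SimpleGraph (Fin h)) [DecidableRel H.Adj] (i j : ℕ) : Bool :=
  if hi : i < h then if hj : j < h then decide (H.Adj ⟨i, hi⟩ ⟨j, hj⟩) else false else false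

/-- The numbers of new edges. -/
def degL (H : SimpleGraph (Fin h)) [DecidableRel H.Adj] (d n : ℕ) : List ℕ :=
  List.ofFn (fun i => d - H.degree i) ++ List.replicate (n - h) d

/-- The vertices of `H` are merged. -/
def mrg (h u : ℕ) : ℕ := if u < h then 0 else u

/-- The output word. -/
def outP (H : SimpleGraph (Fin h)) [DecidableRel H.Adj] (d κ n : ℕ) : List Bool :=
  (List.range n).flatMap fun i => (List.range n).map fun j =>
    adjV (look 0 (vlW (unaryList (degL H d n)))) (vlW (unaryList (degL H d n))).length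
      (rhoC ((vlW (unaryList (degL H d n))).map (mrg h)) (vlW (unaryList (degL H d n)))
        (h * d + d + κ) (d - 1) 1 h κ) i j || hB H i j

theorem polyTime_outP (H : SimpleGraph (Fin h)) [DecidableRel H.Adj] (d κ : ℕ) :
    PolyTime (fun n => List.replicate n true) (outP H d κ) := by
  have hw : PT ∅ fun u : Raw => (u.w : List Bool) := PT.listOfRaw PT.id
  have hn := hw.length
  have hnb := PBd_length hw
  have h0 : PT ∅ fun u : Raw => unaryList (degL H d u.w.length) :=
    (PT.append (PT.const (unaryList (List.ofFn fun i => d - H.degree i)))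
      (PT.flatten (PT.replicate (hn.sub (PT.const h)) (PBd_sub hnb)
        (PT.const (List.replicate d true ++ [false]))))).congr fun u => by
      simp only [unaryList, degL, List.flatMap_append, List.flatMap_replicate]
  have hv := PT_vlW h0
  have hw' : PT ∅ fun u : Raw => (vlW (unaryList (degL H d u.w.length))).map (mrg h) :=
    PT.map (f := fun _ => mrg h) hv (PT.ite (PT.lt PT.snd' (PT.const h)) (PT.const 0) PT.snd')
  have h1 := PT_rhoC hw' hv (PT.const (h * d + d + κ)) (PT.const (d - 1)) (PT.const 1)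
    (PT.const h) (PT.const κ)
  have h2 := PT_adjV (ρ := fun u : Raw => rhoC ((vlW (unaryList (degL H d u.w.length))).map (mrg h))
    (vlW (unaryList (degL H d u.w.length))) (h * d + d + κ) (d - 1) 1 h κ) hv hv.length
    (PBd_length hv) h1
  have h4 : PT ∅ fun p : (Raw × ℕ) × ℕ => hB H p.1.2 p.2 :=
    (PT.getD (PT.getD (PT.const ((List.range h).map fun i => (List.range h).map (hB H i)))
      PT.fst'.snd (PT.const [])) PT.snd' (PT.const false)).congr fun p => by
      rw [getD_map_range]
      split_ifs with hi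
      · rw [getD_map_range]
        split_ifs with hj
        · rfl
        · simp [hB, hj]
      · simp [hB, hi]
  have h3 := PT_table (f := fun (u : Raw) i j =>
    adjV (look 0 (vlW (unaryList (degL H d u.w.length))))
      (vlW (unaryList (degL H d u.w.length))).length
      (rhoC ((vlW (unaryList (degL H d u.w.length))).map (mrg h))
        (vlW (unaryList (degL H d u.w.length))) (h * d + d + κ) (d - 1) 1 h κ) i j || hB H i j)
    hn hnb (h2.or h4)
  have := polyTime_of (fun n => List.replicate n true) (f := fun w => outP H d κ w.length) h3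
  simpa only [List.length_replicate] using this

theorem look_map (l : List ℕ) (h : ℕ) : look 0 (l.map (mrg h)) = fun c => mrg h (look 0 l c) := by
  funext c
  have : mrg h 0 = 0 := by simp [mrg]
  unfold look
  conv_lhs => rw [← this, List.getD_map]

theorem degL_getD (H : SimpleGraph (Fin h)) [DecidableRel H.Adj] (d : ℕ) {n : ℕ} (u : ℕ) :
    (degL H d n).getD u 0 =
      if hu : u < h then d - H.degree ⟨u, hu⟩ else if u < n then d else 0 := by
  unfold degL
  split_ifs with h1 h2
  · rw [List.getD_append _ _ _ _ (by simpa using h1), List.getD_eq_getElem _ _ (by simpa using h1),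
      List.getElem_ofFn]
  · rw [List.getD_append_right _ _ _ _ (by simpa using h1), List.getD_eq_getElem _ _
      (by simp; omega), List.getElem_replicate]
  · exact List.getD_eq_default _ _ (by simp; omega)

theorem planted {d : ℕ} (hd : 3 ≤ d) (H : SimpleGraph (Fin h)) [DecidableRel H.Adj]
    (hdeg : ∀ v, H.degree v ≤ d) (hH : (betheHessian H √((d : ℝ) - 1)).PosDef) :
    ∃ out : ℕ → List Bool, PolyTime (fun n => List.replicate n true) out ∧
      ∃ n₀ C : ℕ, ∀ n : ℕ, n₀ ≤ n → Even (d * n) →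
        ∃ (G : SimpleGraph (Fin n)) (_ : DecidableRel G.Adj),
          out n = adjWord G ∧ G.IsRegularOfDegree d ∧
          (∀ (μ : ℝ) (x : Fin n → ℝ), x ≠ 0 → ∑ i, x i = 0 →
            (G.adjMatrix ℝ).mulVec x = μ • x → |μ| ≤ 2 * √((d : ℝ) - 1)) ∧
          ∃ f : H ↪g G, ∀ (u : Fin n) (c : G.Walk u u), c.IsCycle → C * c.length ≤ Nat.log 2 n →
            ∀ e ∈ c.edges, e ∈ (H.map f.toEmbedding).edgeSet := by
  classical
  obtain ⟨κ, hκ1, hκ⟩ := exists_coercive hH √((d : ℝ) - 1)
  obtain ⟨d', hd'⟩ : ∃ d', d' = h * d + d + κ := ⟨_, rfl⟩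
  refine ⟨_, polyTime_outP H d κ, 2 * h + d' ^ 10 ^ 8, 10 ^ 6 * (d' + 1), fun n hn he => ?_⟩
  have hhn : h ≤ n := by omega
  obtain ⟨-, h2, h3, h4⟩ := decode (degL H d n)
  have hlen : (degL H d n).length = n := by simp [degL]; omega
  have hsum : (degL H d n).sum + 2 * H.edgeFinset.card = d * n := by
    rw [← H.sum_degrees_eq_twice_card_edges, degL, List.sum_append, List.sum_ofFn,
      List.sum_replicate, smul_eq_mul, Nat.add_right_comm, ← sum_add_distrib,
      sum_congr rfl fun i _ => Nat.sub_add_cancel (hdeg i), sum_const, card_univ, Fintype.card_fin,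
      smul_eq_mul, ← Nat.add_mul, Nat.add_sub_cancel' hhn, Nat.mul_comm]
  have hsum2 : (n - h) * d ≤ (degL H d n).sum := by
    rw [degL, List.sum_append, List.sum_replicate, smul_eq_mul]
    omega
  have h5 := degL_getD H d (n := n)
  unfold outP
  rw [hlen] at h3
  rw [← h2] at hsum hsum2
  simp only [← h4, ← card_fib] at h5
  generalize vlW (unaryList (degL H d n)) = v at *
  have hn' : ∀ c < v.length, look 0 v c < n := fun c hc => h3 _ (look_mem hc)
  have hV : Fib (look 0 v) v.length d := fun u => by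
    rw [h5]
    split_ifs <;> omega
  have hh : ((range v.length).filter fun c => look 0 v c < h).card ≤ h * d := by
    refine (card_le_card (t := (range h).biUnion fun u =>
      (range v.length).filter fun c => look 0 v c = u) fun c hc => ?_).trans
      (card_biUnion_le.trans ((sum_le_card_nsmul _ _ d fun u _ => hV u).trans (by simp)))
    exact mem_biUnion.2 ⟨_, mem_range.2 (mem_filter.1 hc).2, mem_filter.2 ⟨(mem_filter.1 hc).1, rfl⟩⟩
  have hW : Fib (look 0 (v.map (mrg h))) v.length d' := fun u => by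
    rw [look_map]
    refine (card_le_card (t := ((range v.length).filter fun c => look 0 v c < h) ∪
      (range v.length).filter fun c => look 0 v c = u) fun c hc => ?_).trans
      ((card_union_le _ _).trans ((add_le_add hh (hV u)).trans (by omega)))
    obtain ⟨c1, c2⟩ := mem_filter.1 hc
    by_cases c3 : look 0 v c < h
    · exact mem_union_left _ (mem_filter.2 ⟨c1, c3⟩)
    · exact mem_union_right _ (mem_filter.2 ⟨c1, by simpa [mrg, c3] using c2⟩)
  have hnN : n ≤ v.length := by
    have : (n - h) * 3 ≤ (n - h) * d := Nat.mul_le_mul_left _ hd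
    omega
  have hd3 : (3 : ℝ) ≤ d := by exact_mod_cast hd
  obtain ⟨g, m, η, g1, g2, m0, η0, η1, -, m2, m1, hp⟩ := core (w := v.map (mrg h)) (d := d')
    (a := d - 1) (b := 1) (h := h) (κ := κ) (q := (d : ℝ) - 1) (by omega) (by omega) hW
    (fun u => (hV u).trans (by omega)) hn' (by rw [Nat.cast_sub (by omega)]; simp) one_pos
    (by linarith) (by
      have : (d : ℝ) ≤ d' := by exact_mod_cast (by omega : d ≤ d')
      linarith) (by
      refine (sum_le_card_nsmul _ _ ((d : ℝ) - 1) fun c _ => ?_).trans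
        (le_of_eq (by rw [card_range, nsmul_eq_mul, mul_comm]))
      exact sub_le_sub_right (by exact_mod_cast hV _) 1) hκ1 (by omega) (hh.trans (by omega))
  rw [← hd']
  generalize rhoC (v.map (mrg h)) v d' (d - 1) 1 h κ = ρ at hp
  rw [look_map] at hp
  have hev : Even v.length := by
    rw [← hsum, Nat.even_add] at he
    exact he.2 (even_two_mul _)
  have pg := hp.pg g1 hev hn' fun _ _ _ _ e => congrArg (mrg h) e
  have hNpos : 0 < v.length := by
    have := Nat.pow_pos (n := 10 ^ 8) (by omega : 0 < d')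
    omega
  let e : Fin h ↪ Fin n := Fin.castLEEmb hhn
  have hmap : ∀ i j, (H.map e).Adj i j → (i : ℕ) < h ∧ (j : ℕ) < h := fun i j hij => by
    obtain ⟨a, b, -, rfl, rfl⟩ := (SimpleGraph.map_adj e H i j).1 hij
    exact ⟨a.2, b.2⟩
  have hdis : ∀ i j, pg.graph.Adj i j → (i : ℕ) < h → ¬ (j : ℕ) < h := fun i j hij hi hj => by
    obtain ⟨a, ha, e1, e2⟩ := adjV_iff.1 hij
    refine hp.noCyc.noLoop (by omega) ha (hp.noFix hev a ha) ?_
    simp only [e1, e2, mrg, if_pos hi, if_pos hj]
  have hite : ∀ i j (t : ℝ), (if (pg.graph ⊔ H.map e).Adj i j then t else 0) =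
      (if pg.graph.Adj i j then t else 0) + if (H.map e).Adj i j then t else 0 := fun i j t => by
    by_cases c1 : pg.graph.Adj i j
    · rw [if_pos ((SimpleGraph.sup_adj ..).2 (Or.inl c1)), if_pos c1,
        if_neg fun c2 => hdis i j c1 (hmap i j c2).1 (hmap i j c2).2, add_zero]
    · simp only [SimpleGraph.sup_adj, c1, false_or, if_false, zero_add]
  have hdn : ∀ i : Fin n, ¬ (i : ℕ) < h → pg.graph.degree i = d := fun i hi => by
    rw [pg.degree, h5, dif_neg hi, if_pos i.2]
  have hdh : ∀ a : Fin h, (pg.graph.degree (e a) : ℝ) = d - H.degree a := fun a => by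
    rw [pg.degree, h5, dif_pos (show ((e a : Fin n) : ℕ) < h from a.2), Nat.cast_sub (hdeg _)]
    rfl
  have hreg : (pg.graph ⊔ H.map e).IsRegularOfDegree d := fun i => by
    have a1 := N049.degree_eq_sum (pg.graph ⊔ H.map e) i
    simp only [hite, sum_add_distrib, ← N049.degree_eq_sum] at a1
    have a2 := sum_deg_map H e (Pi.single i 1)
    rw [sum_eq_single_of_mem i (mem_univ _) fun j _ hj => by simp [hj], Pi.single_eq_same,
      mul_one] at a2
    by_cases hi : (i : ℕ) < h
    · have a3 : i = e ⟨i, hi⟩ := rfl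
      rw [sum_eq_single_of_mem ⟨i, hi⟩ (mem_univ _) fun j _ hj => by
        rw [Pi.single_eq_of_ne fun e' => hj (e.injective (e'.trans a3)), mul_zero], ← a3,
        Pi.single_eq_same, mul_one] at a2
      have a4 := hdh ⟨i, hi⟩
      rw [← a3] at a4
      rw [a2, a4, sub_add_cancel] at a1
      exact_mod_cast a1
    · rw [sum_eq_zero fun j _ => by
        rw [Pi.single_eq_of_ne fun e' => hi (by rw [← e']; exact j.2), mul_zero]] at a2
      rw [a2, hdn i hi, add_zero] at a1
      exact_mod_cast a1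
  have hm2 := par_m_sq (by linarith) η0 (by linarith) m1
  have hθ := par_spec (by linarith) m0 η0 (by linarith) m2 m1
  rw [sub_add_cancel] at hθ
  have hr2 : √((d : ℝ) - 1) ^ 2 = d - 1 := Real.sq_sqrt (by linarith)
  have hr0 : 0 < √((d : ℝ) - 1) := Real.sqrt_pos.2 (by linarith)
  have hlt := N049.two_sqrt_lt hd
  have hκ0 : (0 : ℝ) < κ := by exact_mod_cast hκ1
  simp only [bethe_quad] at hκ
  generalize √((d : ℝ) - 1) = r at *
  have hmr : m * r ≤ 1 := (abs_le_of_sq_le_sq' (by rw [mul_pow, hr2]; nlinarith) (by norm_num)).2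
  have hq : ∀ x : Fin n → ℝ, ∑ i : Fin n, (m * pg.graph.degree i + (1 - m ^ 2) /
      (if (i : ℕ) < h then (κ : ℝ) else m + 16 * η ^ 2)) * x i ^ 2 +
      |x ⬝ᵥ (H.map e).adjMatrix ℝ *ᵥ x| ≤ 2 * r * (x ⬝ᵥ x) := fun x => by
    have a1 := abs_quad_le H fun a => x (e a)
    have a2 := hκ fun a => |x (e a)|
    rw [quad_map, dot_self, mul_sum, ← le_sub_iff_add_le', ← sum_sub_distrib]
    rw [dot_self] at a2
    simp only [sq_abs] at a2
    refine le_trans ?_ (sum_le_sum_of_subset_of_nonneg (subset_univ (univ.map e))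
      fun i _ hi => ?_)
    · rw [sum_map]
      refine a1.trans (le_trans ?_ (sum_le_sum (f := fun a =>
        ((r ^ 2 - 1 + H.degree a) / r - 1 / κ) * x (e a) ^ 2) fun a _ => ?_))
      · have a3 : ∑ a, ((r ^ 2 - 1 + H.degree a) / r - 1 / κ) * x (e a) ^ 2 =
            (∑ a, (r ^ 2 - 1 + H.degree a) * x (e a) ^ 2) / r - (∑ a, x (e a) ^ 2) / κ := by
          rw [sum_div, sum_div, ← sum_sub_distrib]
          exact sum_congr rfl fun a _ => by ring
        rw [a3, le_sub_iff_add_le', ← le_sub_iff_add_le, div_le_iff₀ hκ0]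
        refine le_of_mul_le_mul_left (a2.trans (le_of_eq ?_)) hr0
        field_simp
      · rw [if_pos (show ((e a : Fin n) : ℕ) < h from a.2), hdh, ← sub_mul]
        refine mul_le_mul_of_nonneg_right ?_ (sq_nonneg _)
        have b1 : (H.degree a : ℝ) ≤ d := by exact_mod_cast hdeg a
        have b2 : m * (d - H.degree a) ≤ (d - H.degree a) / r := by
          rw [le_div_iff₀ hr0]
          nlinarith
        have b3 : (1 - m ^ 2) / κ ≤ 1 / κ := div_le_div_of_nonneg_right (by nlinarith) hκ0.le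
        have b4 : (r ^ 2 - 1 + H.degree a) / r = 2 * r - (d - H.degree a) / r := by
          field_simp
          linarith
        linarith
    · have hi' : ¬ (i : ℕ) < h := fun hi' => hi (mem_map.2 ⟨⟨i, hi'⟩, mem_univ _, rfl⟩)
      rw [if_neg hi', hdn i hi', ← sub_mul]
      exact mul_nonneg (by linarith) (sq_nonneg _)
  have hA : ∀ x : Fin n → ℝ, x ⬝ᵥ (pg.graph ⊔ H.map e).adjMatrix ℝ *ᵥ x =
      x ⬝ᵥ pg.graph.adjMatrix ℝ *ᵥ x + x ⬝ᵥ (H.map e).adjMatrix ℝ *ᵥ x := fun x => by
    simp only [SimpleGraph.dotProduct_mulVec_adjMatrix, hite, sum_add_distrib]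
  have hs := hp.spec pg hNpos (fun u => by split_ifs <;> positivity) m0 (by linarith)
  refine ⟨pg.graph ⊔ H.map e, inferInstance, ?_, hreg,
    ram_of_quad hlt hreg (w := fun i => pg.graph.degree i) (fun x => ?_) fun x hx => ?_,
    ⟨e, fun {a b} => ⟨fun hab => ?_, fun hab => Or.inr ((SimpleGraph.map_adj_apply).2 hab)⟩⟩,
    fun u c hc hL => short_cycle (W := mrg h) hp.noCyc hp.invol (fun i j hij => Or.symm hij)
      (fun i j hij => by simp only [mrg, if_pos (hmap i j hij).1, if_pos (hmap i j hij).2])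
      c hc ?_⟩
  · rw [table_eq]
    refine congrArg (fun f => (List.finRange _).flatMap f) (funext fun i =>
      congrArg (fun f => (List.finRange _).map f) (funext fun j => ?_))
    rw [Bool.eq_iff_iff, decide_eq_true_iff, Bool.or_eq_true]
    refine or_congr Iff.rfl ⟨fun hij => ?_, fun hij => ?_⟩
    · unfold hB at hij
      split_ifs at hij with hi hj
      exact (SimpleGraph.map_adj e H i j).2 ⟨_, _, of_decide_eq_true hij, rfl, rfl⟩
    · obtain ⟨a, b, hab, rfl, rfl⟩ := (SimpleGraph.map_adj e H i j).1 hij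
      unfold hB
      rw [dif_pos (show ((e a : Fin n) : ℕ) < h from a.2),
        dif_pos (show ((e b : Fin n) : ℕ) < h from b.2)]
      exact decide_eq_true hab
  · rw [hA]
    linarith [(hs x).1, hq x, neg_abs_le (x ⬝ᵥ (H.map e).adjMatrix ℝ *ᵥ x)]
  · rw [hA]
    linarith [(hs x).2 hx, hq x, le_abs_self (x ⬝ᵥ (H.map e).adjMatrix ℝ *ᵥ x)]
  · exact hab.elim (fun c1 => absurd b.2 (hdis _ _ c1 a.2)) (SimpleGraph.map_adj_apply).1
  · refine le_trans ?_ g2
    rw [Nat.le_div_iff_mul_le (by norm_num)]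
    have hn0 : n ≠ 0 := by
      have := Nat.pow_pos (n := 10 ^ 8) (by omega : 0 < d')
      omega
    refine Nat.le_log_of_pow_le (by omega) (le_trans ?_ hnN)
    refine le_trans ?_ ((Nat.pow_le_pow_right (by norm_num) hL).trans (Nat.pow_log_le_self 2 hn0))
    rw [show 10 ^ 6 * (d' + 1) * c.length = (d' + 1) * (c.length * 10 ^ 6) by ring, pow_mul 2]
    exact Nat.pow_le_pow_left Nat.lt_two_pow_self.le _

end Vale.Agent.N049D
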