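import Vale.Agent.N049D.Near

/-!
# The greedy algorithm for arbitrary initial kernels and an arbitrary vertex map
-/

namespace Vale.Agent.N049D

open Finset Vale.Agent.P049 Vale.Agent.Lib.PolyTime Vale.Agent.P315.H155
open Vale.Agent.N049 (Invol num_explicit complete2 complete2_dead complete2_alive PT_complete2)

/-- What has to be proved about the potential `Ψ` for `N` half-edges, with up to `D` forbidden
partners for each half-edge. -/
structure MatPot3 (N D : ℕ) (m y : ℝ) (k₀ : ℕ) (Ψ : ℕ → Stats ℝ → ℝ) : Prop where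
  nonneg : ∀ (ι : Type) [Fintype ι] [DecidableEq ι] (A B : Matrix ι ι ℝ), Ker 1 m univ A →
    Ker (-1) m univ B → k₀ ≤ Fintype.card ι + 1 → Fintype.card ι ≤ N →
    0 ≤ Ψ (Fintype.card ι) (mstats A B)
  step : ∀ (ι : Type) [Fintype ι] [DecidableEq ι] (A B : Matrix ι ι ℝ) (Fb : ι → ι → Prop)
    [DecidableRel Fb], Ker 1 m univ A → Ker (-1) m univ B → (∀ a, Fb a a) →
    (∀ a b, Fb a b → Fb b a) → (∀ a, (univ.filter (Fb a)).card ≤ D) →
    k₀ < Fintype.card ι → Fintype.card ι ≤ N → Ψ (Fintype.card ι) (mstats A B) ≤ 1 →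
    ∃ w : ι → ι → ℝ, (∀ a b, 0 ≤ w a b) ∧ (∀ a b, w a b ≤ 2) ∧ (∀ a b, w a b = w b a) ∧
      (∀ a b, w a b ≠ 0 → ¬ Fb a b ∧ 0 < den 1 A a b ∧ 0 < den (-1) B a b) ∧
      (∀ a, ∑ b, |w a b - 1| ≤ 1 / y * Fintype.card ι) ∧
      ∑ a, ∑ b, w a b * (Ψ (Fintype.card ι - 2) (mstats (stepM 1 A a b) (stepM (-1) B a b)) -
        Ψ (Fintype.card ι) (mstats A B)) ≤ Fintype.card ι / y
  final : ∀ (ι : Type) [Fintype ι] [DecidableEq ι] (A B : Matrix ι ι ℝ), Ker 1 m univ A →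
    Ker (-1) m univ B → k₀ ≤ Fintype.card ι + 1 → Fintype.card ι ≤ k₀ →
    Ψ (Fintype.card ι) (mstats A B) ≤ 1 →
    (∀ x : ι → ℝ, ∑ i, x i = 0 → qf univ A x ≤ ∑ i, x i ^ 2) ∧
      ∀ x : ι → ℝ, ∑ i, x i = 0 → qf univ B x ≤ ∑ i, x i ^ 2

theorem matPot3 {y N : ℕ} {m : ℝ} (hy1 : (10 : ℝ) ^ 30 ≤ y) (hN1 : y ^ 1000000 ≤ N)
    (hN2 : N ≤ y ^ 1000001) (hm0 : 0 < m) (hm2 : m ^ 2 ≤ 1 / 2) :
    MatPot3 N y m y (y ^ 334333) (Psi N (y : ℝ)) := by
  have hy3' : (1000 : ℝ) ≤ y := le_trans (by norm_num) hy1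
  have hy3 : 1000 ≤ y := by exact_mod_cast hy3'
  have hy0 : (0 : ℝ) < y := by linarith
  have hN1' : (y : ℝ) ^ 1000000 ≤ (N : ℕ) := by exact_mod_cast hN1
  have hN2' : (N : ℝ) ≤ (y : ℝ) ^ 1000001 := by exact_mod_cast hN2
  have hm1 : m ≤ 1 := by nlinarith
  have hkap : (1 : ℝ) ≤ (y : ℝ) ^ 668668 := one_le_pow₀ (by linarith)
  have hkap0 : (0 : ℝ) < (y : ℝ) ^ 668668 := by positivity
  have hk2 : 1000 ≤ y ^ 334333 := hy3.trans (Nat.le_self_pow (by norm_num) y)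
  refine ⟨fun ι _ _ A B hA hB hk _ => ?_, fun ι _ _ A B Fb _ hA hB F1 F2 F3 hk hkN hΨ => ?_,
    fun ι _ _ A B hA hB hk hk' hΨ => ?_⟩
  · rw [Psi_mstats]
    exact add_nonneg
      (mSide_nonneg hy0 (gro_pos hkap0 _ _) hm1 (by norm_num) (by norm_num) hA hB (by omega))
      (mSide_nonneg hy0 (gro_pos hkap0 _ _) hm1 (by norm_num) (by norm_num) hB hA (by omega))
  · obtain ⟨P, a, ha1, ha2, hN⟩ := num_explicit (dF := y) (k := Fintype.card ι)
      (G := gro ((y : ℝ) ^ 668668) N (Fintype.card ι)) hy1 (abs_of_pos hy0).le hN1' hN2'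
      (by exact_mod_cast hk.le) (by exact_mod_cast hkN) (le_gro hkap hkN) (gro_le hkap0 hkN)
    rw [Psi_mstats] at hΨ
    obtain ⟨w, w0, w2, ws, wr, wF, wd⟩ := core_step hN
      (gro_step (kap := (y : ℝ) ^ 668668) hkap0 (N := N) (k := Fintype.card ι) (by omega) hkN)
      hm0.le hm2 hA hB Fb F1 F2 (fun x => by rw [ha2]; exact_mod_cast F3 x) hΨ
    have hc : ((Fintype.card ι - 2 : ℕ) : ℝ) = (Fintype.card ι : ℝ) - 2 := by
      rw [Nat.cast_sub (by omega)]; norm_num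
    have hy4 : 14000 * (1 / (y : ℝ) ^ 4) ≤ 1 / y := by
      rw [mul_one_div, div_le_div_iff₀ (by positivity) hy0]
      have h3 : (14000 : ℝ) ≤ (y : ℝ) ^ 3 := le_trans (by norm_num)
        (pow_le_pow_left₀ (by norm_num) hy3' 3)
      nlinarith
    have hy5 : 0 < 1 / (y : ℝ) ^ 4 := by positivity
    have hk0 : (0 : ℝ) ≤ Fintype.card ι := Nat.cast_nonneg _
    refine ⟨w, w0, w2, ws, wF, fun x => (wr x).trans ?_, ?_⟩
    · rw [ha1]
      exact mul_le_mul_of_nonneg_right (by linarith) hk0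
    · simp only [Psi_mstats, hc]
      refine wd.trans ?_
      rw [ha1, div_eq_mul_one_div (Fintype.card ι : ℝ), mul_comm (Fintype.card ι : ℝ)]
      exact mul_le_mul_of_nonneg_right hy4 hk0
  · rw [Psi_mstats] at hΨ
    have n1 := mSide_nonneg hy0 (gro_pos hkap0 N (Fintype.card ι)) hm1 (by norm_num)
      (by norm_num) hA hB (by omega)
    have n2 := mSide_nonneg hy0 (gro_pos hkap0 N (Fintype.card ι)) hm1 (by norm_num)
      (by norm_num) hB hA (by omega)
    exact ⟨end_side (y := y) (by linarith) (gro_pos hkap0 _ _) hm1 (by norm_num) (by norm_num) hA hB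
        (by omega) (by exact_mod_cast hk') (by linarith),
      end_side (y := y) (by linarith) (gro_pos hkap0 _ _) hm1 (by norm_num) (by norm_num) hB hA
        (by omega) (by exact_mod_cast hk') (by linarith)⟩

/-- The full potential. -/
def fullPot {K : Type*} [Field K] (V : ℕ → ℕ) (d N g : ℕ) (y : K) (Ψ : ℕ → Stats K → K)
    (π : ℕ → ℕ) (A B : ℕ → ℕ → K) : K :=
  Ψ (alive N π).card (kstats N A B) +
    cntG V N g (1 / (3200 * (d : K))) π / (20 * d / N * ((alive N π).card : K) ^ 2) +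
    200 / y * ∑ j ∈ range (alive N π).card, 1 / ((j : K) + 1) + (alive N π).card / (10 * N)

/-- What has to be proved about the potential `Φ`. -/
structure GoodPot (V : ℕ → ℕ) (N g : ℕ) (m : ℝ) (A₀ B₀ : ℕ → ℕ → ℝ) (k : ℕ)
    (Φ : (ℕ → ℕ) → (ℕ → ℕ → ℝ) → (ℕ → ℕ → ℝ) → ℝ) : Prop where
  init : Φ (fun _ => N) (res (range N) A₀) (res (range N) B₀) ≤ 1
  step : ∀ π A B, Invol N π → Ker 1 m (alive N π) A →
    Ker (-1) m (alive N π) B → N + 2 ≤ (alive N π).card + 2 * k → Φ π A B ≤ 1 →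
    ∃ a ∈ alive N π, ∃ b ∈ alive N π,
      ¬ Near V N π (g - 1) (V a) (V b) ∧ 0 < den 1 A a b ∧
      0 < den (-1) B a b ∧ Φ (upd π a b) (res (rest (alive N π) a b) (nxt 1 A a b))
        (res (rest (alive N π) a b) (nxt (-1) B a b)) ≤ Φ π A B
  final : ∀ π A B, Ker 1 m (alive N π) A →
    Ker (-1) m (alive N π) B → (alive N π).card + 2 * k = N → Φ π A B ≤ 1 →
    (∀ x : ℕ → ℝ, ∑ i ∈ alive N π, x i = 0 →
      qf (alive N π) A x ≤ ∑ i ∈ alive N π, x i ^ 2) ∧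
    (∀ x : ℕ → ℝ, ∑ i ∈ alive N π, x i = 0 →
      qf (alive N π) B x ≤ ∑ i ∈ alive N π, x i ^ 2) ∧
    ∀ a ∈ alive N π, ∀ b ∈ alive N π,
      Near V N π (g - 1) (V a) (V b) → a = b

theorem goodPot {V : ℕ → ℕ} {d N g D k₀ : ℕ} {m y : ℝ} {Ψ : ℕ → Stats ℝ → ℝ} {A₀ B₀ : ℕ → ℕ → ℝ}
    (hd : 0 < d) (hV : Fib V N d) (hg : 1 ≤ g) (hD : (d + 1) ^ g ≤ D) (hk4 : 4 ≤ k₀) (hkN : k₀ ≤ N)
    (hy : 1000 * (1 + Real.log N) ≤ y) (hend : (3200 * (d : ℝ)) ^ g * k₀ ^ 2 < N)
    (h : MatPot3 N D m y k₀ Ψ)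
    (hini : Ψ N (mstats (subM (range N) A₀) (subM (range N) B₀)) ≤ 1 / 2) :
    GoodPot V N g m A₀ B₀ ((N - k₀ + 1) / 2) (fullPot V d N g y Ψ) := by
  have hN4 : 4 ≤ N := hk4.trans hkN
  have hN0 : (0 : ℝ) < N := by exact_mod_cast (by omega : 0 < N)
  have hd1 : (1 : ℝ) ≤ d := by exact_mod_cast hd
  have hlog : 0 ≤ Real.log N := Real.log_natCast_nonneg N
  have hy1 : 1000 ≤ y := by linarith
  have hy0 : 0 < y := by linarith
  have hlam : (0 : ℝ) < 20 * d / N := by positivity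
  have ht : (0 : ℝ) ≤ 1 / (3200 * d) := by positivity
  have parts : ∀ π A B, Ker 1 m (alive N π) A → Ker (-1) m (alive N π) B →
      k₀ ≤ (alive N π).card + 1 → fullPot V d N g y Ψ π A B ≤ 1 →
      Ψ (Fintype.card (alive N π)) (mstats (subM _ A) (subM (alive N π) B)) ≤ 1 ∧
      cntG V N g (1 / (3200 * (d : ℝ))) π ≤ 20 * d / N * ((alive N π).card : ℝ) ^ 2 := by
    intro π A B hA hB hk h1
    have hc : (0 : ℝ) < (alive N π).card := by exact_mod_cast (by omega : 0 < (alive N π).card)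
    have h0 := h.nonneg _ _ _ hA.subM hB.subM (by rwa [Fintype.card_coe])
      (by rw [Fintype.card_coe]; exact card_alive_le N π)
    unfold fullPot at h1
    rw [kstats_eq (alive_subset N π) hA.toSupp hB.toSupp] at h1
    rw [Fintype.card_coe] at h0 ⊢
    have n1 : 0 ≤ cntG V N g (1 / (3200 * (d : ℝ))) π /
        (20 * d / N * ((alive N π).card : ℝ) ^ 2) := div_nonneg (cntG_nonneg ht) (by positivity)
    have n2 : 0 ≤ ((alive N π).card : ℝ) / (10 * N) := by positivity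
    have n3 : 0 ≤ 200 / y * ∑ j ∈ range (alive N π).card, 1 / ((j : ℝ) + 1) :=
      mul_nonneg (by positivity) (harm_nonneg _)
    refine ⟨by linarith, ?_⟩
    rw [← div_le_one (by positivity)]
    linarith
  refine ⟨?_, ?_, ?_⟩
  · unfold fullPot
    rw [kstats_eq subset_rfl (supp_res subset_rfl _) (supp_res subset_rfl _), subM_res, subM_res,
      alive_const, card_range]
    have b1 := cntG_le_ini (g := g) hV ht
      (one_div_le_one_div_of_le (by norm_num) (by linarith))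
    have b3 : cntG V N g (1 / (3200 * (d : ℝ))) (fun _ => N) / (20 * d / N * (N : ℝ) ^ 2) ≤
        1 / 10 := by
      rw [div_le_iff₀ (by positivity)]
      exact b1.trans (le_of_eq (by field_simp; ring))
    have b4 : (N : ℝ) / (10 * N) = 1 / 10 := by field_simp
    have b5 : 200 / y * ∑ j ∈ range N, 1 / ((j : ℝ) + 1) ≤ 1 / 5 := by
      refine (mul_le_mul_of_nonneg_left (harm_le N) (by positivity)).trans ?_
      rw [div_mul_eq_mul_div, div_le_iff₀ hy0]
      linarith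
    linarith
  · intro π A B hπ hA hB hk h1
    have hkk : k₀ < (alive N π).card := by omega
    obtain ⟨p1, p2⟩ := parts π A B hA hB (by omega) h1
    have hFb : ∀ a : alive N π, (univ.filter fun b : alive N π =>
        Near V N π (g - 1) (V a) (V b)).card ≤ D := fun a => by
      refine le_trans ?_ ((card_near_le (π := π) hV (g - 1) (V a) (alive_subset N π)).trans
        (by rwa [Nat.sub_add_cancel hg]))
      refine card_le_card_of_injOn (fun b => (b : ℕ)) (fun b hb => ?_)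
        (fun b _ c _ hbc => Subtype.ext hbc)
      exact mem_coe.2 (mem_filter.2 ⟨b.2, (mem_filter.1 (mem_coe.1 hb)).2⟩)
    obtain ⟨w, w0, w2, ws, wF, wr, wd⟩ := h.step (alive N π) (subM _ A) (subM _ B)
      (fun a b => Near V N π (g - 1) (V a) (V b)) hA.subM hB.subM (fun a => Near.refl ..)
      (fun a b hab => hab.symm hπ) hFb (by rwa [Fintype.card_coe])
      (by rw [Fintype.card_coe]; exact card_alive_le N π) p1
    have hc4 : 4 ≤ Fintype.card (alive N π) := by rw [Fintype.card_coe]; omega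
    have d1 := drift_cntG ht hπ (by positivity : 0 ≤ 1 / y) w0 w2 ws wr
      (fun a b hab => (wF a b hab).1) hc4 hlam (by rw [Fintype.card_coe]; exact p2)
    have hZ := total_ge wr
    rw [Fintype.card_coe] at d1 hZ wd hc4
    set k := (alive N π).card with hkdef
    have hk4' : (4 : ℝ) ≤ k := by exact_mod_cast hc4
    have hy2 : 1 / y ≤ 1 / 2 := one_div_le_one_div_of_le (by norm_num) (by linarith)
    have hZ2 : (k : ℝ) ^ 2 / 2 ≤ ∑ a, ∑ b, w a b := by nlinarith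
    have key : ∑ a : alive N π, ∑ b : alive N π, w a b * (fullPot V d N g y Ψ (upd π a b)
        (res (rest (alive N π) a b) (nxt 1 A a b)) (res (rest (alive N π) a b) (nxt (-1) B a b)) -
        fullPot V d N g y Ψ π A B) ≤ 0 := by
      have e1 : ∀ a b : alive N π, w a b * (fullPot V d N g y Ψ (upd π a b)
          (res (rest (alive N π) a b) (nxt 1 A a b))
          (res (rest (alive N π) a b) (nxt (-1) B a b)) - fullPot V d N g y Ψ π A B) ≤
          w a b * (Ψ (k - 2) (mstats (stepM 1 (subM _ A) a b) (stepM (-1) (subM _ B) a b)) -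
            Ψ k (mstats (subM _ A) (subM (alive N π) B))) +
          w a b * (cntG V N g (1 / (3200 * (d : ℝ))) (upd π a b) /
            (20 * d / N * ((k : ℝ) - 2) ^ 2) -
            cntG V N g (1 / (3200 * (d : ℝ))) π / (20 * d / N * (k : ℝ) ^ 2)) -
          w a b * (200 / y / k + 1 / (5 * N)) := by
        intro a b
        by_cases h0 : w a b = 0
        · simp [h0]
        have hab : (a : ℕ) ≠ b := fun e => (wF a b h0).1 (by rw [e]; exact Near.refl ..)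
        have hcard : (alive N (upd π a b)).card = k - 2 := by
          rw [alive_upd (mem_alive.1 a.2).1 (mem_alive.1 b.2).1]
          have := card_rest a.2 b.2 hab
          omega
        have hcast : ((k - 2 : ℕ) : ℝ) = (k : ℝ) - 2 := by rw [Nat.cast_sub (by omega)]; norm_num
        have hh : ∑ j ∈ range (k - 2), 1 / ((j : ℝ) + 1) + 1 / (k : ℝ) ≤
            ∑ j ∈ range k, 1 / ((j : ℝ) + 1) := by
          obtain ⟨l, hl⟩ : ∃ l, k = l + 2 := ⟨k - 2, by omega⟩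
          rw [hl, sum_range_succ, sum_range_succ, Nat.add_sub_cancel]
          have : 0 ≤ 1 / ((l : ℝ) + 1) := by positivity
          have e : ((l + 1 : ℕ) : ℝ) + 1 = ((l + 2 : ℕ) : ℝ) := by push_cast; ring
          rw [e]
          linarith
        unfold fullPot
        rw [hcard, hcast, ← hkdef, kstats_eq (alive_subset N π) hA.toSupp hB.toSupp,
          kstats_eq (alive_subset N π) (supp_res (rest_subset _ _ _) _)
            (supp_res (rest_subset _ _ _) _), subM_next', subM_next', ← mul_add, ← mul_sub]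
        refine mul_le_mul_of_nonneg_left ?_ (w0 a b)
        have := mul_le_mul_of_nonneg_left hh (by positivity : 0 ≤ 200 / y)
        have e : 200 / y / k = 200 / y * (1 / k) := by ring
        have e' : ((k : ℝ) - 2) / (10 * N) = k / (10 * N) - 1 / (5 * N) := by field_simp; ring
        rw [e, e']
        linarith
      refine (sum_le_sum fun a _ => sum_le_sum fun b _ => e1 a b).trans ?_
      simp only [sum_add_distrib, sum_sub_distrib, ← sum_mul]
      have e2 : 16 * (1 / (3200 * (d : ℝ))) * (20 * d / N) * (k : ℝ) ^ 2 = k ^ 2 / (10 * N) := by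
        field_simp
        ring
      have e3 : 100 * (k / y) + k ^ 2 / (10 * N) ≤
          (∑ a, ∑ b, w a b) * (200 / y / k + 1 / (5 * N)) := by
        have e : 100 * (k / y) + k ^ 2 / (10 * N) =
            (k : ℝ) ^ 2 / 2 * (200 / y / k + 1 / (5 * N)) := by field_simp; ring
        rw [e]
        exact mul_le_mul_of_nonneg_right hZ2 (by positivity)
      have e4 : 32 * (1 / y) * k = 32 * (k / y) := by ring
      have e5 : 0 ≤ k / y := by positivity
      rw [e4, e2] at d1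
      linarith
    obtain ⟨a, b, hw, hab⟩ := exists_le_of_avg w0 (by nlinarith) key
    obtain ⟨f1, f2, f3⟩ := wF a b hw
    exact ⟨a, a.2, b, b.2, f1, f2, f3, by linarith⟩
  · intro π A B hA hB hk h1
    obtain ⟨p1, p3⟩ := parts π A B hA hB (by omega) h1
    obtain ⟨f1, f2⟩ := h.final _ _ _ hA.subM hB.subM (by rw [Fintype.card_coe]; omega)
      (by rw [Fintype.card_coe]; omega) p1
    refine ⟨qf_le_of_subM f1, qf_le_of_subM f2, fun a ha b hb hab =>
      far_of_cntG_lt ht hg (p3.trans_lt ?_) ha hb hab⟩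
    have hc : ((alive N π).card : ℝ) ≤ k₀ := by exact_mod_cast (by omega : (alive N π).card ≤ k₀)
    have hc2 : ((alive N π).card : ℝ) ^ 2 ≤ (k₀ : ℝ) ^ 2 := by gcongr
    refine (mul_le_mul_of_nonneg_left hc2 hlam.le).trans_lt ?_
    rw [div_mul_eq_mul_div, one_div_pow, div_lt_div_iff₀ hN0 (by positivity), one_mul]
    refine lt_of_le_of_lt ?_ hend
    obtain ⟨l, rfl⟩ : ∃ l, g = l + 1 := ⟨g - 1, by omega⟩
    rw [Nat.add_sub_cancel, pow_succ (3200 * (d : ℝ))]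
    have : 0 ≤ (3200 * (d : ℝ)) ^ l * (d * (k₀ : ℝ) ^ 2) := by positivity
    nlinarith

/-! ### The algorithm -/

/-- The test for a pair. -/
def ok2 (V : ℕ → ℕ) (N g : ℕ) (P : St → ℚ) (S : St) (a b : ℕ) : Prop :=
  N ≤ look N S.1 a ∧ N ≤ look N S.1 b ∧
    ¬ (b < N ∧ Near V N (look N S.1) (g - 1) (V a) (V b)) ∧
    0 < den 1 (mat S.2.1) a b ∧ 0 < den (-1) (mat S.2.2) a b ∧
    P (resSt N (nextSt N S a b)) ≤ P (resSt N S)

instance (V : ℕ → ℕ) (N g : ℕ) (P : St → ℚ) (S : St) (a b : ℕ) : Decidable (ok2 V N g P S a b) := by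
  unfold ok2; infer_instance

/-- One step of the algorithm. -/
def step2 (V : ℕ → ℕ) (N g : ℕ) (P : St → ℚ) (S : St) : St :=
  ((pairs N).find? fun p => decide (ok2 V N g P S p.1 p.2)).elim S fun p => nextSt N S p.1 p.2

theorem step2_cases (V : ℕ → ℕ) (N g : ℕ) (P : St → ℚ) (S : St) :
    (step2 V N g P S = S ∧ ∀ a < N, ∀ b < N, ¬ ok2 V N g P S a b) ∨
      ∃ a < N, ∃ b < N, ok2 V N g P S a b ∧ step2 V N g P S = nextSt N S a b := by
  unfold step2
  cases h : (pairs N).find? fun p => decide (ok2 V N g P S p.1 p.2) with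
  | none =>
    refine Or.inl ⟨rfl, fun a ha b hb => ?_⟩
    simpa using List.find?_eq_none.1 h (a, b) (mem_pairs.2 ⟨ha, hb⟩)
  | some p =>
    have h1 := mem_pairs.1 (List.mem_of_find?_eq_some h)
    exact Or.inr ⟨p.1, h1.1, p.2, h1.2, by simpa using List.find?_some h, rfl⟩

theorem wf_next2 {N : ℕ} {A₀ B₀ : ℕ → ℕ → ℚ} {S : St} (h : Wf N A₀ B₀ S) {V : ℕ → ℕ} {g : ℕ}
    {P : St → ℚ} {a b : ℕ} (ha : a < N) (hb : b < N) (hok : ok2 V N g P S a b) :
    Wf N A₀ B₀ (nextSt N S a b) := by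
  obtain ⟨h1, h2, h3, h4, h5, -⟩ := hok
  refine h.next (d := 1) (P := fun _ => 0) (δ := 0) ha hb ⟨h1, h2, ?_, h4, h5, by simp⟩
  rintro (e | ⟨c, -, e1, e2, -⟩)
  · simp only [Nat.div_one] at e
    exact h3 ⟨hb, by rw [e]; exact Near.refl ..⟩
  · simp only [Nat.div_one] at e2
    rw [e2] at e1
    omega

theorem wf_iterate2 {N : ℕ} {A₀ B₀ : ℕ → ℕ → ℚ} {S : St} (h : Wf N A₀ B₀ S) (V : ℕ → ℕ) (g : ℕ)
    (P : St → ℚ) (j : ℕ) : Wf N A₀ B₀ ((step2 V N g P)^[j] S) := by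
  induction j with
  | zero => exact h
  | succ j ih =>
    rw [Function.iterate_succ_apply']
    rcases step2_cases V N g P ((step2 V N g P)^[j] S) with ⟨e, -⟩ | ⟨a, ha, b, hb, hok, e⟩
    · rw [e]; exact ih
    · rw [e]; exact wf_next2 ih ha hb hok

/-- The spectral invariant of one side. -/
def Sp (N : ℕ) (s m : ℝ) (F₀ : ℕ → ℕ → ℝ) (π : ℕ → ℕ) (F : ℕ → ℕ → ℝ) : Prop :=
  ∀ y c, Inv s m (range N) F₀ y c → Inv s m (alive N π) F y
    (c - ∑ a ∈ range N \ alive N π, (s * y a * y (π a) - m * y a ^ 2))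

theorem sp_ini (N : ℕ) (s m : ℝ) (F₀ : ℕ → ℕ → ℝ) :
    Sp N s m F₀ (fun _ => N) (res (range N) F₀) := by
  intro y c hy
  rw [alive_const]
  simpa using hy.res

theorem Sp.step {N : ℕ} {s m : ℝ} (hs : s ^ 2 = 1) (hm : m ^ 2 < 1) {π : ℕ → ℕ}
    {F₀ F : ℕ → ℕ → ℝ} (hK : Ker s m (alive N π) F) (h : Sp N s m F₀ π F) {a b : ℕ}
    (ha : a ∈ alive N π) (hb : b ∈ alive N π) (hab : a ≠ b) (hD : 0 < den s F a b) :
    Sp N s m F₀ (upd π a b) (res (rest (alive N π) a b) (nxt s F a b)) := by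
  intro y c hy
  obtain ⟨ha1, -⟩ := mem_alive.1 ha
  obtain ⟨hb1, -⟩ := mem_alive.1 hb
  rw [alive_upd ha1 hb1]
  refine ((Inv.step hs hm hK.symm hK.row hK.psd ha hb hab hD (h y c hy)).mono_const
    (le_of_eq ?_)).res
  have hmem : ∀ z, z ∈ range N \ rest (alive N π) a b ↔
      z < N ∧ (z ∉ alive N π ∨ z = a ∨ z = b) := fun z => by
    rw [mem_sdiff, mem_range, mem_rest]; tauto
  have e : rest (range N \ rest (alive N π) a b) a b = range N \ alive N π := by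
    ext z
    rw [mem_rest, hmem, mem_sdiff, mem_range]
    constructor
    · tauto
    · rintro ⟨h1, h2⟩
      refine ⟨⟨h1, Or.inl h2⟩, ?_, ?_⟩ <;> rintro rfl <;> contradiction
  rw [sum_rest ((hmem a).2 ⟨ha1, Or.inr (Or.inl rfl)⟩) ((hmem b).2 ⟨hb1, Or.inr (Or.inr rfl)⟩) hab,
    e, upd_a, upd_b]
  have e2 : ∑ z ∈ range N \ alive N π, (s * y z * y (upd π a b z) - m * y z ^ 2) =
      ∑ z ∈ range N \ alive N π, (s * y z * y (π z) - m * y z ^ 2) := by
    refine sum_congr rfl fun z hz => ?_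
    have hz' := (mem_sdiff.1 hz).2
    rw [upd_of_ne π (by rintro rfl; contradiction) (by rintro rfl; contradiction)]
  rw [e2]
  ring

theorem Sp.final {N : ℕ} {s m : ℝ} (hs : s ^ 2 = 1) (hm : m ^ 2 < 1) {π ρ : ℕ → ℕ}
    {F₀ F : ℕ → ℕ → ℝ} (hK : Ker s m (alive N π) F) (h : Sp N s m F₀ π F)
    (hle : ∀ x : ℕ → ℝ, ∑ i ∈ alive N π, x i = 0 →
      qf (alive N π) F x ≤ ∑ i ∈ alive N π, x i ^ 2)
    (h1 : ∀ a < N, a ∉ alive N π → ρ a = π a)
    (h2 : ∀ f : ℕ → ℝ, ∑ i ∈ alive N π, f (ρ i) = ∑ i ∈ alive N π, f i)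
    (y : ℕ → ℝ) (c : ℝ) (hy : Inv s m (range N) F₀ y c) :
    s * ∑ a ∈ range N, y a * y (ρ a) ≤ m * ∑ a ∈ range N, y a ^ 2 + c := by
  have h3 := Inv.final hs hm hK.symm hK.row hle (h y c hy) h2
  have e1 : ∑ z ∈ range N \ alive N π, (s * y z * y (π z) - m * y z ^ 2) =
      ∑ z ∈ range N \ alive N π, (s * y z * y (ρ z) - m * y z ^ 2) := by
    refine sum_congr rfl fun z hz => ?_
    rw [h1 z (mem_range.1 (mem_sdiff.1 hz).1) (mem_sdiff.1 hz).2]
  have e2 := sum_sdiff (f := fun z => s * y z * y (ρ z) - m * y z ^ 2) (alive_subset N π)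
  rw [e1] at h3
  have e3 : ∑ z ∈ range N, (s * y z * y (ρ z) - m * y z ^ 2) =
      s * ∑ a ∈ range N, y a * y (ρ a) - m * ∑ a ∈ range N, y a ^ 2 := by
    rw [sum_sub_distrib, ← mul_sum, mul_sum _ _ s]
    congr 1
    exact sum_congr rfl fun z _ => mul_assoc _ _ _
  rw [e3] at e2
  linarith

/-- The invariant of the run. -/
structure Good (V : ℕ → ℕ) (N g : ℕ) (m : ℝ) (A₀ B₀ : ℕ → ℕ → ℚ)
    (Φ : (ℕ → ℕ) → (ℕ → ℕ → ℝ) → (ℕ → ℕ → ℝ) → ℝ) (j : ℕ) (S : St) : Prop where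
  wf : Wf N A₀ B₀ S
  inv : Invol N (look N S.1)
  acyc : Acyc V N g (look N S.1)
  kA : Ker 1 m (alive N (look N S.1)) (kerA N S)
  kB : Ker (-1) m (alive N (look N S.1)) (kerB N S)
  sA : Sp N 1 m (cst A₀) (look N S.1) (kerA N S)
  sB : Sp N (-1) m (cst B₀) (look N S.1) (kerB N S)
  card : (alive N (look N S.1)).card + 2 * j = N
  pot : Φ (look N S.1) (kerA N S) (kerB N S) ≤ 1

theorem Good.step {V : ℕ → ℕ} {N g k : ℕ} {m : ℝ} {A₀ B₀ : ℕ → ℕ → ℚ}
    {Φ : (ℕ → ℕ) → (ℕ → ℕ → ℝ) → (ℕ → ℕ → ℝ) → ℝ}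
    (hm : m ^ 2 < 1) (hΦ : GoodPot V N g m (cst A₀) (cst B₀) k Φ) {P : St → ℚ}
    (hP : ∀ S : St, (P S : ℝ) = Φ (look N S.1) (cst (mat S.2.1)) (cst (mat S.2.2)))
    {j : ℕ} (hj : j < k) {S : St} (h : Good V N g m A₀ B₀ Φ j S) :
    Good V N g m A₀ B₀ Φ (j + 1) (step2 V N g P S) := by
  have hP' : ∀ S : St, (P (resSt N S) : ℝ) =
      Φ (look N S.1) (kerA N S) (kerB N S) := fun S => by
    rw [hP, cst_resSt_A, cst_resSt_B]; rfl
  have hdA : ∀ a ∈ alive N (look N S.1), ∀ b ∈ alive N (look N S.1),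
      (0 < den 1 (mat S.2.1) a b ↔ 0 < den 1 (kerA N S) a b) := fun a ha b hb => by
    rw [kerA, den_res _ _ ha hb, ← Rat.cast_pos (K := ℝ), cst_den, Rat.cast_one]
  have hdB : ∀ a ∈ alive N (look N S.1), ∀ b ∈ alive N (look N S.1),
      (0 < den (-1) (mat S.2.2) a b ↔ 0 < den (-1) (kerB N S) a b) := fun a ha b hb => by
    rw [kerB, den_res _ _ ha hb, ← Rat.cast_pos (K := ℝ), cst_den, Rat.cast_neg, Rat.cast_one]
  rcases step2_cases V N g P S with ⟨-, hno⟩ | ⟨a, ha1, b, hb1, hok, e⟩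
  · exfalso
    have hcard := h.card
    obtain ⟨a, ha, b, hb, f1, f2, f3, f4⟩ := hΦ.step _ _ _ h.inv h.kA h.kB (by omega) h.pot
    refine hno a (mem_alive.1 ha).1 b (mem_alive.1 hb).1 ⟨(mem_alive.1 ha).2, (mem_alive.1 hb).2,
      fun f => f1 f.2, (hdA a ha b hb).2 f2, (hdB a ha b hb).2 f3, ?_⟩
    rw [← Rat.cast_le (K := ℝ), hP', hP', h.wf.kerA_next ha hb, h.wf.kerB_next ha hb,
      h.wf.look_next (mem_alive.1 ha).1 (mem_alive.1 hb).1]
    exact f4
  · rw [e]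
    have hwf := wf_next2 h.wf ha1 hb1 hok
    obtain ⟨h1, h2, h3, h4, h5, h6⟩ := hok
    have ha : a ∈ alive N (look N S.1) := mem_alive.2 ⟨ha1, h1⟩
    have hb : b ∈ alive N (look N S.1) := mem_alive.2 ⟨hb1, h2⟩
    have h3' : ¬ Near V N (look N S.1) (g - 1) (V a) (V b) := fun f => h3 ⟨hb1, f⟩
    have hab : a ≠ b := fun e => h3' (by rw [e]; exact Near.refl ..)
    rw [hdA a ha b hb] at h4
    rw [hdB a ha b hb] at h5
    rw [← Rat.cast_le (K := ℝ), hP', hP'] at h6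
    refine ⟨hwf, ?_, ?_, ?_, ?_, ?_, ?_, ?_, h6.trans h.pot⟩
    · rw [h.wf.look_next ha1 hb1]; exact h.inv.upd ha hb
    · rw [h.wf.look_next ha1 hb1]; exact Acyc.upd h.inv h.acyc h3'
    · rw [h.wf.kerA_next ha hb, h.wf.look_next ha1 hb1, alive_upd ha1 hb1]
      exact h.kA.step (by norm_num) hm ha hb hab h4
    · rw [h.wf.kerB_next ha hb, h.wf.look_next ha1 hb1, alive_upd ha1 hb1]
      exact h.kB.step (by norm_num) hm ha hb hab h5
    · rw [h.wf.kerA_next ha hb, h.wf.look_next ha1 hb1]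
      exact h.sA.step (by norm_num) hm h.kA ha hb hab h4
    · rw [h.wf.kerB_next ha hb, h.wf.look_next ha1 hb1]
      exact h.sB.step (by norm_num) hm h.kB ha hb hab h5
    · rw [h.wf.look_next ha1 hb1, alive_upd ha1 hb1]
      have := card_rest ha hb hab
      have := h.card
      omega

/-! ### The final matching -/

/-- The initial state. -/
def iniS (N : ℕ) (A₀ B₀ : ℕ → ℕ → ℚ) : St :=
  ((List.range N).map fun _ => N, tab N A₀, tab N B₀)

theorem wf_iniS (N : ℕ) {A₀ B₀ : ℕ → ℕ → ℚ} (hA : ∀ a b, A₀ a b = A₀ b a)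
    (hB : ∀ a b, B₀ a b = B₀ b a) : Wf N A₀ B₀ (iniS N A₀ B₀) where
  len := by simp only [iniS, look_ini]
  le a := by simp only [iniS, look_ini, le_refl]
  tabA := (tab_mat_tab ..).symm
  tabB := (tab_mat_tab ..).symm
  symA := by simp only [iniS, mat_tab]; exact res_symm _ hA
  symB := by simp only [iniS, mat_tab]; exact res_symm _ hB
  exA := by
    simp only [iniS, mat_tab, look_ini]
    exact (exact_const _ _ _).congr fun c hc e he => res_of_mem _ (mem_range.2 hc) (mem_range.2 he)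
  exB := by
    simp only [iniS, mat_tab, look_ini]
    exact (exact_const _ _ _).congr fun c hc e he => res_of_mem _ (mem_range.2 hc) (mem_range.2 he)

theorem kerA_iniS (N : ℕ) (A₀ B₀ : ℕ → ℕ → ℚ) :
    kerA N (iniS N A₀ B₀) = res (range N) (cst A₀) := by
  simp only [kerA, iniS, look_ini, alive_const, mat_tab, cst_res]
  exact res_res subset_rfl _

theorem kerB_iniS (N : ℕ) (A₀ B₀ : ℕ → ℕ → ℚ) :
    kerB N (iniS N A₀ B₀) = res (range N) (cst B₀) := by
  simp only [kerB, iniS, look_ini, alive_const, mat_tab, cst_res]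
  exact res_res subset_rfl _

/-- `ρ` is an involution of the half-edges without short cycles, without fixed points if their
number is even, which satisfies the quadratic inequalities encoded in the initial kernels. -/
structure Pairing (V : ℕ → ℕ) (N g : ℕ) (m : ℝ) (A₀ B₀ : ℕ → ℕ → ℝ) (ρ : ℕ → ℕ) : Prop where
  lt : ∀ a < N, ρ a < N
  invol : ∀ a < N, ρ (ρ a) = a
  noCyc : NoCyc V N g ρ
  noFix : Even N → ∀ a < N, ρ a ≠ a
  specA : ∀ y c, Inv 1 m (range N) A₀ y c →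
    1 * ∑ a ∈ range N, y a * y (ρ a) ≤ m * ∑ a ∈ range N, y a ^ 2 + c
  specB : ∀ y c, Inv (-1) m (range N) B₀ y c →
    -1 * ∑ a ∈ range N, y a * y (ρ a) ≤ m * ∑ a ∈ range N, y a ^ 2 + c

theorem run {V : ℕ → ℕ} {N g k : ℕ} {m : ℝ} {A₀ B₀ : ℕ → ℕ → ℚ}
    {Φ : (ℕ → ℕ) → (ℕ → ℕ → ℝ) → (ℕ → ℕ → ℝ) → ℝ} (hm : m ^ 2 < 1) (hg : 1 ≤ g)
    (sA : ∀ a b, A₀ a b = A₀ b a) (sB : ∀ a b, B₀ a b = B₀ b a)
    (hA : Ker 1 m (range N) (res (range N) (cst A₀)))
    (hB : Ker (-1) m (range N) (res (range N) (cst B₀)))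
    (hΦ : GoodPot V N g m (cst A₀) (cst B₀) k Φ) {P : St → ℚ}
    (hP : ∀ S : St, (P S : ℝ) = Φ (look N S.1) (cst (mat S.2.1)) (cst (mat S.2.2))) :
    Pairing V N g m (cst A₀) (cst B₀)
      (complete2 N ((step2 V N g P)^[k] (iniS N A₀ B₀)).1) := by
  have e0 : look N (iniS N A₀ B₀).1 = fun _ => N := look_ini _
  have key : ∀ j ≤ k, Good V N g m A₀ B₀ Φ j ((step2 V N g P)^[j] (iniS N A₀ B₀)) := by
    intro j hj
    induction j with
    | zero =>
      refine ⟨wf_iniS N sA sB, ?_, ?_, ?_, ?_, ?_, ?_, ?_, ?_⟩ <;>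
        simp only [Function.iterate_zero, id, e0, kerA_iniS, kerB_iniS, alive_const]
      · exact fun _ _ h => absurd h (lt_irrefl _)
      · exact acyc_const _ _ _
      · exact hA
      · exact hB
      · exact sp_ini _ _ _ _
      · exact sp_ini _ _ _ _
      · simp
      · exact hΦ.init
    | succ j ih =>
      rw [Function.iterate_succ_apply']
      exact (ih (by omega)).step hm hΦ hP (by omega)
  have h := key k le_rfl
  generalize (step2 V N g P)^[k] (iniS N A₀ B₀) = S at h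
  obtain ⟨f1, f2, f3⟩ := hΦ.final _ _ _ h.kA h.kB h.card h.pot
  have hcard := h.card
  have hinv := h.inv
  set π := look N S.1 with hπ
  set ρ := complete2 N S.1 with hρ
  have h1 : ∀ a < N, a ∉ alive N π → ρ a = π a := fun a ha h' => complete2_dead ha h'
  have h2 : ∀ a ∈ alive N π, ρ a ∈ alive N π ∧ ρ (ρ a) = a ∧
      ((alive N π).card % 2 = 0 → ρ a ≠ a) := fun a ha => complete2_alive ha
  have hdead : ∀ a < N, a ∉ alive N π → π a < N := fun a ha h => by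
    rw [mem_alive] at h; omega
  have hdead2 : ∀ a < N, a ∉ alive N π → π a ∉ alive N π := fun a ha h' => by
    rw [mem_alive, hinv a ha (hdead a ha h')]; omega
  have hsum : ∀ f : ℕ → ℝ, ∑ i ∈ alive N π, f (ρ i) = ∑ i ∈ alive N π, f i :=
    fun f => sum_nbij' ρ ρ (fun a ha => (h2 a ha).1) (fun a ha => (h2 a ha).1)
      (fun a ha => (h2 a ha).2.1) (fun a ha => (h2 a ha).2.1) fun _ _ => rfl
  have hlt : ∀ a < N, ρ a < N := fun a ha => by
    by_cases h' : a ∈ alive N π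
    · exact (mem_alive.1 (h2 a h').1).1
    · rw [h1 a ha h']; exact hdead a ha h'
  refine ⟨hlt, fun a ha => ?_, h.acyc.noCyc (T := fun a => a ∈ alive N π)
    (fun a ha => (h2 a ha).1) h1 hlt fun a b ha hb => f3 a ha b hb, fun he a ha => ?_,
    Sp.final (by norm_num) hm h.kA h.sA f1 h1 hsum, Sp.final (by norm_num) hm h.kB h.sB f2 h1 hsum⟩
  · by_cases h' : a ∈ alive N π
    · exact (h2 a h').2.1
    · rw [h1 a ha h', h1 _ (hdead a ha h') (hdead2 a ha h'), hinv a ha (hdead a ha h')]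
  · by_cases h' : a ∈ alive N π
    · have hev : N % 2 = 0 := Nat.even_iff.1 he
      exact (h2 a h').2.2 (by omega)
    · rw [h1 a ha h']
      intro e
      refine h.acyc 1 (fun _ => a) le_rfl hg ⟨fun _ _ => ha, fun _ _ => hdead a ha h',
        fun _ hi => by omega, fun _ hi => by omega⟩ ?_
      rw [← hπ, e]

/-! ### Polynomial time -/

section PT

variable {α : Type*} [Enc α]

theorem PT_step2 {N g : α → ℕ} {v : α → List ℕ} {P : α → St → ℚ} {S : α → St} (hv : PT ∅ v)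
    (hN : PT ∅ N) (hNb : PBd N) (hg : PT ∅ g) (hgb : PBd g) (hP : PT ∅ fun p : α × St => P p.1 p.2)
    (hS : PT ∅ S) : PT ∅ fun x => step2 (look 0 (v x)) (N x) (g x) (P x) (S x) := by
  have hN' : PT ∅ fun p : α × ℕ × ℕ => N p.1 := hN.comp PT.fst'
  have hNb' : PBd fun p : α × ℕ × ℕ => N p.1 := hNb.comp (A := ∅) PT.fst'
  have hS' : PT ∅ fun p : α × ℕ × ℕ => S p.1 := hS.comp PT.fst'
  have hn : PT ∅ fun p : α × ℕ × ℕ => nextSt (N p.1) (S p.1) p.2.1 p.2.2 :=
    PT_nextSt hN' hNb' hS' PT.snd'.fst PT.snd'.snd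
  have h1 : PT ∅ fun p : α × ℕ × ℕ => P p.1 (resSt (N p.1) (nextSt (N p.1) (S p.1) p.2.1 p.2.2)) :=
    hP.comp (PT.pair PT.fst' (PT_resSt hN' hNb' hn))
  have h2 : PT ∅ fun p : α × ℕ × ℕ => P p.1 (resSt (N p.1) (S p.1)) :=
    hP.comp (PT.pair PT.fst' (PT_resSt hN' hNb' hS'))
  have h3 := PT_near (i := fun p : α × ℕ × ℕ => g p.1 - 1) (hv.comp PT.fst') hN' hNb' hS'.fst
    ((hg.comp PT.fst').sub (PT.const 1)) (PBd_sub (hgb.comp (A := ∅) PT.fst'))
    PT.snd'.fst PT.snd'.snd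
  have hok : PT ∅ fun p : α × ℕ × ℕ =>
      decide (ok2 (look 0 (v p.1)) (N p.1) (g p.1) (P p.1) (S p.1) p.2.1 p.2.2) := by
    unfold ok2
    exact PT.decide_and (by fun_prop) (PT.decide_and (by fun_prop) (PT.decide_and
      (PT.decide_not h3) (PT.decide_and (by fun_prop) (PT.decide_and (by fun_prop)
        (PT_ratLe h1 h2)))))
  have hp : PT ∅ fun x => pairs (N x) :=
    PT.flatMap (f := fun x a => (List.range (N x)).map fun b => (a, b)) (PT.range hN hNb)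
      (PT.map (f := fun (p : α × ℕ) b => (p.2, b)) ((PT.range hN hNb).comp PT.fst')
        (PT.pair PT.fst'.snd PT.snd'))
  exact PT_optElim (PT.find? (f := fun x (p : ℕ × ℕ) =>
    decide (ok2 (look 0 (v x)) (N x) (g x) (P x) (S x) p.1 p.2)) hp hok) hS hn

theorem PT_run {N g k : α → ℕ} {v : α → List ℕ} {A B : α → ℕ → ℕ → ℚ} {P : α → St → ℚ}
    (hv : PT ∅ v) (hN : PT ∅ N) (hNb : PBd N) (hg : PT ∅ g) (hgb : PBd g) (hk : PT ∅ k)
    (hkb : PBd k) (hA : PT ∅ fun p : (α × ℕ) × ℕ => A p.1.1 p.1.2 p.2)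
    (hB : PT ∅ fun p : (α × ℕ) × ℕ => B p.1.1 p.1.2 p.2) (sA : ∀ x a b, A x a b = A x b a)
    (sB : ∀ x a b, B x a b = B x b a) (hP : PT ∅ fun p : α × St => P p.1 p.2) :
    PT ∅ fun x => (step2 (look 0 (v x)) (N x) (g x) (P x))^[k x] (iniS (N x) (A x) (B x)) := by
  have hi : PT ∅ fun x => iniS (N x) (A x) (B x) :=
    PT.pair (PT.map (f := fun x _ => N x) (PT.range hN hNb) (hN.comp PT.fst'))
      (PT.pair (PT_tab hN hNb hA) (PT_tab hN hNb hB))
  have hL : PBd fun x => esize (iniS (N x) (A x) (B x)) := hi.pbd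
  refine PT.iterate' (step := fun x S => step2 (look 0 (v x)) (N x) (g x) (P x) S) hk hkb hi
    (PT_step2 (P := fun (p : α × St) S => P p.1 S) (hv.comp PT.fst') (hN.comp PT.fst')
      (hNb.comp (A := ∅) PT.fst') (hg.comp PT.fst') (hgb.comp (A := ∅) PT.fst')
      (hP.comp (PT.pair PT.fst'.fst PT.snd')) PT.snd')
    (b := fun x => sizeBd (N x) (esize (iniS (N x) (A x) (B x)))) ?_ fun x j _ => ?_
  · unfold sizeBd
    fun_prop
  · refine (wf_iterate2 (wf_iniS (N x) (sA x) (sB x)) _ (g x) (P x) j).esize_le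
      (fun a ha b hb => ?_) fun a ha b hb => ?_
    · exact (esize_le_tab _ ha hb).trans ((esize_fst_le (iniS (N x) (A x) (B x)).2).trans
        (esize_snd_le _))
    · exact (esize_le_tab _ ha hb).trans ((esize_snd_le (iniS (N x) (A x) (B x)).2).trans
        (esize_snd_le _))

theorem PT_fullPot {d N g y : α → ℕ} {v : α → List ℕ} {S : α → St} (hv : PT ∅ v) (hd : PT ∅ d)
    (hN : PT ∅ N) (hNb : PBd N) (hg : PT ∅ g) (hgN : ∀ x, g x ≤ N x) (hy : PT ∅ y) (hS : PT ∅ S) :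
    PT ∅ fun x => fullPot (look 0 (v x)) (d x) (N x) (g x) (y x : ℚ) (Psi (N x) (y x : ℚ))
      (look (N x) (S x).1) (mat (S x).2.1) (mat (S x).2.2) := by
  have h1 := PT_cardAlive hN hNb hS.fst
  have h1b : PBd fun x => (alive (N x) (look (N x) (S x).1)).card :=
    hNb.mono fun x => card_alive_le _ _
  have h2 := PT_Psi hN hNb (PT_natCast hy) h1
    (ptStats_kstats hN hNb (PK_mat hS.snd.fst) (PK_mat hS.snd.snd))
  have h3 := PT_cntG (t := fun x => 1 / (3200 * (d x : ℚ))) hv hN hNb hg hgN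
    (PT_ratDiv (PT.const 1) (PT_ratMul (PT.const 3200) (PT_natCast hd))) hS.fst
  have h5 : PT ∅ fun x => ∑ j ∈ range (alive (N x) (look (N x) (S x).1)).card,
      1 / ((j : ℚ) + 1) :=
    PT_ratSumRange (f := fun _ j => 1 / ((j : ℚ) + 1)) h1 h1b (by fun_prop)
  unfold fullPot
  exact PT_ratAdd (PT_ratAdd (PT_ratAdd h2 (PT_ratDiv h3 (PT_ratMul (PT_ratDiv (PT_ratMul
    (PT.const _) (PT_natCast hd)) (PT_natCast hN)) (PT_ratPowConst (PT_natCast h1) 2))))
    (PT_ratMul (PT_ratDiv (PT.const _) (PT_natCast hy)) h5))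
    (PT_ratDiv (PT_natCast h1) (PT_ratMul (PT.const _) (PT_natCast hN)))

end PT

theorem cast_fullPot (V : ℕ → ℕ) (d N g y : ℕ) (π : ℕ → ℕ) (A B : ℕ → ℕ → ℚ) :
    ((fullPot V d N g (y : ℚ) (Psi N (y : ℚ)) π A B : ℚ) : ℝ) =
      fullPot V d N g (y : ℝ) (Psi N (y : ℝ)) π (cst A) (cst B) := by
  unfold fullPot
  push_cast [cast_Psi, cast_kstats, cast_cntG]
  rfl

end Vale.Agent.N049D
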