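import Vale.Agent.N049D.Plant
import Mathlib.Combinatorics.SimpleGraph.CycleGraph

/-!
# Sharpness of the condition on the Bethe Hessian, and Ramanujan graphs of prescribed girth
-/

namespace Vale.Agent.N049D

open Finset Vale.Agent.P049 Matrix

section Lift

variable {V : Type} [Fintype V] [DecidableEq V] (G K : SimpleGraph V) [DecidableRel G.Adj]
  [DecidableRel K.Adj] (x : V → ℝ)

/-- The squared mass carried by the walks without backtracking which leave `K` and use the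
oriented edge `u v` at step `k + 1`. -/
noncomputable def mass : ℕ → V → V → ℝ
  | 0, u, v => if G.Adj u v ∧ ¬ K.Adj u v then x u ^ 2 else 0
  | k + 1, u, v => if G.Adj u v then ∑ t, if t ≠ v then mass k t u else 0 else 0

variable {G K x}

theorem mass_nonneg (k : ℕ) (u v : V) : 0 ≤ mass G K x k u v := by
  induction k generalizing u v with
  | zero => unfold mass; split_ifs <;> positivity
  | succ k ih =>
    unfold mass
    split_ifs
    · exact sum_nonneg fun t _ => by split_ifs; exacts [ih _ _, le_rfl]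
    · exact le_rfl

theorem mass_of_not_adj {k : ℕ} {u v : V} (h : ¬ G.Adj u v) : mass G K x k u v = 0 := by
  cases k <;> simp [mass, h]

theorem mass_total {d : ℕ} (hr : G.IsRegularOfDegree d) (hK : K ≤ G) (k : ℕ) :
    ∑ u, ∑ v, mass G K x k u v = ((d : ℝ) - 1) ^ k * ∑ u, ((d : ℝ) - K.degree u) * x u ^ 2 := by
  induction k with
  | zero =>
    rw [pow_zero, one_mul]
    refine sum_congr rfl fun u _ => ?_
    rw [← hr u, N049.degree_eq_sum, N049.degree_eq_sum, ← sum_sub_distrib, sum_mul]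
    refine sum_congr rfl fun v _ => ?_
    by_cases h : K.Adj u v
    · simp [mass, h, hK h]
    · by_cases h' : G.Adj u v <;> simp [mass, h, h']
  | succ k ih =>
    rw [pow_succ', mul_assoc, ← ih, sum_comm (f := fun u v => mass G K x k u v), mul_sum]
    refine sum_congr rfl fun u _ => ?_
    have : ∀ v, mass G K x (k + 1) u v =
        ∑ t, ((if G.Adj u v then 1 else 0) - if v = t then 1 else 0) * mass G K x k t u := by
      intro v
      by_cases h : G.Adj u v
      · simp only [mass, h, if_true]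
        refine sum_congr rfl fun t _ => ?_
        by_cases e : v = t
        · simp [e]
        · simp [e, Ne.symm e]
      · simp only [mass, h, if_false]
        refine (sum_eq_zero fun t _ => ?_).symm
        by_cases e : v = t
        · rw [mass_of_not_adj (e ▸ fun h' => h h'.symm), mul_zero]
        · simp [e]
    rw [sum_congr rfl fun v _ => this v, sum_comm, mul_sum]
    refine sum_congr rfl fun t _ => ?_
    rw [← sum_mul, sum_sub_distrib, ← N049.degree_eq_sum, hr u]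
    simp

theorem mass_supp {d : ℕ} (hr : G.IsRegularOfDegree d) {S : Finset V} (hS : ∀ v ∉ S, x v = 0)
    (L : ℕ) : ∃ B : Finset V, B.card ≤ S.card * (d + 1) ^ L ∧ S ⊆ B ∧
      ∀ k < L, ∀ t, ∀ v ∉ B, mass G K x k t v = 0 := by
  induction L with
  | zero => exact ⟨S, by simp, subset_rfl, fun k hk => absurd hk (Nat.not_lt_zero k)⟩
  | succ L ih =>
    obtain ⟨B, h1, h2, h3⟩ := ih
    refine ⟨B ∪ B.biUnion fun w => G.neighborFinset w, (card_union_le _ _).trans ?_,
      h2.trans subset_union_left, fun k hk t v hv => ?_⟩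
    · have : (B.biUnion fun w => G.neighborFinset w).card ≤ B.card * d :=
        card_biUnion_le.trans ((sum_le_card_nsmul _ _ d fun w _ => (hr w).le).trans (by simp))
      rw [pow_succ, ← mul_assoc]
      nlinarith
    · by_cases ha : G.Adj t v
      swap
      · exact mass_of_not_adj ha
      have ht : t ∉ B := fun ht => hv (mem_union_right _
        (mem_biUnion.2 ⟨t, ht, (G.mem_neighborFinset t v).2 ha⟩))
      cases k with
      | zero => simp [mass, hS t fun h => ht (h2 h)]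
      | succ k => simp [mass, h3 k (by omega) _ t ht]

theorem cs_add {p p' a a' b b' : ℝ} (h : p ^ 2 ≤ a * b) (h' : p' ^ 2 ≤ a' * b') (ha : 0 ≤ a)
    (ha' : 0 ≤ a') (hb : 0 ≤ b) (hb' : 0 ≤ b') : (p + p') ^ 2 ≤ (a + a') * (b + b') := by
  have := sum_sq_le_sum_mul_sum_of_sq_le_mul (univ : Finset Bool) (r := fun t => cond t p p')
    (f := fun t => cond t a a') (g := fun t => cond t b b') (fun t _ => by cases t <;> assumption)
    (fun t _ => by cases t <;> assumption) fun t _ => by cases t <;> assumption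
  simpa using this

/-- The squared test vector. -/
noncomputable def sqv (G K : SimpleGraph V) [DecidableRel G.Adj] [DecidableRel K.Adj] (x : V → ℝ)
    (α : ℕ → ℝ) (L : ℕ) (v : V) : ℝ :=
  x v ^ 2 + ∑ k ∈ range L, α (k + 1) ^ 2 * ∑ t, mass G K x k t v

theorem le_sqv {α : ℕ → ℝ} (h0 : α 0 = 1) (L : ℕ) {u v : V} (h : G.Adj u v) :
    (if K.Adj u v then x u ^ 2 else 0) + ∑ k ∈ range L, α k ^ 2 * mass G K x k u v +
      ∑ k ∈ range L, α (k + 1) ^ 2 * mass G K x k v u ≤ sqv G K x α L u := by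
  have e1 : ∀ k, ∑ t, mass G K x k t u = mass G K x (k + 1) u v + mass G K x k v u := fun k => by
    simp only [mass, h, if_true]
    rw [← sum_filter_add_sum_filter_not univ (fun t => t ≠ v), sum_filter]
    simp [filter_eq']
  have e2 : x u ^ 2 = (if K.Adj u v then x u ^ 2 else 0) + α 0 ^ 2 * mass G K x 0 u v := by
    by_cases hK : K.Adj u v <;> simp [mass, h, hK, h0]
  have e3 := sum_range_succ' (fun k => α k ^ 2 * mass G K x k u v) L
  have e4 := sum_range_succ (fun k => α k ^ 2 * mass G K x k u v) L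
  have e5 := mul_nonneg (sq_nonneg (α L)) (mass_nonneg (G := G) (K := K) (x := x) L u v)
  unfold sqv
  simp only [e1, mul_add, sum_add_distrib]
  linarith

theorem edge_le {α : ℕ → ℝ} (h0 : α 0 = 1) (L : ℕ) {u v : V} (h : G.Adj u v) :
    (if K.Adj u v then x u * x v else 0) + ∑ k ∈ range L, α k * α (k + 1) * mass G K x k u v +
      ∑ k ∈ range L, α k * α (k + 1) * mass G K x k v u ≤
        √(sqv G K x α L u) * √(sqv G K x α L v) := by
  have n1 : ∀ (β : ℕ → ℝ) u v, ∀ k ∈ range L, 0 ≤ β k ^ 2 * mass G K x k u v :=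
    fun β u v k _ => mul_nonneg (sq_nonneg _) (mass_nonneg ..)
  have n2 : ∀ u v, 0 ≤ (if K.Adj u v then x u ^ 2 else 0) := fun u v => by
    split_ifs <;> positivity
  have c1 : (if K.Adj u v then x u * x v else 0) ^ 2 ≤
      (if K.Adj u v then x u ^ 2 else 0) * if K.Adj v u then x v ^ 2 else 0 := by
    by_cases hK : K.Adj u v
    · rw [if_pos hK, if_pos hK, if_pos hK.symm]
      exact (mul_pow ..).le
    · simp [hK]
  have c2 := sum_sq_le_sum_mul_sum_of_sq_le_mul (range L)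
    (r := fun k => α k * α (k + 1) * mass G K x k u v) (n1 α u v) (n1 (fun k => α (k + 1)) u v)
    fun k _ => le_of_eq (by ring)
  have c3 := sum_sq_le_sum_mul_sum_of_sq_le_mul (range L)
    (r := fun k => α k * α (k + 1) * mass G K x k v u) (n1 (fun k => α (k + 1)) v u) (n1 α v u)
    fun k _ => le_of_eq (by ring)
  have s1 := sum_nonneg (n1 α u v)
  have s2 := sum_nonneg (n1 α v u)
  have s3 := sum_nonneg (n1 (fun k => α (k + 1)) u v)
  have s4 := sum_nonneg (n1 (fun k => α (k + 1)) v u)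
  have c4 := cs_add (cs_add c1 c2 (n2 u v) s1 (n2 v u) s3) c3 (add_nonneg (n2 u v) s1) s4
    (add_nonneg (n2 v u) s3) s2
  have l1 := le_sqv (K := K) (x := x) h0 L h
  have l2 := le_sqv (K := K) (x := x) h0 L h.symm
  have p1 : 0 ≤ sqv G K x α L u := le_trans (by linarith [n2 u v]) l1
  rw [← Real.sqrt_mul p1]
  exact Real.le_sqrt_of_sq_le (c4.trans (mul_le_mul l1 (by linarith) (by linarith [n2 v u]) p1))

theorem sum_lin (L : ℕ) : ∑ k ∈ range L, ((k : ℝ) + 1) = L * (L + 1) / 2 := by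
  induction L with
  | zero => simp
  | succ L ih => rw [sum_range_succ, ih]; push_cast; ring

theorem exists_test {d : ℕ} (hr : G.IsRegularOfDegree d) (hK : K ≤ G) {r : ℝ} (hr0 : 1 ≤ r)
    (hr2 : r ^ 2 = d - 1) {S : Finset V} (hS : ∀ v ∉ S, x v = 0) {L : ℕ} (hL : 1 ≤ L) :
    ∃ f : V → ℝ, (∑ v, f v) ^ 2 ≤ (S.card * (d + 1) ^ L : ℕ) * ((1 + L * d) * (x ⬝ᵥ x)) ∧
      -(x ⬝ᵥ betheHessian K r *ᵥ x) / r - d * (x ⬝ᵥ x) / L ≤
        f ⬝ᵥ G.adjMatrix ℝ *ᵥ f - 2 * r * (f ⬝ᵥ f) := by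
  have hr1 : 0 < r := by linarith
  have hL0 : (1 : ℝ) ≤ L := by exact_mod_cast hL
  set α : ℕ → ℝ := fun k => (1 - k / L) / r ^ k with hα
  have h0 : α 0 = 1 := by simp [hα]
  obtain ⟨Φ, hΦ⟩ : ∃ Φ, Φ = ∑ u, ((d : ℝ) - K.degree u) * x u ^ 2 := ⟨_, rfl⟩
  have hΦ0 : 0 ≤ Φ := by
    have := mass_total (x := x) hr hK 0
    rw [pow_zero, one_mul, ← hΦ] at this
    rw [← this]
    exact sum_nonneg fun _ _ => sum_nonneg fun _ _ => mass_nonneg ..
  have hΦ1 : Φ ≤ d * (x ⬝ᵥ x) := by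
    rw [hΦ, dot_self, mul_sum]
    exact sum_le_sum fun u _ => mul_le_mul_of_nonneg_right
      (sub_le_self _ (Nat.cast_nonneg _)) (sq_nonneg _)
  have hT : ∀ k, ∑ u, ∑ v, mass G K x k u v = (r ^ k) ^ 2 * Φ := fun k => by
    rw [mass_total hr hK, ← hΦ, ← hr2, ← pow_mul, ← pow_mul, mul_comm 2 k]
  have hT' : ∀ k, ∑ u, ∑ v, mass G K x k v u = (r ^ k) ^ 2 * Φ := fun k => by
    rw [sum_comm, hT]
  have p0 : ∀ v, 0 ≤ sqv G K x α L v := fun v => add_nonneg (sq_nonneg _)
    (sum_nonneg fun k _ => mul_nonneg (sq_nonneg _) (sum_nonneg fun _ _ => mass_nonneg ..))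
  set f : V → ℝ := fun v => √(sqv G K x α L v) with hf
  have hff : f ⬝ᵥ f = x ⬝ᵥ x + Φ / r ^ 2 * ∑ k ∈ range L, (1 - ((k : ℝ) + 1) / L) ^ 2 := by
    rw [dot_self, dot_self, sum_congr rfl fun v _ => Real.sq_sqrt (p0 v)]
    unfold sqv
    rw [sum_add_distrib, sum_comm (s := univ) (t := range L), mul_sum]
    refine congrArg _ (sum_congr rfl fun k _ => ?_)
    rw [← mul_sum, hT', hα]
    push_cast
    field_simp
    ring
  have hAf : x ⬝ᵥ K.adjMatrix ℝ *ᵥ x + 2 * (Φ / r) * ∑ k ∈ range L,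
      (1 - (k : ℝ) / L) * (1 - ((k : ℝ) + 1) / L) ≤ f ⬝ᵥ G.adjMatrix ℝ *ᵥ f := by
    rw [SimpleGraph.dotProduct_mulVec_adjMatrix, SimpleGraph.dotProduct_mulVec_adjMatrix]
    refine le_trans (le_of_eq ?_) (sum_le_sum fun u _ => sum_le_sum (f := fun v =>
      (if K.Adj u v then x u * x v else 0) + ∑ k ∈ range L, α k * α (k + 1) * mass G K x k u v +
        ∑ k ∈ range L, α k * α (k + 1) * mass G K x k v u) fun v _ => ?_)
    · have e : ∀ M : ℕ → V → V → ℝ, (∀ k, ∑ u, ∑ v, M k u v = (r ^ k) ^ 2 * Φ) →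
          ∑ u, ∑ v, ∑ k ∈ range L, α k * α (k + 1) * M k u v = Φ / r * ∑ k ∈ range L,
            (1 - (k : ℝ) / L) * (1 - ((k : ℝ) + 1) / L) := fun M hM => by
        rw [sum_congr rfl fun u _ => sum_comm, sum_comm, mul_sum]
        refine sum_congr rfl fun k _ => ?_
        simp only [← mul_sum]
        rw [hM, hα]
        push_cast
        field_simp
        ring
      simp only [sum_add_distrib]
      rw [e _ hT, e (fun k u v => mass G K x k v u) hT']
      ring
    · split_ifs with h1 h2 h2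
      · simpa only [if_pos h1] using edge_le (K := K) (x := x) h0 L h2
      · exact absurd (hK h1) h2
      · simpa only [if_neg h1] using edge_le (K := K) (x := x) h0 L h2
      · simp [mass_of_not_adj h2, mass_of_not_adj fun h' : G.Adj v u => h2 h'.symm]
  refine ⟨f, ?_, ?_⟩
  · obtain ⟨B, b1, b2, b3⟩ := mass_supp (K := K) hr hS L
    have a1 : ∑ v, f v = ∑ v ∈ B, f v := (sum_subset (subset_univ B) fun v _ hv => by
      rw [hf]
      simp only [sqv, hS v fun h => hv (b2 h)]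
      rw [sum_eq_zero fun k hk => by
        rw [sum_eq_zero fun t _ => b3 k (mem_range.1 hk) t v hv, mul_zero]]
      simp).symm
    have a2 : ∑ v ∈ B, f v ^ 2 ≤ f ⬝ᵥ f := by
      rw [dot_self]
      exact sum_le_sum_of_subset_of_nonneg (subset_univ B) fun _ _ _ => sq_nonneg _
    have a3 : ∑ k ∈ range L, (1 - (((k : ℕ) : ℝ) + 1) / (L : ℝ)) ^ 2 ≤ (L : ℝ) := by
      refine (sum_le_card_nsmul _ _ (1 : ℝ) fun k hk => ?_).trans (by simp)
      have c1 : (k : ℝ) + 1 ≤ L := by exact_mod_cast mem_range.1 hk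
      have c2 : ((k : ℝ) + 1) / L ≤ 1 := (div_le_one (by linarith)).2 c1
      have c3 : 0 ≤ ((k : ℝ) + 1) / L := by positivity
      generalize ((k : ℝ) + 1) / L = t at c2 c3
      nlinarith
    have a4 : Φ / r ^ 2 ≤ d * (x ⬝ᵥ x) := (div_le_self hΦ0 (one_le_pow₀ hr0)).trans hΦ1
    have a5 := mul_le_mul a4 a3 (sum_nonneg fun _ _ => sq_nonneg _) (hΦ0.trans hΦ1)
    rw [a1]
    refine sq_sum_le_card_mul_sum_sq.trans (mul_le_mul (by exact_mod_cast b1) ?_
      (sum_nonneg fun _ _ => sq_nonneg _) (Nat.cast_nonneg _))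
    linarith
  · have a1 : ∑ k ∈ range L, (1 - (k : ℝ) / L) * (1 - ((k : ℝ) + 1) / L) -
        ∑ k ∈ range L, (1 - ((k : ℝ) + 1) / L) ^ 2 = (1 - 1 / L) / 2 := by
      rw [← sum_sub_distrib, sum_congr rfl (g := fun k : ℕ => 1 / (L : ℝ) - (k + 1) / L ^ 2)
        fun k _ => by field_simp; ring, sum_sub_distrib, ← sum_div, ← sum_div, sum_lin]
      simp only [sum_const, card_range, nsmul_eq_mul]
      field_simp
      ring
    have a2 : -(x ⬝ᵥ betheHessian K r *ᵥ x) / r =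
        x ⬝ᵥ K.adjMatrix ℝ *ᵥ x - 2 * r * (x ⬝ᵥ x) + Φ / r := by
      have : ∑ i, (r ^ 2 - 1 + K.degree i) * x i ^ 2 = 2 * r ^ 2 * (x ⬝ᵥ x) - Φ := by
        rw [hΦ, dot_self, mul_sum, ← sum_sub_distrib]
        exact sum_congr rfl fun i _ => by rw [hr2]; ring
      rw [bethe_quad, this]
      field_simp
      ring
    have a3 : Φ / r * (1 / L) ≤ d * (x ⬝ᵥ x) / L := by
      rw [mul_one_div]
      exact div_le_div_of_nonneg_right ((div_le_self hΦ0 hr0).trans hΦ1) (by linarith)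
    have a4 : 2 * r * (Φ / r ^ 2) = 2 * (Φ / r) := by field_simp
    rw [a2, hff, mul_add, ← mul_assoc, a4]
    have a5 := congrArg (fun t => 2 * (Φ / r) * t) a1
    beta_reduce at a5
    rw [mul_sub] at a5
    linarith

omit [DecidableRel K.Adj] in
/-- A vector of sum zero with large quadratic form gives a large nonconstant eigenvalue. -/
theorem exists_eig {d : ℕ} (hr : G.IsRegularOfDegree d) {θ : ℝ} (hθ : 0 ≤ θ) {g : V → ℝ}
    (hg : ∑ v, g v = 0) (h : θ * (g ⬝ᵥ g) < g ⬝ᵥ G.adjMatrix ℝ *ᵥ g) :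
    ∃ (μ : ℝ) (z : V → ℝ), z ≠ 0 ∧ ∑ i, z i = 0 ∧ G.adjMatrix ℝ *ᵥ z = μ • z ∧ θ < μ := by
  by_contra hno
  push Not at hno
  rcases isEmpty_or_nonempty V with hV | hV
  · simp [dotProduct] at h
  have hn : (Fintype.card V : ℝ) ≠ 0 := by exact_mod_cast Fintype.card_ne_zero
  set B : Matrix V V ℝ := G.adjMatrix ℝ - of fun _ _ => (d : ℝ) / Fintype.card V with hB
  have hBs : Bᵀ = B := by
    rw [hB, transpose_sub, SimpleGraph.transpose_adjMatrix]
    rfl
  have hBv : ∀ z : V → ℝ, B *ᵥ z = G.adjMatrix ℝ *ᵥ z -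
      fun _ => (d : ℝ) / Fintype.card V * ∑ i, z i := fun z => by
    rw [hB, sub_mulVec]
    congr 1
    funext v
    simp [mulVec, dotProduct, mul_sum]
  have hB1 : B *ᵥ (fun _ => (1 : ℝ)) = 0 := by
    funext v
    rw [hBv, Pi.sub_apply, N049.mulVec_eq_sum, ← N049.degree_eq_sum, hr v]
    simp [hn]
  let S := specData hBs
  have hl : ∀ i, S.l i ≤ θ := fun i => by
    have e1 : B *ᵥ (fun a => S.U a i) = S.l i • fun a => S.U a i := by
      have : B * S.U = S.U * diagonal S.l := by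
        have := congrArg (· * S.U) S.eq
        simpa only [Matrix.mul_assoc, S.tmul, Matrix.mul_one] using this
      funext a
      have := congrFun (congrFun this a) i
      rw [mul_diagonal] at this
      rw [Pi.smul_apply, smul_eq_mul, mul_comm, ← this]
      rfl
    by_cases h0 : S.l i = 0
    · rw [h0]; exact hθ
    have e2 : ∑ a, S.U a i = 0 := by
      have := dot_mulVec_symm hBs (fun _ => 1) fun a => S.U a i
      rw [hB1, e1, dotProduct_zero, dotProduct_smul, smul_eq_mul] at this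
      simpa [dotProduct] using (mul_eq_zero.1 this).resolve_left h0
    refine hno _ (fun a => S.U a i) (fun hz => ?_) e2 ?_
    · have := S.sum_U_sq' i
      simp only [show ∀ a, S.U a i = 0 from congrFun hz] at this
      simp at this
    · rw [← e1, hBv, e2, mul_zero]
      exact (sub_zero _).symm
  have := psd_quad (S.psd_sub_of_ge hl) g
  rw [sub_mulVec, smul_mulVec, one_mulVec, hBv, hg, mul_zero, dotProduct_sub, dotProduct_smul,
    smul_eq_mul, show (fun _ : V => (0 : ℝ)) = 0 from rfl, sub_zero] at this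
  linarith

omit [DecidableRel K.Adj] in
theorem exists_eig' {d : ℕ} (hr : G.IsRegularOfDegree d) {θ : ℝ} (hθ : 0 ≤ θ) {f : V → ℝ}
    (hn : (0 : ℝ) < Fintype.card V)
    (h : d * (∑ v, f v) ^ 2 / Fintype.card V < f ⬝ᵥ G.adjMatrix ℝ *ᵥ f - θ * (f ⬝ᵥ f)) :
    ∃ (μ : ℝ) (z : V → ℝ), z ≠ 0 ∧ ∑ i, z i = 0 ∧ G.adjMatrix ℝ *ᵥ z = μ • z ∧ θ < μ := by
  obtain ⟨m, hm⟩ : ∃ m : ℝ, ∑ v, f v = m * Fintype.card V :=
    ⟨_, (div_mul_cancel₀ _ hn.ne').symm⟩
  set o : V → ℝ := fun _ => 1 with ho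
  have h1 : G.adjMatrix ℝ *ᵥ o = (d : ℝ) • o := by
    funext v
    rw [ho, N049.mulVec_eq_sum, ← N049.degree_eq_sum, hr v]
    simp
  have h2 : f ⬝ᵥ o = m * Fintype.card V := by simpa [ho, dotProduct] using hm
  have h3 : o ⬝ᵥ o = Fintype.card V := by simp [ho, dotProduct]
  have h4 : o ⬝ᵥ G.adjMatrix ℝ *ᵥ f = d * (m * Fintype.card V) := by
    rw [dot_mulVec_symm (G.transpose_adjMatrix ..), h1, dotProduct_smul, h2, smul_eq_mul]
  refine exists_eig hr hθ (g := f - m • o) (by simp [ho, sum_sub_distrib, hm, mul_comm]) ?_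
  rw [hm, mul_pow, sq (Fintype.card V : ℝ), ← mul_assoc, ← mul_assoc, mul_div_cancel_right₀ _ hn.ne']
    at h
  simp only [mulVec_sub, mulVec_smul, h1, dotProduct_sub, sub_dotProduct, dotProduct_smul,
    smul_dotProduct, smul_eq_mul, h2, h3, h4, dotProduct_comm o f]
  nlinarith [mul_nonneg hθ (mul_nonneg (sq_nonneg m) hn.le)]

end Lift

theorem sharp {d h : ℕ} (hd : 3 ≤ d) (H : SimpleGraph (Fin h)) [DecidableRel H.Adj]
    (hH : ¬ (betheHessian H √((d : ℝ) - 1)).PosSemidef) :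
    ∃ n₁ : ℕ, ∀ n : ℕ, n₁ ≤ n → ∀ (G : SimpleGraph (Fin n)) [DecidableRel G.Adj],
      G.IsRegularOfDegree d → H.IsContained G →
      ∃ (μ : ℝ) (x : Fin n → ℝ), x ≠ 0 ∧ ∑ i, x i = 0 ∧
        (G.adjMatrix ℝ).mulVec x = μ • x ∧ 2 * √((d : ℝ) - 1) < μ := by
  classical
  have hd3 : (3 : ℝ) ≤ d := by exact_mod_cast hd
  have hr2 : √((d : ℝ) - 1) ^ 2 = d - 1 := Real.sq_sqrt (by linarith)
  have hr1 : 1 ≤ √((d : ℝ) - 1) := Real.one_le_sqrt.2 (by linarith)
  generalize √((d : ℝ) - 1) = r at *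
  have hr0 : 0 < r := by linarith
  obtain ⟨y₀, hy₀⟩ : ∃ y, y ⬝ᵥ betheHessian H r *ᵥ y < 0 := by
    by_contra hno
    push Not at hno
    exact hH (psd_of (bethe_symm H r) hno)
  obtain ⟨y, c, hc, hy⟩ : ∃ (y : Fin h → ℝ) (c : ℝ), 0 < c ∧ -(y ⬝ᵥ betheHessian H r *ᵥ y) / r = c :=
    ⟨y₀, _, div_pos (by linarith) hr0, rfl⟩
  have hY : 0 ≤ y ⬝ᵥ y := by rw [dot_self]; positivity
  obtain ⟨L, hL⟩ := exists_nat_gt (2 * (d * (y ⬝ᵥ y)) / c)
  have hL0 : (0 : ℝ) < L := lt_of_le_of_lt (by positivity) hL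
  obtain ⟨n₁, hn₁⟩ := exists_nat_gt
    (2 * (d * ((h * (d + 1) ^ L : ℕ) * ((1 + L * d) * (y ⬝ᵥ y)))) / c)
  refine ⟨n₁, fun n hn G _ hr ⟨φ⟩ => ?_⟩
  have hn' := hn₁.trans_le (Nat.cast_le.2 hn)
  have hn0 : (0 : ℝ) < n := lt_of_le_of_lt (by positivity) hn'
  set e := φ.toEmbedding
  set x : Fin n → ℝ := Function.extend e y 0 with hx
  have x1 : ∀ a, x (e a) = y a := fun a => e.injective.extend_apply ..
  have x2 : ∀ v, v ∉ Set.range e → x v = 0 := fun v hv => Function.extend_apply' _ _ _ hv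
  have x3 : x ⬝ᵥ x = y ⬝ᵥ y := (Fintype.sum_of_injective e e.injective _ _
    (fun v hv => by rw [x2 v hv, mul_zero]) fun a => by rw [x1]).symm
  have hK : H.map e ≤ G := fun u v huv => by
    obtain ⟨a, b, hab, rfl, rfl⟩ := (SimpleGraph.map_adj e H u v).1 huv
    exact φ.toHom.map_rel hab
  have x4 : x ⬝ᵥ betheHessian (H.map e) r *ᵥ x = y ⬝ᵥ betheHessian H r *ᵥ y := by
    rw [bethe_quad, bethe_quad, quad_map]
    simp only [add_mul, sum_add_distrib, ← mul_sum, ← dot_self, x3, sum_deg_map, x1]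
  obtain ⟨f, f1, f2⟩ := exists_test (x := x) hr hK hr1 hr2 (S := univ.map e)
    (fun v hv => x2 v fun ⟨a, ha⟩ => hv (mem_map.2 ⟨a, mem_univ _, ha⟩)) (L := L)
    (by exact_mod_cast hL0)
  rw [card_map, card_univ, Fintype.card_fin, x3] at f1
  rw [x3, x4, hy] at f2
  refine exists_eig' hr (by positivity) (f := f) (by simpa using hn0) (lt_of_lt_of_le ?_ f2)
  rw [Fintype.card_fin]
  rw [div_lt_iff₀ hc] at hL hn'
  have a1 : d * (y ⬝ᵥ y) / L < c / 2 := by
    rw [div_lt_iff₀ hL0]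
    linarith
  have a2 : d * (∑ v, f v) ^ 2 / n < c / 2 := by
    rw [div_lt_iff₀ hn0]
    have := mul_le_mul_of_nonneg_left f1 (Nat.cast_nonneg (α := ℝ) d)
    linarith
  linarith

open SimpleGraph in
theorem egirth_le_map {ι V : Type} (H : SimpleGraph ι) (e : ι ↪ V) :
    H.egirth ≤ (H.map e).egirth := by
  refine le_egirth.2 fun a w hw => ?_
  obtain ⟨m, hm⟩ : ∃ m, w.length = m + 3 := ⟨w.length - 3, by have := hw.three_le_length; omega⟩
  obtain ⟨φ⟩ := (cycleGraph_isContained_iff (n := m + 3) (by omega)).2 ⟨a, w, hw, hm⟩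
  have : ∀ v, ∃ b, e b = φ.toHom v := fun v => by
    obtain ⟨b, -, -, hb, -⟩ := (map_adj e H _ _).1
      (φ.toHom.map_rel (a := v) (b := v + 1) (cycleGraph_adj.2 (.inr (by simp))))
    exact ⟨b, hb⟩
  choose ψ hψ using this
  obtain ⟨b, p, p1, p2⟩ := (cycleGraph_isContained_iff (G := H) (n := m + 3) (by omega)).1
    ⟨⟨⟨ψ, fun hab => map_adj_apply.1 (by rw [hψ, hψ]; exact φ.toHom.map_rel hab)⟩,
      fun u v huv => φ.injective' (by rw [← hψ, ← hψ]; exact congrArg e huv)⟩⟩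
  rw [hm, ← p2]
  exact egirth_le_length p1

open SimpleGraph in
theorem egirth_cycleGraph (g : ℕ) : (cycleGraph (g + 3)).egirth = (g + 3 : ℕ) := by
  refine le_antisymm ((egirth_le_length cycleGraph.isCycle_cycle).trans_eq
    (by rw [cycleGraph.length_cycle])) (le_egirth.2 fun a w hw => ?_)
  obtain ⟨m, hm⟩ : ∃ m, w.length = m + 3 := ⟨w.length - 3, by have := hw.three_le_length; omega⟩
  obtain ⟨φ⟩ := (cycleGraph_isContained_iff (n := m + 3) (by omega)).2 ⟨a, w, hw, hm⟩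
  have h1 : ∀ v u, (cycleGraph (g + 3)).Adj (φ.toHom v) u → ∃ t, φ.toHom t = u := fun v u hu => by
    have h2 : ((cycleGraph (m + 3)).neighborFinset v).map φ.toEmbedding =
        (cycleGraph (g + 3)).neighborFinset (φ.toHom v) := by
      refine eq_of_subset_of_card_le (fun t ht => ?_) ?_
      · obtain ⟨s, hs, rfl⟩ := mem_map.1 ht
        exact (mem_neighborFinset ..).2 (φ.toHom.map_rel ((mem_neighborFinset ..).1 hs))
      · rw [card_map, card_neighborFinset_eq_degree, card_neighborFinset_eq_degree,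
          cycleGraph_degree_three_le, cycleGraph_degree_three_le]
    obtain ⟨t, -, ht⟩ := mem_map.1 (h2 ▸ (mem_neighborFinset ..).2 hu)
    exact ⟨t, ht⟩
  have h3 : ∀ {u v} (_ : (cycleGraph (g + 3)).Walk u v), (∃ t, φ.toHom t = u) →
      ∃ t, φ.toHom t = v := fun p => by
    induction p with
    | nil => exact id
    | cons h _ ih => exact fun ⟨t, ht⟩ => ih (h1 t _ (ht ▸ h))
  have h4 := Fintype.card_le_of_surjective φ.toHom fun v =>
    (cycleGraph_preconnected (φ.toHom 0) v).elim fun p => h3 p ⟨0, rfl⟩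
  rw [Fintype.card_fin, Fintype.card_fin] at h4
  rw [hm]
  exact_mod_cast h4

theorem posDef_of_degree {V : Type} [Fintype V] [DecidableEq V] (H : SimpleGraph V)
    [DecidableRel H.Adj] {r : ℝ} (hr : 1 < r) (hd : ∀ v, (H.degree v : ℝ) < r + 1) :
    (betheHessian H r).PosDef := by
  refine .of_dotProduct_mulVec_pos ?_ fun x hx => ?_
  · rw [IsHermitian, conjTranspose_eq_transpose_of_trivial, bethe_symm]
  have h1 := psd_quad (H.posSemidef_lapMatrix ℝ) x
  rw [SimpleGraph.lapMatrix, sub_mulVec, dotProduct_sub,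
    SimpleGraph.dotProduct_mulVec_degMatrix] at h1
  obtain ⟨i, hi⟩ := Function.ne_iff.1 hx
  have h2 : 0 < ∑ v, (r - 1) * (r + 1 - H.degree v) * x v ^ 2 :=
    sum_pos' (fun v _ => mul_nonneg (mul_pos (sub_pos.2 hr) (sub_pos.2 (hd v))).le (sq_nonneg _))
      ⟨i, mem_univ _, mul_pos (mul_pos (sub_pos.2 hr) (sub_pos.2 (hd i))) (sq_pos_iff.2 hi)⟩
  have h3 : ∑ v, (r - 1) * (r + 1 - H.degree v) * x v ^ 2 =
      ∑ v, (r ^ 2 - 1 + H.degree v) * x v ^ 2 - r * ∑ v, H.degree v * x v * x v := by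
    rw [mul_sum, ← sum_sub_distrib]
    exact sum_congr rfl fun v _ => by ring
  rw [star_trivial, bethe_quad]
  nlinarith

theorem girth_eq {d g : ℕ} (hd : 3 ≤ d) (hg : 3 ≤ g) :
    ∃ out : ℕ → List Bool, PolyTime (fun n => List.replicate n true) out ∧
      ∃ n₀ : ℕ, ∀ n : ℕ, n₀ ≤ n → Even (d * n) →
        ∃ (G : SimpleGraph (Fin n)) (_ : DecidableRel G.Adj),
          out n = adjWord G ∧ G.IsRegularOfDegree d ∧
          (∀ (μ : ℝ) (x : Fin n → ℝ), x ≠ 0 → ∑ i, x i = 0 →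
            (G.adjMatrix ℝ).mulVec x = μ • x → |μ| ≤ 2 * √((d : ℝ) - 1)) ∧ G.egirth = g := by
  obtain ⟨g, rfl⟩ : ∃ k, g = k + 3 := ⟨g - 3, by omega⟩
  have hd3 : (3 : ℝ) ≤ d := by exact_mod_cast hd
  have hr : 1 < √((d : ℝ) - 1) := Real.lt_sqrt_of_sq_lt (by linarith)
  obtain ⟨out, h1, n₀, C, h2⟩ := planted hd (SimpleGraph.cycleGraph (g + 3))
    (fun v => by rw [SimpleGraph.cycleGraph_degree_three_le]; omega)
    (posDef_of_degree _ hr fun v => by
      rw [SimpleGraph.cycleGraph_degree_three_le]; push_cast; linarith)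
  refine ⟨out, h1, n₀ + 2 ^ (C * (g + 3)), fun n hn he => ?_⟩
  obtain ⟨G, _, g1, g2, g3, f, g4⟩ := h2 n (le_of_add_le_left hn) he
  refine ⟨G, _, g1, g2, g3, le_antisymm (f.isContained.egirth_le.trans_eq (egirth_cycleGraph g))
    (SimpleGraph.le_egirth.2 fun u c hc => ?_)⟩
  by_contra hlt
  have h3 : c.length ≤ g + 3 := by exact_mod_cast (not_le.1 hlt).le
  have h4 := g4 u c hc ((Nat.mul_le_mul_left C h3).trans
    (Nat.le_log_of_pow_le (by norm_num) (le_of_add_le_right hn)))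
  have h5 := (egirth_le_map _ f.toEmbedding).trans (SimpleGraph.egirth_le_length (hc.transfer h4))
  rw [egirth_cycleGraph, SimpleGraph.Walk.length_transfer] at h5
  exact hlt h5

end Vale.Agent.N049D
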